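import Vale.Agent.Lib.PolyTime.Lists2
import Vale.Agent.Lib.PolyTime.NatArith2
import Vale.Agent.Lib.PolyTime.Bitwise

/-!
# Polynomial time: fixed finite sums and quantifiers, numbers given by their bits, parities
-/

namespace Vale.Agent.P330.S

open Vale.Agent.Lib.PolyTime

variable {A : Set Word} {α β : Type*} [Enc α] [Enc β]

theorem PT_sumFin {n : ℕ} {f : Fin n → α → ℕ} (h : ∀ i, PT A (f i)) :
    PT A (fun a => ∑ i, f i a) := by
  induction n with
  | zero => simpa using PT.const (A := A) (α := α) 0
  | succ n ih =>
    simp only [Fin.sum_univ_succ]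
    exact PT.add (h 0) (ih fun i => h i.succ)

theorem PT_prodFin {n : ℕ} {f : Fin n → α → ℕ} (h : ∀ i, PT A (f i)) :
    PT A (fun a => ∏ i, f i a) := by
  induction n with
  | zero => simpa using PT.const (A := A) (α := α) 1
  | succ n ih =>
    simp only [Fin.prod_univ_succ]
    exact PT.mul (h 0) (ih fun i => h i.succ)

theorem PT_allFin {n : ℕ} {p : Fin n → α → Prop} [∀ i, DecidablePred (p i)]
    (h : ∀ i, PT A (fun a => decide (p i a))) : PT A (fun a => decide (∀ i, p i a)) := by
  induction n with
  | zero => exact (PT.const true).congr fun a => by simp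
  | succ n ih =>
    refine (PT.and (h 0) (ih (p := fun i => p i.succ) fun i => h i.succ)).congr fun a => ?_
    rw [← Bool.decide_and, decide_eq_decide, Fin.forall_fin_succ]

theorem PT_exFin {n : ℕ} {p : Fin n → α → Prop} [∀ i, DecidablePred (p i)]
    (h : ∀ i, PT A (fun a => decide (p i a))) : PT A (fun a => decide (∃ i, p i a)) := by
  induction n with
  | zero => exact (PT.const false).congr fun a => by simp
  | succ n ih =>
    refine (PT.or (h 0) (ih (p := fun i => p i.succ) fun i => h i.succ)).congr fun a => ?_
    rw [← Bool.decide_or, decide_eq_decide, Fin.exists_fin_succ]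

/-- A Boolean combination of finitely many polynomial time bits. -/
theorem PT_boolFn {ι : Type*} [Fintype ι] {f : ι → α → Bool} (h : ∀ i, PT A (f i))
    (F : (ι → Bool) → Bool) : PT A (fun a => F fun i => f i a) := by
  classical
  -- reduction to `Fin n`
  have key : ∀ (n : ℕ) (g : Fin n → α → Bool), (∀ i, PT A (g i)) → ∀ G : (Fin n → Bool) → Bool,
      PT A (fun a => G fun i => g i a) := by
    intro n
    induction n with
    | zero =>
      intro g _ G
      exact (PT.const (G Fin.elim0)).congr fun a => by
        congr 1
        exact Subsingleton.elim _ _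
    | succ n ih =>
      intro g hg G
      have h1 := ih (fun i => g i.succ) (fun i => hg i.succ) fun y => G (Fin.cons true y)
      have h2 := ih (fun i => g i.succ) (fun i => hg i.succ) fun y => G (Fin.cons false y)
      refine ((hg 0).cond h1 h2).congr fun a => ?_
      have e : (fun i => g i a) = Fin.cons (g 0 a) (fun i : Fin n => g i.succ a) := by
        funext i
        refine Fin.cases ?_ (fun i => ?_) i <;> simp
      rw [e]
      cases g 0 a <;> rfl
  have e := Fintype.equivFin ι
  refine (key _ (fun i => f (e.symm i)) (fun i => h _) fun y => F fun i => y (e i)).congr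
    fun a => ?_
  simp

theorem PT_bnot_decide {p : α → Prop} [DecidablePred p] (hp : PT A (fun a => decide (p a))) :
    PT A (fun a => decide (¬ p a)) := PT.decide_not hp

theorem PT_decideBool {f : α → Bool} (hf : PT A f) : PT A (fun a => decide (f a = true)) :=
  hf.congr fun a => by simp

/-- the number with the bits `f 0, …, f (n - 1)` -/
def ofBits (n : ℕ) (f : ℕ → Bool) : ℕ := val ((List.range n).map f)

theorem testBit_val (w : Word) (i : ℕ) : (val w).testBit i = w.getD i false := by
  induction w generalizing i with
  | nil => simp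
  | cons b w ih =>
    have e : val (b :: w) = Nat.bit b (val w) := by
      rw [val_cons, Nat.bit_val]; ring
    rw [e]
    cases i with
    | zero => simp
    | succ i => rw [Nat.testBit_bit_succ, ih]; simp

theorem testBit_ofBits (n : ℕ) (f : ℕ → Bool) (i : ℕ) (hi : i < n) :
    (ofBits n f).testBit i = f i := by
  unfold ofBits
  rw [testBit_val, List.getD_eq_getElem?_getD, List.getElem?_map, List.getElem?_range hi]
  rfl

theorem ofBits_lt (n : ℕ) (f : ℕ → Bool) : ofBits n f < 2 ^ n := by
  have := val_lt ((List.range n).map f)
  rwa [List.length_map, List.length_range] at this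

theorem PT.ofBits {n : α → ℕ} {f : α → ℕ → Bool} (hn : PT A n) (hb : PBd n)
    (hf : PT A (fun p : α × ℕ => f p.1 p.2)) : PT A (fun a => ofBits (n a) (f a)) :=
  PT.valList (PT.map (PT.range hn hb) hf)

/-- the number of `k < n` with `f k` is odd -/
def parity (n : ℕ) (f : ℕ → Bool) : Bool := decide (((List.range n).filter f).length % 2 = 1)

theorem parity_eq (n : ℕ) (f : ℕ → Bool) :
    parity n f = decide ((∑ k ∈ Finset.range n, (if f k = true then 1 else 0 : ZMod 2)) = 1) := by
  have h1 : (∑ k ∈ Finset.range n, (if f k = true then 1 else 0 : ZMod 2)) =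
      (((List.range n).filter f).length : ZMod 2) := by
    induction n with
    | zero => simp
    | succ n ih =>
      rw [Finset.sum_range_succ, ih, List.range_succ, List.filter_append, List.length_append]
      cases h : f n <;> simp [h]
  rw [h1]
  unfold parity
  rw [decide_eq_decide]
  have h2 : (((List.range n).filter f).length : ZMod 2) = 1 ↔
      ((List.range n).filter f).length % 2 = 1 := by
    rw [← Nat.cast_one, ZMod.natCast_eq_natCast_iff]
    rfl
  exact h2.symm

theorem PT.parity {n : α → ℕ} {f : α → ℕ → Bool} (hn : PT A n) (hb : PBd n)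
    (hf : PT A (fun p : α × ℕ => f p.1 p.2)) : PT A (fun a => parity (n a) (f a)) :=
  PT.eqNat (PT.mod (PT.length (PT.filter (PT.range hn hb) hf)) (PT.const 2)) (PT.const 1)

end Vale.Agent.P330.S
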