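import Vale.Agent.P330.S.Mach

/-!
# Positions of the concrete instance

Arithmetic of `pt`, `posn` and of the offsets; validity in terms of `Allowed`.
-/

namespace Vale.Agent.P330.S.Mach

open Finset

variable {r : ℕ}

/-- the position with the integer number `a` -/
def ptZ (L : Fin r → ℕ) (a : ℤ) : ∀ i, ZMod (L i) := fun _ => (a : ZMod _)

theorem pt_eq_ptZ (L : Fin r → ℕ) (p : ℕ) : pt L p = ptZ L p := by
  funext i
  simp [pt, ptZ]

theorem ptZ_add (L : Fin r → ℕ) (a b : ℤ) : ptZ L (a + b) = ptZ L a + ptZ L b := by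
  funext i
  simp [ptZ]

theorem off_eq_ptZ (P : Prm) (L : Fin r → ℕ) (o : Off) : P.off L o = ptZ L (P.offZ o) := rfl

theorem pt_add_off (P : Prm) (L : Fin r → ℕ) (p : ℕ) (o : Off) :
    pt L p + P.off L o = ptZ L (p + P.offZ o) := by
  rw [pt_eq_ptZ, off_eq_ptZ, ptZ_add]

theorem ptZ_add_off (P : Prm) (L : Fin r → ℕ) (a : ℤ) (o : Off) :
    ptZ L a + P.off L o = ptZ L (a + P.offZ o) := by
  rw [off_eq_ptZ, ptZ_add]

theorem off_o0 (P : Prm) (L : Fin r → ℕ) : P.off L .o0 = 0 := by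
  funext i
  simp [Prm.off, Prm.offZ]

namespace Good

variable {P : Prm} {L : Fin r → ℕ}

theorem ptZ_inj (h : Good P L) {a b : ℤ} (e : ptZ L a = ptZ L b)
    (hab : |a - b| < (∏ i, L i : ℕ)) : a = b :=
  eq_of_cast_eq h.cop (fun i => congrFun e i) hab

theorem ptZ_period (L : Fin r → ℕ) (a : ℤ) : ptZ L (a + (∏ i, L i : ℕ)) = ptZ L a := by
  funext i
  have h1 : (L i) ∣ ∏ i, L i := Finset.dvd_prod_of_mem _ (Finset.mem_univ i)
  have h2 : (((∏ i, L i : ℕ) : ℤ) : ZMod (L i)) = 0 := by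
    rw [Int.cast_natCast]
    exact (ZMod.natCast_eq_zero_iff _ _).2 h1
  simp only [ptZ]
  rw [Int.cast_add, h2, add_zero]

theorem hN (h : Good P L) : 0 < ∏ i, L i := lt_of_lt_of_le (by omega) h.big

theorem hB (h : Good P L) : 4 ≤ P.R * P.W := by
  have := Nat.mul_le_mul h.R2 h.W2
  omega

theorem pt_inj (h : Good P L) {a b : ℕ} (ha : a < ∏ i, L i) (hb : b < ∏ i, L i)
    (e : pt L a = pt L b) : a = b := by
  rw [pt_eq_ptZ, pt_eq_ptZ] at e
  have := h.ptZ_inj e (by rw [abs_lt]; constructor <;> omega)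
  exact_mod_cast this

/-- Every position has a number. -/
theorem exists_pt (h : Good P L) (j : ∀ i, ZMod (L i)) : ∃ a, a < (∏ i, L i) ∧ pt L a = j := by
  have : ∀ i, NeZero (L i) := fun i => ⟨by have := h.L5 i; omega⟩
  have hinj : Function.Injective (fun a : Fin (∏ i, L i) => pt L (a : ℕ)) := by
    intro a b e
    exact Fin.ext (h.pt_inj a.2 b.2 e)
  have hbij : Function.Bijective (fun a : Fin (∏ i, L i) => pt L (a : ℕ)) := by
    rw [Fintype.bijective_iff_injective_and_card]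
    refine ⟨hinj, ?_⟩
    rw [Fintype.card_fin, Fintype.card_pi]
    exact Finset.prod_congr rfl fun i _ => (ZMod.card (L i)).symm
  obtain ⟨a, ha⟩ := hbij.2 j
  exact ⟨a, a.2, ha⟩

/-- Cyclic induction. -/
theorem cyc (h : Good P L) (Q : (∀ i, ZMod (L i)) → Prop) (p₀ : ℕ) (h0 : Q (pt L p₀))
    (hs : ∀ j, Q j → Q (j + P.off L .p1)) (j : ∀ i, ZMod (L i)) : Q j := by
  have h1 : ∀ k : ℕ, Q (pt L (p₀ + k)) := by
    intro k
    induction k with
    | zero => exact h0
    | succ k ih =>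
      have := hs _ ih
      rw [pt_add_off] at this
      rw [pt_eq_ptZ]
      have h5 : ((p₀ + (k + 1) : ℕ) : ℤ) = ((p₀ + k : ℕ) : ℤ) + P.offZ Off.p1 := by
        simp only [Prm.offZ]
        push_cast
        ring
      rw [h5]
      exact this
  obtain ⟨a, _, rfl⟩ := h.exists_pt j
  have h2 : pt L a = pt L (p₀ + (a + p₀ * ((∏ i, L i) - 1))) := by
    have h3 : p₀ + (a + p₀ * ((∏ i, L i) - 1)) = a + p₀ * ∏ i, L i := by
      have hN := h.hN
      obtain ⟨m, hm⟩ : ∃ m, ∏ i, L i = m + 1 := ⟨_, (Nat.succ_pred_eq_of_pos hN).symm⟩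
      rw [hm]
      simp only [Nat.add_sub_cancel]
      ring
    rw [h3]
    have h4 : ∀ k : ℕ, pt L (a + k * ∏ i, L i) = pt L a := by
      intro k
      induction k with
      | zero => simp
      | succ k ih =>
        rw [← ih, pt_eq_ptZ, pt_eq_ptZ, ← ptZ_period L ((a + k * ∏ i, L i : ℕ) : ℤ)]
        congr 1
        push_cast
        ring
    exact (h4 p₀).symm
  rw [h2]
  exact h1 _

theorem m1_p1 (P : Prm) (L : Fin r → ℕ) (j : ∀ i, ZMod (L i)) : j + P.off L .p1 + P.off L .m1 = j := by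
  funext i
  simp [Prm.off, Prm.offZ]

theorem p1_m1 (P : Prm) (L : Fin r → ℕ) (j : ∀ i, ZMod (L i)) : j + P.off L .m1 + P.off L .p1 = j := by
  funext i
  simp [Prm.off, Prm.offZ]

/-! ### Numbers of positions -/

theorem posn_pt (h : Good P L) {p : ℕ} (hp : p ≤ P.R * P.W) : posn L (P.R * P.W) (pt L p) = p := by
  have hex : ∃ q, q ≤ P.R * P.W ∧ pt L q = pt L p := ⟨p, hp, rfl⟩
  rw [posn, dif_pos hex]
  have h1 := Nat.find_spec hex
  have hb := h.big
  exact h.pt_inj (by omega) (by omega) h1.2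

theorem posn_le (L : Fin r → ℕ) (B : ℕ) (j : ∀ i, ZMod (L i)) : posn L B j ≤ B + 1 := by
  unfold posn
  split_ifs with hex
  · exact (Nat.find_spec hex).1.trans (Nat.le_succ _)
  · exact le_rfl

theorem pt_posn (L : Fin r → ℕ) (B : ℕ) (j : ∀ i, ZMod (L i)) (hj : posn L B j ≤ B) :
    pt L (posn L B j) = j := by
  unfold posn at hj ⊢
  split_ifs at hj ⊢ with hex
  · exact (Nat.find_spec hex).2
  · omega

theorem posn_ptZ (h : Good P L) {a : ℤ} {p : ℕ} (ha : a = p) (hp : p ≤ P.R * P.W) :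
    posn L (P.R * P.W) (ptZ L a) = p := by
  rw [ha, ← pt_eq_ptZ]
  exact h.posn_pt hp

theorem posn_dead (h : Good P L) {a : ℤ} (h1 : (P.R * P.W : ℕ) < a ∨ a < 0)
    (h2 : a < (∏ i, L i : ℕ)) (h3 : ((P.R * P.W : ℕ) : ℤ) - (∏ i, L i : ℕ) < a) :
    posn L (P.R * P.W) (ptZ L a) = P.R * P.W + 1 := by
  have hex : ¬ ∃ q, q ≤ P.R * P.W ∧ pt L q = ptZ L a := by
    rintro ⟨q, hq, e⟩
    rw [pt_eq_ptZ] at e
    have := h.ptZ_inj e (by rw [abs_lt]; constructor <;> omega)
    omega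
  rw [posn, dif_neg hex]

/-- A position is `pt L p` with `p ≤ R W`, or dead. -/
theorem cases (h : Good P L) (j : ∀ i, ZMod (L i)) :
    (∃ p, p ≤ P.R * P.W ∧ j = pt L p ∧ posn L (P.R * P.W) j = p) ∨
    (∃ a, P.R * P.W < a ∧ a < (∏ i, L i) ∧ j = pt L a ∧ posn L (P.R * P.W) j = P.R * P.W + 1) := by
  obtain ⟨a, ha, rfl⟩ := h.exists_pt j
  rcases le_or_gt a (P.R * P.W) with h1 | h1
  · exact Or.inl ⟨a, h1, rfl, h.posn_pt h1⟩
  · refine Or.inr ⟨a, h1, ha, rfl, ?_⟩
    rw [pt_eq_ptZ]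
    exact h.posn_dead (Or.inl (by exact_mod_cast h1)) (by exact_mod_cast ha) (by omega)

theorem posn_m1 (h : Good P L) {p : ℕ} (hp : p ≤ P.R * P.W) (h1 : 1 ≤ p) :
    posn L (P.R * P.W) (pt L p + P.off L .m1) = p - 1 := by
  rw [pt_add_off]
  exact h.posn_ptZ (by simp only [Prm.offZ]; omega) (by omega)

theorem posn_m1_zero (h : Good P L) :
    posn L (P.R * P.W) (pt L 0 + P.off L .m1) = P.R * P.W + 1 := by
  rw [pt_add_off]
  have hb := h.big
  exact h.posn_dead (by simp only [Prm.offZ]; omega) (by simp only [Prm.offZ]; omega)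
    (by simp only [Prm.offZ]; omega)

theorem posn_p1 (h : Good P L) {p : ℕ} (hp : p ≤ P.R * P.W) :
    posn L (P.R * P.W) (pt L p + P.off L .p1) = p + 1 := by
  rw [pt_add_off]
  have hb := h.big
  rcases Nat.lt_or_ge p (P.R * P.W) with h1 | h1
  · exact h.posn_ptZ (by simp only [Prm.offZ]; omega) (by omega)
  · have h2 : p = P.R * P.W := le_antisymm hp h1
    rw [h.posn_dead (by simp only [Prm.offZ]; omega) (by simp only [Prm.offZ]; omega)
      (by simp only [Prm.offZ]; omega), h2]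

theorem posn_mW (h : Good P L) {p : ℕ} (hp : p ≤ P.R * P.W) (h1 : P.W ≤ p) :
    posn L (P.R * P.W) (pt L p + P.off L .mW) = p - P.W := by
  rw [pt_add_off]
  exact h.posn_ptZ (by simp only [Prm.offZ]; omega) (by omega)

theorem W_le (h : Good P L) : 2 * P.W ≤ P.R * P.W := Nat.mul_le_mul_right _ h.R2

theorem RW_eq (h : Good P L) : P.R * P.W = (P.R - 1) * P.W + P.W := by
  have h1 : P.R = (P.R - 1) + 1 := by have := h.R2; omega
  conv_lhs => rw [h1]
  ring

theorem posn_mW_lt (h : Good P L) {p : ℕ} (h1 : p < P.W) :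
    posn L (P.R * P.W) (pt L p + P.off L .mW) = P.R * P.W + 1 := by
  rw [pt_add_off]
  have hb := h.big
  have hw := h.W_le
  exact h.posn_dead (by simp only [Prm.offZ]; omega) (by simp only [Prm.offZ]; omega)
    (by simp only [Prm.offZ]; omega)

theorem posn_far (h : Good P L) {p : ℕ} (h1 : p < P.W) :
    posn L (P.R * P.W) (pt L p + P.off L .far) = p + (P.R - 1) * P.W := by
  rw [pt_add_off]
  have hw := h.RW_eq
  exact h.posn_ptZ (by simp only [Prm.offZ]; push_cast; ring) (by omega)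

theorem pt_m1 {p : ℕ} (h1 : 1 ≤ p) : pt L p + P.off L .m1 = pt L (p - 1) := by
  rw [pt_add_off, pt_eq_ptZ]
  congr 1
  simp only [Prm.offZ]
  omega

theorem pt_p1 (p : ℕ) : pt L p + P.off L .p1 = pt L (p + 1) := by
  rw [pt_add_off, pt_eq_ptZ]
  congr 1

theorem pt_mW {p : ℕ} (h1 : P.W ≤ p) : pt L p + P.off L .mW = pt L (p - P.W) := by
  rw [pt_add_off, pt_eq_ptZ]
  congr 1
  simp only [Prm.offZ]
  omega

theorem pt_far (p : ℕ) : pt L p + P.off L .far = pt L (p + (P.R - 1) * P.W) := by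
  rw [pt_add_off, pt_eq_ptZ]
  congr 1

theorem pt_pR (p : ℕ) : pt L p + P.off L .pR = pt L (p + P.R * P.W) := by
  rw [pt_add_off, pt_eq_ptZ]
  congr 1

theorem pt_mR {p : ℕ} (h1 : P.R * P.W ≤ p) : pt L p + P.off L .mR = pt L (p - P.R * P.W) := by
  rw [pt_add_off, pt_eq_ptZ]
  congr 1
  simp only [Prm.offZ]
  omega

end Good

/-! ### Zones -/

namespace Prm

variable (P : Prm)

theorem st_zone_row0 {p : ℕ} : (P.st p).zone = .row0 ↔ p < P.W := by
  unfold Prm.st
  split_ifs with h1 h2 h3 <;> simp_all [St.deadSt]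

theorem st_zone_mid {p : ℕ} :
    (P.st p).zone = .mid ↔ P.W ≤ p ∧ p < P.R * P.W := by
  unfold Prm.st
  split_ifs with h1 h2 h3 <;> simp [St.deadSt] <;> omega

theorem st_zone_endd (hW : P.W ≤ P.R * P.W) {p : ℕ} :
    (P.st p).zone = .endd ↔ p = P.R * P.W := by
  unfold Prm.st
  split_ifs with h1 h2 h3 <;> simp [St.deadSt] <;> omega

theorem st_zone_dead (hW : P.W ≤ P.R * P.W) {p : ℕ} :
    (P.st p).zone = .dead ↔ P.R * P.W < p := by
  unfold Prm.st
  split_ifs with h1 h2 h3 <;> simp [St.deadSt] <;> omega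

theorem st_first (hW : 0 < P.W) {p : ℕ} : (P.st p).first = decide (p = 0) := by
  unfold Prm.st
  split_ifs with h1 h2 h3 <;> simp [St.deadSt] <;> omega

theorem st_rowend {p : ℕ} : (P.st p).rowend = decide (p + 1 = P.W) := by
  unfold Prm.st
  split_ifs with h1 h2 h3 <;> simp [St.deadSt] <;> omega

theorem st_isW (hW : 2 * P.W ≤ P.R * P.W) (hW0 : 0 < P.W) {p : ℕ} :
    (P.st p).isW = decide (p = P.W) := by
  unfold Prm.st
  split_ifs with h1 h2 h3 <;> simp [St.deadSt] <;> omega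

theorem st_io (hn : P.n ≤ P.W) {p : ℕ} : (P.st p).io = decide (p < P.n) := by
  unfold Prm.st
  split_ifs with h1 h2 h3 <;> simp [St.deadSt] <;> omega

theorem st_prog (k : Bool) {p : ℕ} (h1 : P.W ≤ p) (h2 : p < P.R * P.W) :
    (P.st p).prog k = P.prog k p := by
  unfold Prm.st
  rw [if_neg (by omega), if_pos h2]
  cases k <;> rfl

end Prm

/-! ### Validity -/

theorem valid_iff {P : Prm} {L : Fin r → ℕ} (h : Good P L) (w : (∀ i, ZMod (L i)) → Cell) :
    (mkInst P L h).Valid w ↔ (∀ j, (w j).st = P.st (posn L (P.R * P.W) j)) ∧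
      ∀ j, Allowed (w j) (w (j + P.off L .m1)) (w (j + P.off L .mW)) (w (j + P.off L .far)) := by
  have e0 : ∀ j : ∀ i, ZMod (L i), j + P.off L .o0 = j := fun j => by rw [off_o0, add_zero]
  have key : ∀ j : (∀ i, ZMod (L i)),
      (spec.allowed (fun t => w (j + P.off L (spec.win t))) = true) ↔
        Allowed (w j) (w (j + P.off L .m1)) (w (j + P.off L .mW)) (w (j + P.off L .far)) := by
    intro j
    have h3 : (spec.allowed (fun t => w (j + P.off L (spec.win t))) = true) ↔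
        Allowed (w (j + P.off L .o0)) (w (j + P.off L .m1)) (w (j + P.off L .mW))
          (w (j + P.off L .far)) := by
      simp only [spec, decide_eq_true_eq]
      exact ⟨fun h => h.2, fun h => ⟨rfl, h⟩⟩
    rw [h3, e0 j]
  constructor
  · rintro ⟨h1, h2⟩
    exact ⟨h1, fun j => (key j).1 (h2 j)⟩
  · rintro ⟨h1, h2⟩
    exact ⟨h1, fun j => (key j).2 (h2 j)⟩

end Vale.Agent.P330.S.Mach
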