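import Vale.Agent.P330.S.H174.MachConf
import Vale.Agent.P330.S.MachPos

/-!
# Locally valid configurations are semantic (block MACH-1)
-/

namespace Vale.Agent.P330.S.Mach.VC

open Finset

variable {r : ℕ}

theorem tab_row0 (P : Prm) (k : Bool) (x : ℕ → Bool) {p : ℕ} (hp : p < P.W) :
    P.tab k x p = row0 (decide (p = 0)) (decide (p < P.n) && x p)
      (if p = 0 then conD else P.tab k x (p - 1)) := by
  rw [Prm.tab, dif_neg (by omega)]

theorem tab_mid (P : Prm) (k : Bool) (x : ℕ → Bool) {p : ℕ} (hW : 0 < P.W) (hp : P.W ≤ p) :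
    P.tab k x p = phi (P.prog k p) (P.tab k x (p - 1)) (P.tab k x (p - P.W)) := by
  rw [Prm.tab, dif_pos ⟨hW, hp⟩]

/-- The table only depends on the input at the positions seen so far. -/
theorem tab_congr (P : Prm) (hW : 0 < P.W) (k : Bool) (x y : ℕ → Bool) (p : ℕ)
    (h : ∀ j, j < P.n → j ≤ p → x j = y j) : P.tab k x p = P.tab k y p := by
  induction p using Nat.strong_induction_on with
  | _ p ih =>
    rcases Nat.lt_or_ge p P.W with hp | hp
    · rw [tab_row0 P k x hp, tab_row0 P k y hp]
      have h1 : (decide (p < P.n) && x p) = (decide (p < P.n) && y p) := by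
        by_cases hn : p < P.n
        · rw [h p hn le_rfl]
        · simp [hn]
      rw [h1]
      by_cases h0 : p = 0
      · simp [h0]
      · rw [if_neg h0, if_neg h0, ih (p - 1) (by omega) fun j hj hj' => h j hj (by omega)]
    · rw [tab_mid P k x hW hp, tab_mid P k y hW hp,
        ih (p - 1) (by omega) fun j hj hj' => h j hj (by omega),
        ih (p - P.W) (by omega) fun j hj hj' => h j hj (by omega)]

/-- In row `0` the component `g` is the disjunction of the values. -/
theorem tab_g (P : Prm) (k : Bool) (x : ℕ → Bool) (p : ℕ) (hp : p < P.W) :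
    (P.tab k x p).g = true → ∃ j, j ≤ p ∧ j < P.n ∧ x j = true := by
  induction p with
  | zero =>
    intro h
    rw [tab_row0 P k x hp] at h
    simp only [row0, decide_true, Bool.not_true, Bool.false_and, Bool.or_false, Bool.and_eq_true,
      decide_eq_true_eq] at h
    exact ⟨0, le_rfl, h.1, h.2⟩
  | succ p ih =>
    intro h
    rw [tab_row0 P k x hp] at h
    simp only [row0, Nat.add_eq_zero_iff, one_ne_zero, and_false, decide_false, Bool.not_false,
      Bool.true_and, if_false, Nat.add_sub_cancel, Bool.or_eq_true, Bool.and_eq_true,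
      decide_eq_true_eq] at h
    rcases h with h | h
    · exact ⟨p + 1, le_rfl, h.1, h.2⟩
    · obtain ⟨j, h1, h2, h3⟩ := ih (by omega) h
      exact ⟨j, by omega, h2, h3⟩

theorem arr_false (c : Cell) : c.arr false = c.cs := rfl

theorem arr_true (c : Cell) : c.arr true = c.cp := rfl

theorem isSome_of {α : Type} {o : Option α} {b : Bool} (h : o.isSome = b) (hb : b = true) :
    ∃ c, o = some c := by
  rw [hb] at h
  exact Option.isSome_iff_exists.1 h

theorem cell_ext {a b : Cell} (h1 : a.st = b.st) (h2 : a.ph = b.ph) (h3 : a.hd = b.hd)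
    (h4 : ∀ k, a.arr k = b.arr k) : a = b := by
  obtain ⟨a1, a2, a3, a4, a5⟩ := a
  obtain ⟨b1, b2, b3, b4, b5⟩ := b
  have h5 := h4 false
  have h6 := h4 true
  simp only [arr_false, arr_true] at h5 h6
  simp only at h1 h2 h3
  subst h1 h2 h3 h5 h6
  rfl

section

variable {P : Prm} {L : Fin r → ℕ} (hG : Good P L) (w : (∀ i, ZMod (L i)) → Cell)
  (H1 : ∀ j, (w j).st = P.st (posn L (P.R * P.W) j))
  (H2 : ∀ j, Allowed (w j) (w (j + P.off L .m1)) (w (j + P.off L .mW)) (w (j + P.off L .far)))

include hG H2 in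
theorem ph_const (j : ∀ i, ZMod (L i)) : (w j).ph = (w (pt L 0)).ph := by
  refine hG.cyc (fun j => (w j).ph = (w (pt L 0)).ph) 0 rfl ?_ j
  intro j hj
  have h1 := (H2 (j + P.off L .p1)).ph
  rw [Good.m1_p1] at h1
  rw [h1, hj]

include H1 in
theorem st_pt (hG : Good P L) {p : ℕ} (hp : p ≤ P.R * P.W) : (w (pt L p)).st = P.st p := by
  rw [H1, hG.posn_pt hp]

include hG H1 H2 in
/-- Outside of the rows the arrays are empty. -/
theorem arr_none {j : ∀ i, ZMod (L i)} (hj : P.R * P.W ≤ posn L (P.R * P.W) j) (k : Bool) :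
    (w j).arr k = none := by
  by_contra hne
  have h1 : ((w j).arr k).isSome = true := by
    rw [Option.isSome_iff_ne_none]
    exact hne
  have hw := hG.W_le
  rcases (H2 j).inz k h1 with h2 | h2
  · rw [H1, Prm.st_zone_row0] at h2
    omega
  · rw [H1, Prm.st_zone_mid] at h2
    omega

include H1 in
theorem zone_rows (hG : Good P L) {p : ℕ} (hp : p < P.R * P.W) :
    (w (pt L p)).st.zone = .row0 ∨ (w (pt L p)).st.zone = .mid := by
  rw [st_pt w H1 hG hp.le, Prm.st_zone_row0, Prm.st_zone_mid]
  omega

/-- value of the array `k` in the position `p` -/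
def val (L : Fin r → ℕ) (w : (∀ i, ZMod (L i)) → Cell) (k : Bool) (p : ℕ) : Bool :=
  (((w (pt L p)).arr k).getD conD).v

include hG H1 H2 in
/-- Contents of an array that is filled on `[0, l)`. -/
theorem contents (k : Bool) (l : ℕ) (hl : l ≤ P.R * P.W)
    (hf : ∀ p, p < l → ((w (pt L p)).arr k).isSome = true) (p : ℕ) (hp : p < l) :
    (w (pt L p)).arr k = some (P.tab k (val L w k) p) := by
  have hW0 : 0 < P.W := by have := hG.W2; omega
  have hw := hG.W_le
  induction p using Nat.strong_induction_on with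
  | _ p ih =>
    obtain ⟨c, hc⟩ := Option.isSome_iff_exists.1 (hf p hp)
    rcases Nat.lt_or_ge p P.W with hpW | hpW
    · -- row 0
      have hst := st_pt w H1 hG (p := p) (by omega)
      have hz : (w (pt L p)).st.zone = .row0 := by
        rw [hst, Prm.st_zone_row0]
        exact hpW
      obtain ⟨h1, h2, -⟩ := (H2 (pt L p)).ok0 k c hc hz
      have hfirst : (w (pt L p)).st.first = decide (p = 0) := by
        rw [hst, Prm.st_first P hW0]
      have hio : (w (pt L p)).st.io = decide (p < P.n) := by
        rw [hst, Prm.st_io P hG.nW]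
      have hv : val L w k p = c.v := by
        unfold val
        rw [hc]
        rfl
      have hv2 : c.v = (decide (p < P.n) && val L w k p) := by
        by_cases hn : p < P.n
        · simp [hn, hv]
        · rw [h2 (by rw [hio]; simp [hn])]
          simp [hn]
      have hl1 : ((w (pt L p + P.off L .m1)).arr k).getD conD
          = if p = 0 then conD else P.tab k (val L w k) (p - 1) := by
        split_ifs with h0
        · subst h0
          rw [arr_none hG w H1 H2 (by rw [hG.posn_m1_zero]; omega) k]
          rfl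
        · rw [Good.pt_m1 (by omega), ih (p - 1) (by omega) (by omega)]
          rfl
      rw [hc, tab_row0 P k _ hpW, ← hl1, ← hv2, ← hfirst, ← h1]
    · have hst := st_pt w H1 hG (p := p) (by omega)
      have hz : (w (pt L p)).st.zone = .mid := by
        rw [hst, Prm.st_zone_mid]
        omega
      have h1 := (H2 (pt L p)).ok1 k c hc hz
      rw [Good.pt_m1 (by omega), Good.pt_mW hpW, ih (p - 1) (by omega) (by omega),
        ih (p - P.W) (by omega) (by omega), hst, Prm.st_prog P k hpW (by omega)] at h1
      rw [hc, h1, tab_mid P k _ hW0 hpW]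
      rfl

include hG H1 H2 in
/-- Values of linked arrays. -/
theorem link (k : Bool) {j : ℕ} (hj : j < P.n)
    (h1 : ((w (pt L j)).arr k).isSome = true)
    (h2 : ((w (pt L ((P.R - 1) * P.W + j))).arr (!k)).isSome = true) :
    val L w k j = val L w (!k) ((P.R - 1) * P.W + j) := by
  have hnW := hG.nW
  have hw := hG.W_le
  obtain ⟨c, hc⟩ := Option.isSome_iff_exists.1 h1
  obtain ⟨c', hc'⟩ := Option.isSome_iff_exists.1 h2
  have hst := st_pt w H1 hG (p := j) (by omega)
  have hz : (w (pt L j)).st.zone = .row0 := by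
    rw [hst, Prm.st_zone_row0]
    omega
  have hio : (w (pt L j)).st.io = true := by
    rw [hst, Prm.st_io P hG.nW]
    simp [hj]
  have h3 := (H2 (pt L j)).mutu k c c' hz hio hc (by
    rw [Good.pt_far, add_comm]
    exact hc')
  unfold val
  rw [hc, hc']
  exact h3

include hG H1 H2 in
/-- The array `true` is not zero. -/
theorem nonzero (l : ℕ) (hl : l ≤ P.R * P.W) (hWl : P.W ≤ l)
    (hf : ∀ p, p < l → ((w (pt L p)).arr true).isSome = true) :
    ∃ j < P.n, val L w true j = true := by
  have hW2 := hG.W2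
  have hw := hG.W_le
  have hc := contents hG w H1 H2 true l hl hf (P.W - 1) (by omega)
  have hst := st_pt w H1 hG (p := P.W - 1) (by omega)
  have hz : (w (pt L (P.W - 1))).st.zone = .row0 := by
    rw [hst, Prm.st_zone_row0]
    omega
  have hre : (w (pt L (P.W - 1))).st.rowend = true := by
    rw [hst, Prm.st_rowend, decide_eq_true_eq]
    omega
  have h1 := ((H2 (pt L (P.W - 1))).ok0 true _ hc hz).2.2 rfl hre
  obtain ⟨j, -, h2, h3⟩ := tab_g P true _ (P.W - 1) (by omega) h1
  exact ⟨j, h2, h3⟩

include hG H1 H2 in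
/-- The shape of a locally valid configuration. -/
theorem shape (ph : Ph) (hph : ∀ j, (w j).ph = ph) : ∃ m, m ≤ P.R * P.W ∧
    (∀ p, p < m → ((w (pt L p)).arr ph.act).isSome = true) ∧
    (∀ p, m ≤ p → p ≤ P.R * P.W → (w (pt L p)).arr ph.act = none) ∧
    (∀ p, p < P.R * P.W → ((w (pt L p)).arr (!ph.act)).isSome = ph.full) ∧
    (∀ j, (w j).hd = decide (posn L (P.R * P.W) j = m)) ∧
    (ph.full = false → P.W ≤ m) := by
  have hW0 : 0 < P.W := by have := hG.W2; omega
  have hW2 := hG.W_le
  have hA0 : ((w (pt L (P.R * P.W))).arr ph.act).isSome = false := by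
    rw [arr_none hG w H1 H2 (by rw [hG.posn_pt le_rfl]) ph.act]
    rfl
  have hex : ∃ p, ((w (pt L p)).arr ph.act).isSome = false := ⟨_, hA0⟩
  classical
  obtain ⟨m, hm⟩ : ∃ m, m = Nat.find hex := ⟨_, rfl⟩
  have hmB : m ≤ P.R * P.W := hm ▸ Nat.find_min' hex hA0
  have hmf : ((w (pt L m)).arr ph.act).isSome = false := hm ▸ Nat.find_spec hex
  have hlt : ∀ p, p < m → ((w (pt L p)).arr ph.act).isSome = true := by
    intro p hp
    exact eq_true_of_ne_false (Nat.find_min hex (hm ▸ hp))
  have hge : ∀ p, m ≤ p → p ≤ P.R * P.W → ((w (pt L p)).arr ph.act).isSome = false := by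
    intro p hp hpB
    induction p with
    | zero =>
      have : m = 0 := by omega
      rw [this] at hmf
      exact hmf
    | succ p ih =>
      rcases Nat.lt_or_ge p m with h1 | h1
      · have : p + 1 = m := by omega
        rw [this]
        exact hmf
      · have h2 := ih h1 (by omega)
        by_contra h3
        have h3' := eq_true_of_ne_false h3
        have h4 := (H2 (pt L (p + 1))).pre (by
          rw [st_pt w H1 hG hpB, Prm.st_first P hW0]
          simp)
        rw [hph, Good.pt_m1 (by omega), Nat.add_sub_cancel] at h4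
        rw [h4 h3'] at h2
        exact absurd h2 (by simp)
  refine ⟨m, hmB, hlt, ?_, ?_, ?_, ?_⟩
  · intro p hp hpB
    have := hge p hp hpB
    exact Option.not_isSome_iff_eq_none.1 (by rw [this]; simp)
  · intro p hp
    have h1 := (H2 (pt L p)).other (zone_rows w H1 hG hp)
    rw [hph] at h1
    exact h1
  · intro j
    have h1 := (H2 j).hd
    rw [hph] at h1
    rw [Bool.eq_iff_iff, h1, decide_eq_true_eq]
    rcases hG.cases j with ⟨p, hp, rfl, hpp⟩ | ⟨a, ha, -, rfl, hpp⟩
    · rw [hpp, H1, hpp]
      have hzd : (P.st p).zone ≠ .dead := by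
        rw [Ne, Prm.st_zone_dead P (by omega)]
        omega
      rw [Prm.st_first P hW0, decide_eq_true_eq]
      constructor
      · rintro ⟨-, h2, h3⟩
        have h4 : m ≤ p := by
          by_contra h5
          have := hlt p (by omega)
          rw [h2] at this
          exact absurd this (by simp)
        rcases h3 with h3 | h3
        · omega
        · by_contra h5
          have hp1 : 1 ≤ p := by omega
          rw [Good.pt_m1 hp1, hge (p - 1) (by omega) (by omega)] at h3
          exact absurd h3 (by simp)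
      · rintro rfl
        refine ⟨hzd, ?_, ?_⟩
        · have := hge p le_rfl hp
          exact Option.not_isSome_iff_eq_none.1 (by rw [this]; simp)
        · by_cases h0 : p = 0
          · exact Or.inl h0
          · right
            rw [Good.pt_m1 (by omega)]
            exact hlt (p - 1) (by omega)
    · rw [hpp, H1, hpp]
      constructor
      · rintro ⟨h2, -⟩
        exact absurd ((Prm.st_zone_dead P (by omega)).2 (by omega)) h2
      · intro h2
        omega
  · intro hf
    by_contra hc
    have h1 := (H2 (pt L m)).full0 (by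
      rw [st_pt w H1 hG hmB, Prm.st_zone_row0]
      omega) (by rw [hph]; exact hf)
    rw [hph, hmf] at h1
    exact absurd h1 (by simp)

end

theorem eq_not {k a : Bool} (h : ¬ k = a) : k = !a := by
  cases k <;> cases a <;> simp_all

theorem len_le {P : Prm} {c : Conf} (hm : c.h ≤ P.R * P.W) (k : Bool) :
    c.len P k ≤ P.R * P.W := by
  unfold Conf.len
  split_ifs
  · exact hm
  · exact le_rfl
  · exact Nat.zero_le _

theorem len_full (P : Prm) (c : Conf) (hf : c.ph.full = true) :
    c.len P c.ph.own = P.R * P.W ∧ c.len P (!c.ph.own) = c.h := by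
  unfold Conf.len
  cases hp : c.ph <;> rw [hp] at hf <;> simp [Ph.full, Ph.own, Ph.act] at hf ⊢

theorem len_nfull (P : Prm) (c : Conf) (hf : c.ph.full = false) :
    c.len P (!c.ph.own) = 0 ∧ c.len P c.ph.own = c.h := by
  unfold Conf.len
  cases hp : c.ph <;> rw [hp] at hf <;> simp [Ph.full, Ph.own, Ph.act] at hf ⊢

section

variable {P : Prm} {L : Fin r → ℕ} (hG : Good P L) (w : (∀ i, ZMod (L i)) → Cell)
  (H1 : ∀ j, (w j).st = P.st (posn L (P.R * P.W) j))
  (H2 : ∀ j, Allowed (w j) (w (j + P.off L .m1)) (w (j + P.off L .mW)) (w (j + P.off L .far)))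
  (c : Conf)
  (hx : c.x = val L w c.ph.own)
  (hmB : c.h ≤ P.R * P.W)
  (hfill : ∀ k p, p < c.len P k → ((w (pt L p)).arr k).isSome = true)

include hG H1 H2 hx hmB hfill in
theorem inp_eq (k : Bool) (j : ℕ) (hj : j < P.n) (hjl : j < c.len P k) :
    c.inp P k j = val L w k j := by
  have hRW := hG.RW_eq
  have hnW := hG.nW
  unfold Conf.inp
  split_ifs with h1
  · rw [h1, hx]
  · have hk : k = !c.ph.own := eq_not h1
    cases hf : c.ph.full with
    | false =>
      rw [hk, (len_nfull P c hf).1] at hjl
      omega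
    | true =>
      have hlo := (len_full P c hf).1
      have h2 : ((w (pt L ((P.R - 1) * P.W + j))).arr (!k)).isSome = true := by
        rw [hk, Bool.not_not]
        exact hfill _ _ (by rw [hlo]; omega)
      rw [link hG w H1 H2 k hj (hfill k j hjl) h2]
      have h4 : (w (pt L ((P.R - 1) * P.W + j))).arr c.ph.own
          = some (P.tab c.ph.own (val L w c.ph.own) ((P.R - 1) * P.W + j)) :=
        contents hG w H1 H2 c.ph.own (c.len P c.ph.own) (len_le hmB _) (hfill c.ph.own) _
          (by rw [hlo]; omega)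
      rw [hk, Bool.not_not]
      unfold Prm.out
      conv_rhs => unfold val
      rw [h4, hx]
      simp [hj]

include hG H1 H2 hx hmB hfill in
theorem tab_eq (k : Bool) (p : ℕ) (hp : p < c.len P k) :
    (w (pt L p)).arr k = some (P.tab k (c.inp P k) p) := by
  have hW0 : 0 < P.W := by have := hG.W2; omega
  rw [contents hG w H1 H2 k (c.len P k) (len_le hmB k) (hfill k) p hp,
    tab_congr P hW0 k (val L w k) (c.inp P k) p]
  intro j hj hjp
  exact (inp_eq hG w H1 H2 c hx hmB hfill k j hj (by omega)).symm

include hG H1 H2 hx hmB hfill in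
theorem mt_ok : c.Mt P := by
  intro hf j hj hjm
  have hRW := hG.RW_eq
  have hnW := hG.nW
  have hlo := len_full P c hf
  have hk2 : c.inp P (!c.ph.own) = P.out c.ph.own c.x := by
    unfold Conf.inp
    rw [if_neg]
    cases c.ph.own <;> simp
  rw [← hk2]
  have h4 := tab_eq hG w H1 H2 c hx hmB hfill (!c.ph.own) ((P.R - 1) * P.W + j)
    (by rw [hlo.2]; exact hjm)
  have h2 : ((w (pt L ((P.R - 1) * P.W + j))).arr (!c.ph.own)).isSome = true := by
    rw [h4]
    rfl
  have h3 := link hG w H1 H2 c.ph.own hj (hfill c.ph.own j (by rw [hlo.1]; omega)) h2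
  rw [hx, h3]
  unfold Prm.out
  conv_rhs => unfold val
  rw [h4]
  simp [hj]

include hG H1 H2 hx hmB hfill in
theorem nz_ok (hWm : c.ph.full = false → P.W ≤ c.h) : c.Nz P := by
  have hW2 := hG.W_le
  have hnW := hG.nW
  have key : P.W ≤ c.len P true → ∃ j < P.n, val L w true j = true := by
    intro hle
    exact nonzero hG w H1 H2 (c.len P true) (len_le hmB true) hle (hfill true)
  have hinp := inp_eq hG w H1 H2 c hx hmB hfill true
  unfold Conf.Nz
  split
  · trivial
  · rename_i hp
    intro hWh
    have hl : c.len P true = c.h := by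
      have := (len_full P c (by rw [hp]; rfl)).2
      rw [hp] at this
      exact this
    obtain ⟨j, h1, h2⟩ := key (by rw [hl]; exact hWh)
    refine ⟨j, h1, ?_⟩
    rw [← h2, ← hinp j h1 (by rw [hl]; omega)]
    unfold Conf.inp
    rw [hp, if_neg (by simp [Ph.own])]
    rfl
  · rename_i hp
    have hl : c.len P true = P.R * P.W := by
      have := (len_full P c (by rw [hp]; rfl)).1
      rw [hp] at this
      exact this
    obtain ⟨j, h1, h2⟩ := key (by rw [hl]; omega)
    refine ⟨j, h1, ?_⟩
    rw [← h2, hx, hp]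
    rfl
  · rename_i hp
    have hl : c.len P true = c.h := by
      have := (len_nfull P c (by rw [hp]; rfl)).2
      rw [hp] at this
      exact this
    obtain ⟨j, h1, h2⟩ := key (by rw [hl]; exact hWm (by rw [hp]; rfl))
    refine ⟨j, h1, ?_⟩
    rw [← h2, hx, hp]
    rfl

end

theorem render_arr (P : Prm) (L : Fin r → ℕ) (c : Conf) (k : Bool) (j : ∀ i, ZMod (L i)) :
    (c.render P L j).arr k = c.arr P k (posn L (P.R * P.W) j) := by
  unfold Conf.render Conf.cell
  cases k <;> rfl

/-- **Block MACH-1.** A locally valid configuration is a correct semantic configuration. -/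
theorem valid_conf {P : Prm} {L : Fin r → ℕ} (h : Good P L) (w : (∀ i, ZMod (L i)) → Cell)
    (hw : (mkInst P L h).Valid w) : ∃ c : Conf, c.Ok P ∧ w = c.render P L := by
  obtain ⟨H1, H2⟩ := (valid_iff h w).1 hw
  obtain ⟨ph, hph⟩ : ∃ ph, ∀ j, (w j).ph = ph := ⟨_, fun j => ph_const h w H2 j⟩
  obtain ⟨m, hmB, hlt, hge, hoth, hhd, hWm⟩ := shape h w H1 H2 ph hph
  obtain ⟨c, hcph, hch, hcx⟩ : ∃ c : Conf, c.ph = ph ∧ c.h = m ∧ c.x = val L w ph.own :=
    ⟨⟨ph, m, val L w ph.own⟩, rfl, rfl, rfl⟩
  rw [← hcph] at hcx hlt hge hoth hWm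
  rw [← hch] at hmB hlt hge hWm
  have hfill : ∀ k p, p < c.len P k → ((w (pt L p)).arr k).isSome = true := by
    intro k p hp
    unfold Conf.len at hp
    split_ifs at hp with h1 h2
    · rw [h1]
      exact hlt p hp
    · rw [eq_not h1, hoth p hp]
      exact h2
    · omega
  have hemp : ∀ k p, c.len P k ≤ p → p ≤ P.R * P.W → (w (pt L p)).arr k = none := by
    intro k p hp hpB
    rcases Nat.lt_or_ge p (P.R * P.W) with hpB' | hpB'
    · unfold Conf.len at hp
      split_ifs at hp with h1 h2
      · rw [h1]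
        exact hge p hp hpB
      · omega
      · have := hoth p hpB'
        rw [← eq_not h1] at this
        exact Option.not_isSome_iff_eq_none.1 (by rw [this]; exact h2)
    · exact arr_none h w H1 H2 (by rw [h.posn_pt hpB]; exact hpB') k
  refine ⟨c, ⟨⟨hmB, hWm⟩, nz_ok h w H1 H2 c hcx hmB hfill hWm,
    mt_ok h w H1 H2 c hcx hmB hfill⟩, ?_⟩
  funext j
  apply cell_ext
  · rw [H1]
    rfl
  · rw [hph, ← hcph]
    rfl
  · rw [hhd, ← hch]
    rfl
  · intro k
    rw [render_arr]
    unfold Conf.arr
    rcases h.cases j with ⟨p, hp, rfl, hpp⟩ | ⟨a, ha, -, rfl, hpp⟩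
    · rw [hpp]
      split_ifs with h2
      · exact tab_eq h w H1 H2 c hcx hmB hfill k p h2
      · exact hemp k p (by omega) hp
    · rw [hpp]
      have := len_le hmB k
      rw [if_neg (by omega)]
      exact arr_none h w H1 H2 (by rw [hpp]; omega) k

end Vale.Agent.P330.S.Mach.VC
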