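import Vale.Agent.P330.S.H174.MachFin
import Vale.Agent.P330.S.MachSem

/-!
# Block MACH: the facts about the concrete dynamics
-/

namespace Vale.Agent.P330.S.Mach

/-- **Block MACH.** -/
theorem machStmt : MachStmt :=
  machStmt_of fun _ _ _ h w hw => VC.valid_conf h w hw

end Vale.Agent.P330.S.Mach
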