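import Vale.Agent.P330.S.Defs

/-!
# The concrete dynamics: two helical arrays

A configuration consists of two arrays (array `false` for the successor program, array `true` for
the predecessor program) over the positions `0, 1, …`, rows have width `W`, there are `R` rows.
Row `0` contains the input, the last row the output. An array is filled from the left.
Phases: `A1` (array `false` is being filled, row `0` is filled, array `true` empty),
`A2` (array `false` full, array `true` being filled), `B3` (array `true` full, array `false` being
emptied), `B4` (array `false` empty, array `true` being emptied down to row `0`). Then the arrays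
are exchanged.
-/

namespace Vale.Agent.P330.S.Mach

open Finset

/-- zones of positions: row `0`, the other rows, the position `R W`, the rest -/
inductive Zone
  | row0
  | mid
  | endd
  | dead
  deriving DecidableEq

instance : Fintype Zone := ⟨{.row0, .mid, .endd, .dead}, by intro x; cases x <;> simp⟩

/-- One position of a straight-line program. `m`: start of a row (the accumulators `a`, `b` of the
previous row are combined by `op`, and reset); `de`: the result is stored in this column; `al`,
`be`: this column is read into the accumulator `a`, `b`. -/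
structure PI where
  al : Bool
  be : Bool
  de : Bool
  m : Bool
  op : Bool × Bool
  deriving DecidableEq, Fintype

/-- static contents -/
structure St where
  zone : Zone
  /-- position `0` -/
  first : Bool
  /-- position `W - 1` -/
  rowend : Bool
  /-- position `W` -/
  isW : Bool
  /-- position `< n` -/
  io : Bool
  pS : PI
  pP : PI
  deriving DecidableEq

noncomputable instance : Fintype St :=
  Fintype.ofInjective
    (fun s : St => (s.zone, s.first, s.rowend, s.isW, s.io, s.pS, s.pP))
    (by
      rintro ⟨a1, a2, a3, a4, a5, a6, a7⟩ ⟨b1, b2, b3, b4, b5, b6, b7⟩ h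
      simp only [Prod.mk.injEq] at h
      obtain ⟨h1, h2, h3, h4, h5, h6, h7⟩ := h
      subst h1 h2 h3 h4 h5 h6 h7
      rfl)

/-- content of a filled cell of an array: value, two accumulators, result -/
structure Con where
  v : Bool
  a : Bool
  b : Bool
  g : Bool
  deriving DecidableEq, Fintype

/-- phases -/
inductive Ph
  | A1
  | A2
  | B3
  | B4
  deriving DecidableEq

instance : Fintype Ph := ⟨{.A1, .A2, .B3, .B4}, by intro x; cases x <;> simp⟩

/-- contents of a cell -/
structure Cell where
  st : St
  ph : Ph
  hd : Bool
  /-- array `false` (successor program) -/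
  cs : Option Con
  /-- array `true` (predecessor program) -/
  cp : Option Con
  deriving DecidableEq

noncomputable instance : Fintype Cell :=
  Fintype.ofInjective (fun s : Cell => (s.st, s.ph, s.hd, s.cs, s.cp))
    (by
      rintro ⟨a1, a2, a3, a4, a5⟩ ⟨b1, b2, b3, b4, b5⟩ h
      simp only [Prod.mk.injEq] at h
      obtain ⟨h1, h2, h3, h4, h5⟩ := h
      subst h1 h2 h3 h4 h5
      rfl)

/-- offsets: `0`, `1`, `-1`, `-W`, `(R-1)W`, `RW`, `-RW` -/
inductive Off
  | o0
  | p1
  | m1
  | mW
  | far
  | pR
  | mR
  deriving DecidableEq

instance : Fintype Off :=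
  ⟨{.o0, .p1, .m1, .mW, .far, .pR, .mR}, by intro x; cases x <;> simp⟩

/-- the array `k` at the cell -/
def Cell.arr (c : Cell) (k : Bool) : Option Con := if k then c.cp else c.cs

/-- change the array `k` -/
def Cell.setArr (c : Cell) (k : Bool) (o : Option Con) : Cell :=
  if k then { c with cp := o } else { c with cs := o }

/-- set the head bit -/
def Cell.setHd (c : Cell) (b : Bool) : Cell := { c with hd := b }

/-- the program of the array `k` -/
def St.prog (s : St) (k : Bool) : PI := if k then s.pP else s.pS

/-- the empty program position -/
def PI.nop : PI := ⟨false, false, false, false, (false, false)⟩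

/-- static content of the dead zone -/
def St.deadSt : St := ⟨.dead, false, false, false, false, PI.nop, PI.nop⟩

/-- content by default -/
def conD : Con := ⟨false, false, false, false⟩

/-- the Boolean operation: and, or, not (of the first argument), copy (of the first argument) -/
def opf (o : Bool × Bool) (a b : Bool) : Bool :=
  match o with
  | (false, false) => a && b
  | (false, true) => a || b
  | (true, false) => !a
  | (true, true) => a

/-- Content of a position after row `0` from the content of the left and of the upper position. -/
def phi (p : PI) (l u : Con) : Con :=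
  let g := if p.m then opf p.op l.a l.b else l.g
  let v := if p.de then g else u.v
  ⟨v, xor (if p.m then false else l.a) (p.al && v), xor (if p.m then false else l.b) (p.be && v), g⟩

/-- Content of a position of row `0` with value `v`: `g` accumulates the disjunction of the
values. -/
def row0 (first : Bool) (v : Bool) (l : Con) : Con := ⟨v, false, false, v || (!first && l.g)⟩

/-- the array in motion -/
def Ph.act : Ph → Bool
  | .A1 => false
  | .A2 => true
  | .B3 => false
  | .B4 => true

/-- is the other array full (otherwise it is empty, and row `0` of the array in motion is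
filled)? -/
def Ph.full : Ph → Bool
  | .A1 => false
  | .A2 => true
  | .B3 => true
  | .B4 => false

/-- Allowed windows: `x` the content of the position `j`, `l` of `j - 1`, `u` of `j - W`, `f` of
`j + (R-1) W`. -/
structure Allowed (x l u f : Cell) : Prop where
  ph : x.ph = l.ph
  inz : ∀ k, (x.arr k).isSome = true → x.st.zone = .row0 ∨ x.st.zone = .mid
  other : x.st.zone = .row0 ∨ x.st.zone = .mid → (x.arr (!x.ph.act)).isSome = x.ph.full
  pre : x.st.first = false → (x.arr x.ph.act).isSome = true → (l.arr x.ph.act).isSome = true
  full0 : x.st.zone = .row0 → x.ph.full = false → (x.arr x.ph.act).isSome = true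
  hd : x.hd = true ↔ x.st.zone ≠ .dead ∧ (x.arr x.ph.act) = none ∧
    (x.st.first = true ∨ (l.arr x.ph.act).isSome = true)
  ok0 : ∀ k c, x.arr k = some c → x.st.zone = .row0 →
    c = row0 x.st.first c.v ((l.arr k).getD conD) ∧ (x.st.io = false → c.v = false) ∧
    (k = true → x.st.rowend = true → c.g = true)
  ok1 : ∀ k c, x.arr k = some c → x.st.zone = .mid →
    c = phi (x.st.prog k) ((l.arr k).getD conD) ((u.arr k).getD conD)
  mutu : ∀ k c c', x.st.zone = .row0 → x.st.io = true → x.arr k = some c → f.arr (!k) = some c' →
    c.v = c'.v

/-- New content of the array `k` at the position of the head. -/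
def newCon (k : Bool) (x l u f : Cell) : Con :=
  if x.st.zone = .row0 then
    row0 x.st.first (x.st.io && ((f.arr (!k)).getD conD).v) ((l.arr k).getD conD)
  else phi (x.st.prog k) ((l.arr k).getD conD) ((u.arr k).getD conD)

/-- what to do -/
inductive Act
  | fill (k : Bool)
  | unfill (k : Bool)
  /-- change of the phase, exchange of the arrays, new position of the head (`o0`, `pR`, `mR`) -/
  | jump (ph : Ph) (sw : Bool) (tgt : Off)

/-- The action, from the content at the head. -/
def actOf (z : Bool) (x : Cell) : Act :=
  match z, x.ph with
  | false, .A1 => if x.st.zone = .endd then .jump .A2 false .mR else .fill false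
  | false, .A2 => if x.st.zone = .endd then .jump .B3 false .o0 else .fill true
  | false, .B3 => if x.st.first then .jump .B4 false .pR else .unfill false
  | false, .B4 => if x.st.isW then .jump .A1 true .o0 else .unfill true
  | true, .A1 => if x.st.isW then .jump .B4 true .o0 else .unfill false
  | true, .A2 => if x.st.first then .jump .A1 false .pR else .unfill true
  | true, .B3 => if x.st.zone = .endd then .jump .A2 false .o0 else .fill false
  | true, .B4 => if x.st.zone = .endd then .jump .B3 false .mR else .fill true

/-- change of the phase and exchange of the arrays -/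
def jmp (ph : Ph) (sw : Bool) (c : Cell) : Cell :=
  if sw then { c with ph := ph, cs := c.cp, cp := c.cs } else { c with ph := ph }

/-- The map applied to all cells and the new contents around the head, for an action. -/
def doAct (win : Off → Cell) : Act → (Cell → Cell) × (Off → Cell)
  | .fill k => (fun c => c, fun o =>
      match o with
      | .o0 => ((win .o0).setArr k
          (some (newCon k (win .o0) (win .m1) (win .mW) (win .far)))).setHd false
      | .p1 => (win .p1).setHd true
      | o => win o)
  | .unfill k => (fun c => c, fun o =>
      match o with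
      | .o0 => (win .o0).setHd false
      | .m1 => ((win .m1).setArr k none).setHd true
      | o => win o)
  | .jump ph sw tgt => (jmp ph sw, fun o =>
      if tgt = .o0 then jmp ph sw (win o)
      else if o = .o0 then (jmp ph sw (win o)).setHd false
      else if o = tgt then (jmp ph sw (win o)).setHd true
      else jmp ph sw (win o))

/-- The rules. -/
def rule (z : Bool) (win : Off → Cell) : (Cell → Cell) × (Off → Cell) :=
  doAct win (actOf z (win .o0))

/-- offsets of the cells that are rewritten -/
def upd : Off → Bool
  | .mW => false
  | .far => false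
  | _ => true

open Classical in
/-- The concrete dynamics. -/
noncomputable def spec : Spec where
  Cell := Cell
  Off := Off
  Stat := St
  d := 3
  fCell := inferInstance
  dCell := inferInstance
  fOff := inferInstance
  dOff := inferInstance
  fStat := inferInstance
  dStat := inferInstance
  cell0 := ⟨St.deadSt, .A1, false, none, none⟩
  zero := .o0
  win := ![.o0, .o0, .m1, .mW, .far]
  win0 := rfl
  win1 := rfl
  statOf := Cell.st
  hd := Cell.hd
  allowed c := decide (c 0 = c 1 ∧ Allowed (c 0) (c 2) (c 3) (c 4))
  allowed01 := by
    intro c h
    simp only [decide_eq_true_eq] at h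
    exact h.1
  upd := upd
  rule := rule

/-- Parameters: length `n` of the strings, width and number of the rows, the two programs (as
functions of the position). -/
structure Prm where
  n : ℕ
  W : ℕ
  R : ℕ
  prog : Bool → ℕ → PI

/-- static contents as a function of the number of the position -/
def Prm.st (P : Prm) (p : ℕ) : St :=
  if p < P.W then
    ⟨.row0, decide (p = 0), decide (p + 1 = P.W), false, decide (p < P.n), PI.nop, PI.nop⟩
  else if p < P.R * P.W then
    ⟨.mid, false, false, decide (p = P.W), false, P.prog false p, P.prog true p⟩
  else if p = P.R * P.W then ⟨.endd, false, false, false, false, PI.nop, PI.nop⟩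
  else St.deadSt

/-- the start configuration as a function of the number of the position -/
def Prm.w0 (P : Prm) (p : ℕ) : Cell :=
  ⟨P.st p, .A1, decide (p = P.W), if p < P.W then some conD else none, none⟩

variable {r : ℕ}

/-- the position with number `p` -/
def pt (L : Fin r → ℕ) (p : ℕ) : ∀ i, ZMod (L i) := fun _ => (p : ZMod _)

open Classical in
/-- the number of a position, `B + 1` for all positions with a number larger than `B` -/
noncomputable def posn (L : Fin r → ℕ) (B : ℕ) (j : ∀ i, ZMod (L i)) : ℕ :=
  if h : ∃ p, p ≤ B ∧ pt L p = j then Nat.find h else B + 1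

/-- values of the offsets, as integers -/
def Prm.offZ (P : Prm) : Off → ℤ
  | .o0 => 0
  | .p1 => 1
  | .m1 => -1
  | .mW => -(P.W : ℤ)
  | .far => ((P.R - 1) * P.W : ℕ)
  | .pR => (P.R * P.W : ℕ)
  | .mR => -((P.R * P.W : ℕ) : ℤ)

/-- values of the offsets -/
def Prm.off (P : Prm) (L : Fin r → ℕ) (o : Off) : ∀ i, ZMod (L i) := fun _ => (P.offZ o : ZMod _)

/-- Conditions on the parameters. -/
structure Good (P : Prm) (L : Fin r → ℕ) : Prop where
  n1 : 1 ≤ P.n
  nW : P.n ≤ P.W
  W2 : 2 ≤ P.W
  R2 : 2 ≤ P.R
  L5 : ∀ i, 5 ≤ L i
  cop : Pairwise fun i j => Nat.Coprime (L i) (L j)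
  big : 2 * (P.R * P.W) + 3 ≤ ∏ i, L i

theorem dvd_of_cast_eq {L : Fin r → ℕ} (hc : Pairwise fun i j => Nat.Coprime (L i) (L j)) {a b : ℤ}
    (h : ∀ i, (a : ZMod (L i)) = b) : ((∏ i, L i : ℕ) : ℤ) ∣ a - b := by
  push_cast
  refine Finset.prod_dvd_of_coprime ?_ ?_
  · intro i _ j _ hij
    exact (Nat.isCoprime_iff_coprime.2 (hc hij))
  · intro i _
    have h1 := h i
    have h2 : ((a - b : ℤ) : ZMod (L i)) = 0 := by push_cast; rw [h1, sub_self]
    exact (ZMod.intCast_zmod_eq_zero_iff_dvd _ _).1 h2

theorem eq_of_cast_eq {L : Fin r → ℕ} (hc : Pairwise fun i j => Nat.Coprime (L i) (L j)) {a b : ℤ}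
    (h : ∀ i, (a : ZMod (L i)) = b) (hab : |a - b| < (∏ i, L i : ℕ)) : a = b := by
  have h1 := dvd_of_cast_eq hc h
  have h2 := Int.eq_zero_of_abs_lt_dvd h1 hab
  linarith

theorem Good.off_inj {P : Prm} {L : Fin r → ℕ} (h : Good P L) (o o' : Off) (ho : upd o = true)
    (ho' : upd o' = true) (e : P.off L o = P.off L o') : o = o' := by
  have hRW : 4 ≤ P.R * P.W := by
    have := Nat.mul_le_mul h.R2 h.W2
    omega
  have hb := h.big
  have h1 : P.offZ o = P.offZ o' := by
    apply eq_of_cast_eq h.cop (fun i => congrFun e i)
    generalize (∏ i, L i) = N at hb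
    rw [abs_lt]
    unfold Prm.offZ
    generalize P.R * P.W = m at hRW hb
    cases o <;> cases o' <;> simp only [upd, Bool.false_eq_true] at ho ho' <;>
      simp only <;> omega
  unfold Prm.offZ at h1
  generalize P.R * P.W = m at hRW h1
  cases o <;> cases o' <;> simp only [upd, Bool.false_eq_true] at ho ho' <;>
    first | rfl | (exfalso; simp only at h1; omega)

/-- The concrete instance. -/
noncomputable def mkInst (P : Prm) (L : Fin r → ℕ) (h : Good P L) : Inst spec r where
  L := L
  hL := h.L5
  off := P.off L
  off_zero := by
    funext i
    show ((P.offZ Off.o0 : ℤ) : ZMod (L i)) = 0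
    simp [Prm.offZ]
  off_inj := h.off_inj
  stat j := P.st (posn L (P.R * P.W) j)
  w0 j := P.w0 (posn L (P.R * P.W) j)

/-- Contents of an array with input `x` (only `x 0, …, x (n - 1)` matter). -/
def Prm.tab (P : Prm) (k : Bool) (x : ℕ → Bool) (p : ℕ) : Con :=
  if h : 0 < P.W ∧ P.W ≤ p then
    phi (P.prog k p) (P.tab k x (p - 1)) (P.tab k x (p - P.W))
  else row0 (decide (p = 0)) (decide (p < P.n) && x p) (if p = 0 then conD else P.tab k x (p - 1))
termination_by p
decreasing_by all_goals omega

/-- The output of the program `k` on the input `x`. -/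
def Prm.out (P : Prm) (k : Bool) (x : ℕ → Bool) (j : ℕ) : Bool :=
  decide (j < P.n) && (P.tab k x ((P.R - 1) * P.W + j)).v

/-- **Block MACH.** -/
def MachStmt : Prop :=
  ∀ (r : ℕ) (P : Prm) (L : Fin r → ℕ) (h : Good P L),
    -- programs: `m` exactly at the starts of the rows is not needed
    Facts (mkInst P L h) ∧
    (∀ w, (mkInst P L h).Valid w → ¬ (mkInst P L h).Valid ((mkInst P L h).step false w) →
      ∃ u : ℕ → Bool, (∀ j < P.n, ∃ c, Cell.cs (w (pt L j)) = some c ∧ c.v = u j) ∧
        ((∀ j < P.n, P.out false u j = false) ∨
          ∃ j < P.n, P.out true (P.out false u) j ≠ u j)) ∧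
    (∀ w, (mkInst P L h).Valid w → w ≠ (mkInst P L h).w0 →
      ¬ (mkInst P L h).Valid ((mkInst P L h).step true w) →
      ∃ v : ℕ → Bool, (∀ j < P.n, ∃ c, Cell.cp (w (pt L j)) = some c ∧ c.v = v j) ∧
        (∃ j < P.n, v j = true) ∧ ∃ j < P.n, P.out false (P.out true v) j ≠ v j)

end Vale.Agent.P330.S.Mach
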