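import Vale.Agent.P330.S.DecM
import Vale.Agent.P330.S.Mach

/-!
# The decoder (block DEC)

`decOut I bit`: the output from the decoded bits of the two candidates; `decode`: the algorithm.
* `decode_isSolution`: if one of the two registers is near a valid configuration whose next
  configuration is not valid, the decoder finds a solution.
* `PT_decode`: the decoder runs in polynomial time.
-/

namespace Vale.Agent.P330.S.Mach

open Finset PCP.AR Vale.Agent.Lib.PolyTime

/-- the value stored in the array `z` at the cell is `true` -/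
def CellVal (z : Bool) (c : spec.Cell) : Prop := (Cell.arr c z).any Con.v = true

noncomputable instance (z : Bool) : DecidablePred (CellVal z) := fun c => by
  unfold CellVal; infer_instance

/-- The output, from the decoded bits of the two candidates. -/
def decOut (I : EndOfLine) (bit : Bool → ℕ → Bool) : List Bool :=
  if I.isSol ((List.range I.n).map (bit false)) then (List.range I.n).map (bit false)
  else (List.range I.n).map (bit true)

/-- The components of the code which have a cell with value `true` in the slot `0`. -/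
noncomputable def decT (z : Bool) : Finset spec.Comp :=
  Finset.univ.filter fun c : spec.Comp => CellVal z (c 0)

/-- The decoder: `L` side lengths, `K` number of nodes of a site, `root` the nodes of the
registers at a site, `xs` the assignment. -/
noncomputable def decode {r : ℕ} (K : ℕ) (root : Reg spec → ℕ) (I : EndOfLine) (L : Fin r → ℕ)
    (xs : List ℚ) : List Bool :=
  decOut I fun z p => decBit (2 ^ eN 5 L) K (maskN 5 L p) (fun c => root (.x z c)) (decT z) xs

/-- What is needed about the programs. -/
structure ProgOk (P : Prm) (I : EndOfLine) : Prop where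
  n_eq : P.n = I.n
  /-- block PROG, first array -/
  solS : ∀ u : ℕ → Bool, ((∀ j < P.n, P.out false u j = false) ∨
    ∃ j < P.n, P.out true (P.out false u) j ≠ u j) → I.IsSolution ((List.range I.n).map u)
  /-- block PROG, second array -/
  solP : ∀ v : ℕ → Bool, (∃ j < P.n, v j = true) →
    (∃ j < P.n, P.out false (P.out true v) j ≠ v j) → I.IsSolution ((List.range I.n).map v)

variable {r : ℕ}

theorem cellVal_iff {z : Bool} {c : spec.Cell} {k : Con} (h : Cell.arr c z = some k) :
    CellVal z c ↔ k.v = true := by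
  unfold CellVal
  rw [h]
  rfl

theorem decide_cellVal {z : Bool} {c : spec.Cell} {b : Bool}
    (h : ∃ k, Cell.arr c z = some k ∧ k.v = b) :
    decide (CellVal z c) = b := by
  obtain ⟨k, h1, h2⟩ := h
  subst h2
  rw [Bool.eq_iff_iff, decide_eq_true_eq]
  exact cellVal_iff h1

theorem map_range_congr {n : ℕ} {f g : ℕ → Bool} (h : ∀ p < n, f p = g p) :
    (List.range n).map f = (List.range n).map g :=
  List.map_congr_left fun p hp => h p (List.mem_range.1 hp)

theorem decOut_spec {P : Prm} {L : Fin r → ℕ} (hG : Good P L) (hM : MachStmt) {I : EndOfLine}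
    (hP : ProgOk P I) {ε ρ₀ : ℝ} {x : Reg spec → (mkInst P L hG).Site → ℝ}
    {bit : Bool → ℕ → Bool}
    (hbit : ∀ z w, Near (mkInst P L hG) ε ρ₀ x z w → ∀ p < P.n,
      bit z p = decide (CellVal z (w (pt L p))))
    (h : (∃ w, (mkInst P L hG).Valid w ∧ Near (mkInst P L hG) ε ρ₀ x false w ∧
        ¬ (mkInst P L hG).Valid ((mkInst P L hG).step false w)) ∨
      (∃ w, (mkInst P L hG).Valid w ∧ w ≠ (mkInst P L hG).w0 ∧
        Near (mkInst P L hG) ε ρ₀ x true w ∧
        ¬ (mkInst P L hG).Valid ((mkInst P L hG).step true w))) :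
    I.IsSolution (decOut I bit) := by
  obtain ⟨-, hS, hV⟩ := hM r P L hG
  rcases h with ⟨w, h1, h2, h3⟩ | ⟨w, h1, h0, h2, h3⟩
  · obtain ⟨u, h4, h5⟩ := hS w h1 h3
    have h6 : I.IsSolution ((List.range I.n).map (bit false)) := by
      rw [map_range_congr (g := u)]
      · exact hP.solS u h5
      · intro p hp
        rw [← hP.n_eq] at hp
        rw [hbit false w h2 p hp]
        exact decide_cellVal (z := false) (h4 p hp)
    unfold decOut
    rw [if_pos ((I.isSol_iff _).2 h6)]
    exact h6
  · obtain ⟨v, h4, h5, h7⟩ := hV w h1 h0 h3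
    have h6 : I.IsSolution ((List.range I.n).map (bit true)) := by
      rw [map_range_congr (g := v)]
      · exact hP.solP v h5 h7
      · intro p hp
        rw [← hP.n_eq] at hp
        rw [hbit true w h2 p hp]
        exact decide_cellVal (z := true) (h4 p hp)
    unfold decOut
    split_ifs with h8
    · exact (I.isSol_iff _).1 h8
    · exact h6

/-- **Block DEC, correctness.** -/
theorem decode_isSolution {P : Prm} {L : Fin r → ℕ} (hG : Good P L) (hM : MachStmt)
    {I : EndOfLine} (hP : ProgOk P I) {ε ρ₀ : ℝ} (hε : ε < 1 / 2) (hρ : 2 ^ r * ρ₀ < 1 / 2)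
    (K : ℕ) (root : Reg spec → ℕ) (xs : List ℚ)
    (h : (∃ w, (mkInst P L hG).Valid w ∧ Near (mkInst P L hG) ε ρ₀
        (fun ρ ω => val xs (((mkInst P L hG).num ω : ℕ) * K + root ρ)) false w ∧
        ¬ (mkInst P L hG).Valid ((mkInst P L hG).step false w)) ∨
      (∃ w, (mkInst P L hG).Valid w ∧ w ≠ (mkInst P L hG).w0 ∧
        Near (mkInst P L hG) ε ρ₀
        (fun ρ ω => val xs (((mkInst P L hG).num ω : ℕ) * K + root ρ)) true w ∧
        ¬ (mkInst P L hG).Valid ((mkInst P L hG).step true w))) :
    I.IsSolution (decode K root I L xs) := by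
  refine decOut_spec hG hM hP (fun z w hN p _ => ?_) h
  have h1 := (mkInst P L hG).decBit_mask (pt L p) K root (CellVal z) xs hε hρ (z := z) (w := w) hN
  rw [← h1]
  have h2 : (mkInst P L hG).mask (pt L p) = maskN 5 L p := by
    funext B
    exact (mkInst P L hG).mask_eq p B
  rw [h2]
  rfl

/-! ### Polynomial time -/

section PT

variable {A : Set Word} {α : Type*} [Enc α]

/-- Case distinction over a Boolean in a function of several arguments. -/
theorem PT_decOut {I : α → EndOfLine} (hI : PT A I) {bit : Bool → α → ℕ → Bool}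
    (hb : ∀ z, PT A (fun q : α × ℕ => bit z q.1 q.2)) :
    PT A (fun a => decOut (I a) (fun z p => bit z a p)) := by
  have h1 : ∀ z, PT A (fun a => (List.range (I a).n).map (bit z a)) := fun z =>
    PT.map (f := fun a p => bit z a p) (PT.range (PT_eolN hI) (PBd_eolN hI)) (hb z)
  exact PT.ite ((PT_isSol hI (h1 false)).congr fun a => by simp) (h1 false) (h1 true)

/-- **Block DEC, polynomial time.** -/
theorem PT_decode {K : ℕ} {root : Reg spec → ℕ} {I : α → EndOfLine} {L : α → Fin r → ℕ}
    {xs : α → List ℚ} (hI : PT A I) (hL : ∀ i, PT A (fun a => L a i)) (hL1 : ∀ a i, 1 ≤ L a i)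
    (hV : PBd (fun a => 2 ^ eN 5 (L a))) (hx : PT A xs) :
    PT A (fun a => decode K root (I a) (L a) (xs a)) := by
  unfold decode
  refine PT_decOut (bit := fun z a p => decBit (2 ^ eN 5 (L a)) K (maskN 5 (L a) p)
    (fun c => root (.x z c)) (decT z) (xs a)) hI fun z => ?_
  exact PT_decMask (L := fun q : α × ℕ => L q.1) (fun i => (hL i).comp PT.fst')
    (fun a i => hL1 a.1 i) (hV.comp (A := A) PT.fst') PT.snd' K _ _ (hx.comp PT.fst')

/-- The decoder with output in the form of a raw word. -/
theorem PT_decodeRaw {K : ℕ} {root : Reg spec → ℕ} {I : α → EndOfLine} {L : α → Fin r → ℕ}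
    {xs : α → List ℚ} (hI : PT A I) (hL : ∀ i, PT A (fun a => L a i)) (hL1 : ∀ a i, 1 ≤ L a i)
    (hV : PBd (fun a => 2 ^ eN 5 (L a))) (hx : PT A xs) :
    PT A (fun a => Raw.mk (decode K root (I a) (L a) (xs a))) :=
  PT.rawOfList (PT_decode hI hL hL1 hV hx)

end PT

end Vale.Agent.P330.S.Mach
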