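import Vale.Agent.P330.S.ProgSem
import Vale.Agent.P330.S.DecFin

/-!
# Block PROG delivers what the decoder needs
-/

namespace Vale.Agent.P330.S.Mach

theorem progOk (I : EndOfLine) : ProgOk (prm I) I where
  n_eq := rfl
  solS _ h := isSolution_of_succ I h
  solP _ h0 h := isSolution_of_pred I h0 h

end Vale.Agent.P330.S.Mach
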