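import Vale.Agent.P330.S.NumPT

/-!
# The side lengths

`lens D r l i = 1 + (i + 1) · 4 · r! · (s + 1)` with `s` the integral part of the `D`-th root of `l`:
odd, at least `5`, pairwise coprime, `∑ (lens i) ^ D = O (l + 1)`, and the product is at least
`(l + 1) ^ (2 K)` for `r = 2 D K`.
-/

namespace Vale.Agent.P330.S

open Finset Vale.Agent.Lib.PolyTime

/-- the integral part of the `D`-th root -/
def rootN (D l : ℕ) : ℕ := Nat.findGreatest (fun j => j ^ D ≤ l) l

theorem rootN_pow_le (D l : ℕ) (hD : D ≠ 0) : rootN D l ^ D ≤ l :=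
  Nat.findGreatest_spec (P := fun j => j ^ D ≤ l) (m := 0) (Nat.zero_le _)
    (by simp [zero_pow hD])

theorem lt_rootN_succ_pow (D l : ℕ) (hD : D ≠ 0) : l < (rootN D l + 1) ^ D := by
  by_contra hcon
  push Not at hcon
  have h1 : rootN D l + 1 ≤ l := (Nat.le_self_pow hD _).trans hcon
  exact Nat.findGreatest_is_greatest (P := fun j => j ^ D ≤ l) (Nat.lt_succ_self _) h1 hcon

theorem rootN_succ_pow_le (D l : ℕ) (hD : D ≠ 0) : (rootN D l + 1) ^ D ≤ 2 ^ D * (l + 1) := by
  have h0 := rootN_pow_le D l hD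
  rcases Nat.eq_zero_or_pos (rootN D l) with h | h
  · rw [h]
    simp only [zero_add, one_pow]
    exact Nat.one_le_iff_ne_zero.2 (by positivity)
  · calc (rootN D l + 1) ^ D ≤ (2 * rootN D l) ^ D := Nat.pow_le_pow_left (by omega) _
      _ = 2 ^ D * rootN D l ^ D := mul_pow _ _ _
      _ ≤ 2 ^ D * (l + 1) := Nat.mul_le_mul_left _ (by omega)

/-- the side lengths -/
def lens (D r l : ℕ) (i : Fin r) : ℕ :=
  1 + ((i : ℕ) + 1) * (4 * r.factorial * (rootN D l + 1))

theorem five_le_lens (D r l : ℕ) (i : Fin r) : 5 ≤ lens D r l i := by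
  unfold lens
  have h1 : 1 ≤ r.factorial := Nat.factorial_pos r
  have h2 : 4 ≤ 4 * r.factorial * (rootN D l + 1) := by nlinarith
  nlinarith

theorem odd_lens (D r l : ℕ) (i : Fin r) : Odd (lens D r l i) := by
  unfold lens
  refine ⟨((i : ℕ) + 1) * (2 * r.factorial * (rootN D l + 1)), by ring⟩

theorem coprime_lens (D r l : ℕ) : Pairwise fun i j => Nat.Coprime (lens D r l i) (lens D r l j) := by
  have key : ∀ i j : Fin r, i < j → Nat.Coprime (lens D r l i) (lens D r l j) := by
    intro i j hij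
    rw [Nat.coprime_iff_gcd_eq_one]
    by_contra hg
    obtain ⟨p, hp, hpg⟩ := Nat.exists_prime_and_dvd hg
    have h1 : p ∣ lens D r l i := hpg.trans (Nat.gcd_dvd_left _ _)
    have h2 : p ∣ lens D r l j := hpg.trans (Nat.gcd_dvd_right _ _)
    set m := 4 * r.factorial * (rootN D l + 1) with hm
    have h3 : p ∣ ((j : ℕ) - i) * m := by
      have h4 : lens D r l j - lens D r l i = ((j : ℕ) - i) * m := by
        unfold lens
        rw [← hm, Nat.add_sub_add_left, ← Nat.sub_mul]
        congr 1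
        omega
      rw [← h4]
      exact Nat.dvd_sub h2 h1
    have hpm : ¬ p ∣ m := by
      intro h5
      have h6 : p ∣ 1 := by
        have h7 : lens D r l i = 1 + ((i : ℕ) + 1) * m := rfl
        rw [h7] at h1
        exact (Nat.dvd_add_left (h5.mul_left _)).1 h1
      exact hp.one_lt.ne' (Nat.dvd_one.1 h6)
    rcases (Nat.Prime.dvd_mul hp).1 h3 with h4 | h4
    · have h5 : p ≤ (j : ℕ) - i := Nat.le_of_dvd (by omega) h4
      have h6 : p ≤ r := by have := j.2; omega
      have h7 : p ∣ r.factorial := Nat.dvd_factorial hp.pos h6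
      exact hpm ((h7.mul_left 4).mul_right _)
    · exact hpm h4
  intro i j hij
  rcases lt_or_gt_of_ne hij with h | h
  · exact key i j h
  · exact (key j i h).symm

theorem lens_prod (D K l : ℕ) (hD : D ≠ 0) :
    (l + 1) ^ (2 * K) ≤ ∏ i : Fin (2 * D * K), lens D (2 * D * K) l i := by
  have h1 : ∀ i : Fin (2 * D * K), rootN D l + 1 ≤ lens D (2 * D * K) l i := fun i => by
    unfold lens
    have h1 : 1 ≤ (2 * D * K).factorial := Nat.factorial_pos _
    have h2 : rootN D l + 1 ≤ 4 * (2 * D * K).factorial * (rootN D l + 1) := by nlinarith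
    nlinarith
  calc (l + 1) ^ (2 * K) ≤ ((rootN D l + 1) ^ D) ^ (2 * K) :=
        Nat.pow_le_pow_left (lt_rootN_succ_pow D l hD) _
    _ = ∏ _i : Fin (2 * D * K), (rootN D l + 1) := by
        rw [Finset.prod_const, Finset.card_univ, Fintype.card_fin, ← pow_mul]
        congr 1
        ring
    _ ≤ _ := Finset.prod_le_prod' fun i _ => h1 i

/-- the constant in the bound for the number of bits -/
def lensC (D r : ℕ) : ℕ := r * ((8 * r * r.factorial) ^ D * 2 ^ D)

theorem lens_sum (D r l : ℕ) (hD : D ≠ 0) : ∑ i : Fin r, lens D r l i ^ D ≤ lensC D r * (l + 1) := by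
  have h1 : ∀ i : Fin r, lens D r l i ^ D ≤ (8 * r * r.factorial) ^ D * (2 ^ D * (l + 1)) := fun i => by
    have h2 : lens D r l i ≤ 8 * r * r.factorial * (rootN D l + 1) := by
      unfold lens
      have h3 : (i : ℕ) + 1 ≤ r := i.2
      have h4 : 1 ≤ r.factorial := Nat.factorial_pos r
      have h5 : ((i : ℕ) + 1) * (4 * r.factorial * (rootN D l + 1)) ≤
          r * (4 * r.factorial * (rootN D l + 1)) := Nat.mul_le_mul_right _ h3
      have h6 : 1 ≤ r * (4 * r.factorial * (rootN D l + 1)) :=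
        Nat.one_le_iff_ne_zero.2 (by
          have : 0 < r := by omega
          positivity)
      calc _ ≤ r * (4 * r.factorial * (rootN D l + 1)) + r * (4 * r.factorial * (rootN D l + 1)) :=
            Nat.add_le_add h6 h5
        _ = _ := by ring
    calc lens D r l i ^ D ≤ (8 * r * r.factorial * (rootN D l + 1)) ^ D := Nat.pow_le_pow_left h2 _
      _ = (8 * r * r.factorial) ^ D * (rootN D l + 1) ^ D := mul_pow _ _ _
      _ ≤ _ := Nat.mul_le_mul_left _ (rootN_succ_pow_le D l hD)
  calc ∑ i : Fin r, lens D r l i ^ D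
      ≤ ∑ _i : Fin r, (8 * r * r.factorial) ^ D * (2 ^ D * (l + 1)) :=
        Finset.sum_le_sum fun i _ => h1 i
    _ = _ := by
        rw [Finset.sum_const, Finset.card_univ, Fintype.card_fin, smul_eq_mul]
        unfold lensC
        ring

theorem even_lens_sum (D K l : ℕ) : Even (∑ i : Fin (2 * D * K), lens D (2 * D * K) l i ^ D) := by
  have h1 : ∀ n : ℕ, ∀ f : Fin n → ℕ, (∀ i, Odd (f i)) → (∑ i, f i) % 2 = n % 2 := by
    intro n
    induction n with
    | zero => intro f _; simp
    | succ n ih =>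
      intro f hf
      rw [Fin.sum_univ_succ, Nat.add_mod, ih _ fun i => hf _, Nat.odd_iff.1 (hf 0)]
      omega
  rw [Nat.even_iff, h1 _ _ fun i => (odd_lens _ _ _ i).pow]
  have : 2 * D * K = 2 * (D * K) := by ring
  omega

variable {A : Set Word} {α : Type*} [Enc α]

theorem PT_rootN (D : ℕ) {l : α → ℕ} (hl : PT A l) (hb : PBd l) : PT A (fun a => rootN D (l a)) := by
  have key : ∀ (m j : ℕ), Nat.rec (motive := fun _ => ℕ) 0
      (fun i s => if (i + 1) ^ D ≤ m then i + 1 else s) j =
      Nat.findGreatest (fun j => j ^ D ≤ m) j := by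
    intro m j
    induction j with
    | zero => rfl
    | succ j ih =>
      rw [Nat.findGreatest_succ]
      show (if (j + 1) ^ D ≤ m then j + 1 else _) = _
      rw [ih]
  refine (PT.natRec (init := fun _ => (0 : ℕ))
    (step := fun a i s => if (i + 1) ^ D ≤ l a then i + 1 else s) hl hb (PT.const 0) ?_
    (b := l) hb fun a j hj => ?_).congr fun a => key _ _
  · exact PT.ite (PT.le (PT.powConst (PT.add PT.snd'.fst (PT.const 1)) D) (hl.comp PT.fst'))
      (PT.add PT.snd'.fst (PT.const 1)) PT.snd'.snd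
  · rw [key]
    exact (esize_nat_le_self _).trans ((Nat.findGreatest_le j).trans hj)

theorem PT_lens (D r : ℕ) {l : α → ℕ} (hl : PT A l) (hb : PBd l) (i : Fin r) :
    PT A (fun a => lens D r (l a) i) :=
  PT.add (PT.const 1) (PT.mul (PT.const _) (PT.mul (PT.const _)
    (PT.add (PT_rootN D hl hb) (PT.const 1))))

/-- The number of table arguments is polynomially bounded, for `l = log₂ t`, `t` in unary. -/
theorem PBd_lens (D r : ℕ) (hD : D ≠ 0) {t : α → ℕ} (ht : PBd t) :
    PBd (fun a => 2 ^ (∑ i : Fin r, lens D r (Nat.log 2 (t a)) i ^ D)) := by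
  refine ((ht.add (PBd.const 1)).mul (PBd.const 2)).pow (lensC D r) |>.mono fun a => ?_
  calc 2 ^ (∑ i : Fin r, lens D r (Nat.log 2 (t a)) i ^ D)
      ≤ 2 ^ (lensC D r * (Nat.log 2 (t a) + 1)) := Nat.pow_le_pow_right (by norm_num)
        (lens_sum D r _ hD)
    _ = (2 ^ (Nat.log 2 (t a)) * 2) ^ lensC D r := by
        rw [mul_comm, pow_mul, pow_succ]
    _ ≤ _ := by
        refine Nat.pow_le_pow_left (Nat.mul_le_mul_right _ ?_) _
        rcases Nat.eq_zero_or_pos (t a) with h | h
        · rw [h]; simp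
        · exact (Nat.pow_log_le_self 2 h.ne').trans (Nat.le_succ _)

end Vale.Agent.P330.S
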