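import Vale.Agent.P330.H241.Defs
import Vale.Agent.P330.S.Mach

/-!
# Programs from the circuits of an instance of End-of-Line (block PROG)

* `Ins`: an instruction of a straight-line program over the columns of the array.
* `insOf n C`: the program of the circuit `C` with `n` inputs: wire `w` is kept in column `n + w`.
* `piAt q W p`: the static content of the position `p`.
* `prm I`: the parameters for the instance `I`.
-/

namespace Vale.Agent.P330.S.Mach

/-- An instruction: the column `t` gets the result of the operation `op` on the columns `i`,
`j`. -/
structure Ins where
  op : Bool × Bool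
  i : ℕ
  j : ℕ
  t : ℕ

/-- The instruction for the gate number `k`. -/
def gateIns (n k : ℕ) : BGate → Ins
  | .and i j => ⟨(false, false), n + i, n + j, 2 * n + k⟩
  | .or i j => ⟨(false, true), n + i, n + j, 2 * n + k⟩
  | .not i => ⟨(true, false), n + i, n + i, 2 * n + k⟩

/-- The program of a circuit. -/
def insOf (n : ℕ) (C : BoolCircuit) : List Ins :=
  (List.range n).map (fun i => ⟨(true, true), i, i, n + i⟩) ++
    C.gates.zipIdx.map (fun p => gateIns n p.2 p.1) ++
    C.outs.zipIdx.map (fun p => ⟨(true, true), n + p.1, n + p.1, p.2⟩)

/-- Static content of the position `p` (row `p / W`, column `p % W`). The instruction number `k`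
is executed in row `k + 2`, its operands are marked in row `k + 1`. -/
def piAt (q : List Ins) (W p : ℕ) : PI where
  al := decide (1 ≤ p / W) && q[p / W - 1]?.any fun s => decide (s.i = p % W)
  be := decide (1 ≤ p / W) && q[p / W - 1]?.any fun s => decide (s.j = p % W)
  de := decide (2 ≤ p / W) && q[p / W - 2]?.any fun s => decide (s.t = p % W)
  m := decide (p % W = 0)
  op := if 2 ≤ p / W then (q[p / W - 2]?.map Ins.op).getD (false, false) else (false, false)

/-- The width of the array. -/
def wid (I : EndOfLine) : ℕ := 2 * I.n + max I.S.gates.length I.P.gates.length

/-- The number of rows of the array. -/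
def rows (I : EndOfLine) : ℕ := wid I + 2

/-- The parameters for an instance of End-of-Line. -/
def prm (I : EndOfLine) : Prm where
  n := I.n
  W := wid I
  R := rows I
  prog k p := piAt (insOf I.n (if k then I.P else I.S)) (wid I) p

end Vale.Agent.P330.S.Mach
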