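import Vale.Agent.P330.S.NumRdPT
import Vale.Agent.P330.S.NumLen
import Vale.Agent.P330.S.Prog
import Vale.Agent.P330.S.H175.CbPT
import Vale.Agent.P330.H855.Asm

/-!
# The family of instances

`fam k q` is the concrete instance for the padded instance `q` of End-of-Line (with `10 (2 k + 1)`
blocks) if the side lengths are large enough, and some instance by default otherwise.
-/

namespace Vale.Agent.P330.S.Mach

open Finset Vale.Agent.Lib.PolyTime

/-- the number of blocks -/
def rk (k : ℕ) : ℕ := 2 * 5 * (2 * k + 1)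

theorem rk_pos (k : ℕ) : 0 < rk k := by unfold rk; omega

/-- the side lengths -/
def lensP (k : ℕ) (q : Pad) : Fin (rk k) → ℕ := lens 5 (rk k) (Nat.log 2 q.2.v)

/-- offsets by default -/
def offD : Off → ℕ
  | .o0 => 0
  | .p1 => 1
  | .m1 => 2
  | .pR => 3
  | .mR => 4
  | .mW => 0
  | .far => 0

/-- an instance by default -/
noncomputable def dflInst {r : ℕ} (hr : 0 < r) (L : Fin r → ℕ) (h : ∀ i, 5 ≤ L i) :
    Inst spec r where
  L := L
  hL := h
  off o := fun i => ((offD o : ℕ) : ZMod (L i))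
  off_zero := by
    funext i
    show ((offD Off.o0 : ℕ) : ZMod (L i)) = 0
    simp [offD]
  off_inj := by
    intro o o' ho ho' e
    have h1 := congrFun e ⟨0, hr⟩
    have h5 := h ⟨0, hr⟩
    have h2 : ((offD o : ℕ) : ZMod (L ⟨0, hr⟩)) = ((offD o' : ℕ) : ZMod (L ⟨0, hr⟩)) := h1
    rw [ZMod.natCast_eq_natCast_iff] at h2
    have h3 : offD o % L ⟨0, hr⟩ = offD o' % L ⟨0, hr⟩ := h2
    have hlt : ∀ o, offD o < 5 := by intro o; cases o <;> simp [offD]
    rw [Nat.mod_eq_of_lt ((hlt o).trans_le h5), Nat.mod_eq_of_lt ((hlt o').trans_le h5)] at h3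
    have ho1 : upd o = true := ho
    have ho2 : upd o' = true := ho'
    cases o <;> cases o' <;> first
      | rfl
      | exact absurd ho1 (by decide)
      | exact absurd ho2 (by decide)
      | exact absurd h3 (by decide)
  stat _ := St.deadSt
  w0 _ := ⟨St.deadSt, .A1, false, none, none⟩

open Classical in
/-- **The family of instances.** -/
noncomputable def fam (k : ℕ) (q : Pad) : Inst spec (rk k) :=
  if h : Good (prm q.1) (lensP k q) then mkInst (prm q.1) (lensP k q) h
  else dflInst (rk_pos k) (lensP k q) (fun i => five_le_lens _ _ _ i)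

theorem fam_eq {k : ℕ} {q : Pad} (h : Good (prm q.1) (lensP k q)) :
    fam k q = mkInst (prm q.1) (lensP k q) h := dif_pos h

theorem fam_L (k : ℕ) (q : Pad) : (fam k q).L = lensP k q := by
  unfold fam
  split_ifs <;> rfl

theorem fam_e (k : ℕ) (q : Pad) : (fam k q).e = ∑ i, lensP k q i ^ 5 := by
  unfold Inst.e
  rw [fam_L]
  rfl

theorem even_e (k : ℕ) (q : Pad) : Even (fam k q).e := by
  rw [fam_e]
  exact even_lens_sum 5 (2 * k + 1) _

/-! ### Good parameters -/

theorem good_iff (k : ℕ) (q : Pad) : Good (prm q.1) (lensP k q) ↔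
    2 * ((prm q.1).R * (prm q.1).W) + 3 ≤ ∏ i, lensP k q i := by
  have hn := q.1.one_le
  refine ⟨fun h => h.big, fun h => ⟨hn, ?_, ?_, ?_, fun i => five_le_lens _ _ _ i,
    coprime_lens _ _ _, h⟩⟩
  · show q.1.n ≤ wid q.1
    unfold wid; omega
  · show 2 ≤ wid q.1
    unfold wid; omega
  · show 2 ≤ rows q.1
    unfold rows; omega

theorem fam_length_le_listW {α : Type} (c : α → List Bool) (l : List α) :
    l.length ≤ (listW c l).length := by
  induction l with
  | nil => simp
  | cons a l ih =>
    simp only [listW, pairW, List.length_append, List.length_cons]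
    omega

theorem length_pairW_left (u v : List Bool) : u.length ≤ (pairW u v).length := by
  have : (u.flatMap fun b => [true, b]).length = 2 * u.length := by
    induction u with
    | nil => simp
    | cons b u ih => simp only [List.flatMap_cons, List.length_append, List.length_cons, ih]; simp; ring
  simp only [pairW, List.length_append, List.length_cons, this]
  omega

theorem length_pairW_right (u v : List Bool) : v.length ≤ (pairW u v).length := by
  simp only [pairW, List.length_append, List.length_cons]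
  omega

theorem fam_wid_le (I : EndOfLine) : wid I ≤ 3 * (eolW I).length := by
  have hS := I.circuit_S.1
  have h1 : (boolCircuitW I.S).length ≤ (eolW I).length :=
    (length_pairW_left _ _).trans (length_pairW_right _ _)
  have h2 : (boolCircuitW I.P).length ≤ (eolW I).length :=
    (length_pairW_right _ _).trans (length_pairW_right _ _)
  have h3 : I.S.gates.length ≤ (boolCircuitW I.S).length :=
    (fam_length_le_listW _ _).trans (length_pairW_left _ _)
  have h4 : I.P.gates.length ≤ (boolCircuitW I.P).length :=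
    (fam_length_le_listW _ _).trans (length_pairW_left _ _)
  have h5 : I.S.outs.length ≤ (boolCircuitW I.S).length :=
    (fam_length_le_listW _ _).trans (length_pairW_right _ _)
  unfold wid
  rw [hS] at h5
  have : max I.S.gates.length I.P.gates.length ≤ (eolW I).length := max_le (by omega) (by omega)
  omega

theorem good_of_ok {k : ℕ} {q : Pad} (ht : 2 ^ 7 ≤ q.2.v) (hq : q.Ok k) :
    Good (prm q.1) (lensP k q) := by
  rw [good_iff]
  set l := Nat.log 2 q.2.v with hl
  have hl7 : 7 ≤ l := Nat.le_log_of_pow_le (by norm_num) ht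
  have h1 : (l + 1) ^ (2 * (2 * k + 1)) ≤ ∏ i, lensP k q i := lens_prod 5 (2 * k + 1) l (by norm_num)
  refine le_trans ?_ h1
  have h2 := fam_wid_le q.1
  have h3 : (eolW q.1).length ≤ (l + 1) ^ k := hq.trans (Nat.pow_le_pow_left (Nat.le_succ _) k)
  show 2 * ((wid q.1 + 2) * wid q.1) + 3 ≤ _
  set X := (l + 1) ^ k with hX
  have hX1 : 1 ≤ X := Nat.one_le_pow _ _ (by omega)
  have hw : wid q.1 ≤ 3 * X := h2.trans (Nat.mul_le_mul_left 3 h3)
  have h4 : 2 * ((wid q.1 + 2) * wid q.1) + 3 ≤ 33 * (X * X) := by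
    have h5 : (wid q.1 + 2) * wid q.1 ≤ (3 * X + 2) * (3 * X) := Nat.mul_le_mul (by omega) hw
    nlinarith
  have h6 : (l + 1) ^ (2 * (2 * k + 1)) = (X * X) * (X * X) * (l + 1) ^ 2 := by
    rw [hX]; ring
  rw [h6]
  have h7 : 33 ≤ (l + 1) ^ 2 := by nlinarith
  have h8 : 1 ≤ X * X := Nat.mul_le_mul hX1 hX1
  calc _ ≤ 33 * (X * X) := h4
    _ ≤ (X * X) * (X * X) * (l + 1) ^ 2 := by
        have h9 : X * X ≤ (X * X) * (X * X) := Nat.le_mul_of_pos_right _ (by omega)
        calc 33 * (X * X) = (X * X) * 33 := mul_comm _ _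
          _ ≤ _ := Nat.mul_le_mul h9 h7

/-! ### Polynomial time -/

variable (k : ℕ)

theorem PT_logt : PT ∅ (fun q : Pad => Nat.log 2 q.2.v) := PT_log (PT.unVal PT.snd')

theorem PBd_t : PBd (fun q : Pad => q.2.v) := PBd.unVal (A := ∅) PT.snd'

theorem PBd_logt : PBd (fun q : Pad => Nat.log 2 q.2.v) := PBd_t.mono fun _ => Nat.log_le_self _ _

theorem PT_lensP (i : Fin (rk k)) : PT ∅ (fun q : Pad => lensP k q i) :=
  PT_lens 5 (rk k) PT_logt PBd_logt i

theorem val_intCast_neg (L n : ℕ) [NeZero L] :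
    (((-(n : ℤ) : ℤ) : ZMod L)).val = (L - n % L) % L := by
  have h1 : ((L - n % L : ℕ) : ZMod L) = ((-(n : ℤ) : ℤ) : ZMod L) := by
    rw [Nat.cast_sub (Nat.mod_lt _ (Nat.pos_of_ne_zero (NeZero.ne L))).le]
    simp
  rw [← h1, ZMod.val_natCast]

/-- the values of the offsets as numbers -/
def offZN (R W L : ℕ) : Off → ℕ
  | .o0 => 0
  | .p1 => 1 % L
  | .m1 => (L - 1 % L) % L
  | .mW => (L - W % L) % L
  | .far => (R - 1) * W % L
  | .pR => R * W % L
  | .mR => (L - R * W % L) % L

theorem val_off (P : Prm) (L : ℕ) [NeZero L] (o : Off) :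
    ((P.offZ o : ℤ) : ZMod L).val = offZN P.R P.W L o := by
  cases o with
  | o0 => simp [Prm.offZ, offZN]
  | p1 =>
    have := ZMod.val_natCast L 1
    simpa [Prm.offZ, offZN] using this
  | m1 =>
    have := val_intCast_neg L 1
    simpa only [Prm.offZ, offZN, Nat.cast_one] using this
  | mW => exact val_intCast_neg L P.W
  | far =>
    show ((((P.R - 1) * P.W : ℕ) : ℤ) : ZMod L).val = _
    rw [Int.cast_natCast, ZMod.val_natCast]; rfl
  | pR =>
    show (((P.R * P.W : ℕ) : ℤ) : ZMod L).val = _
    rw [Int.cast_natCast, ZMod.val_natCast]; rfl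
  | mR => exact val_intCast_neg L (P.R * P.W)

theorem mk_off {r : ℕ} (P : Prm) (L : Fin r → ℕ) (h : Good P L) (o : Off) (i : Fin r) :
    ((mkInst P L h).off o i).val = offZN P.R P.W (L i) o := by
  have : NeZero (L i) := ⟨by have := h.L5 i; omega⟩
  exact val_off P (L i) o

theorem dfl_off {r : ℕ} (hr : 0 < r) (L : Fin r → ℕ) (h : ∀ i, 5 ≤ L i) (o : Off) (i : Fin r) :
    ((dflInst hr L h).off o i).val = offD o := by
  show (((offD o : ℕ) : ZMod (L i))).val = offD o
  rw [ZMod.val_natCast, Nat.mod_eq_of_lt]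
  have hlt : ∀ o, offD o < 5 := by intro o; cases o <;> simp [offD]
  exact (hlt o).trans_le (h i)

theorem fam_off (q : Pad) (o : Off) (i : Fin (rk k)) : ((fam k q).off o i).val =
    if 2 * ((prm q.1).R * (prm q.1).W) + 3 ≤ ∏ i, lensP k q i then
      offZN (prm q.1).R (prm q.1).W (lensP k q i) o else offD o := by
  by_cases h : 2 * ((prm q.1).R * (prm q.1).W) + 3 ≤ ∏ i, lensP k q i
  · rw [if_pos h]
    have hg := (good_iff k q).2 h
    rw [fam_eq hg]
    exact mk_off _ _ hg o i
  · rw [if_neg h]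
    have hg : ¬ Good (prm q.1) (lensP k q) := fun hg => h ((good_iff k q).1 hg)
    have h1 : fam k q = dflInst (rk_pos k) (lensP k q) (fun i => five_le_lens _ _ _ i) := dif_neg hg
    rw [h1]
    exact dfl_off _ _ _ o i

/-- **The family is computable in polynomial time.** -/
theorem PTInst_fam (hP : H175.PrmPT ∅ (fun q : Pad => prm q.1)) : PTInst ∅ (fam k) where
  L i := (PT_lensP k i).congr fun q => by rw [fam_L]
  V := (PBd_lens 5 (rk k) (by norm_num) PBd_t).mono fun q => by rw [fam_e]; rfl
  off o i := by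
    have hL := PT_lensP k i
    have hRW := PT.mul hP.R hP.W
    have hb : PT ∅ (fun q : Pad => decide (2 * ((prm q.1).R * (prm q.1).W) + 3 ≤
        ∏ i, lensP k q i)) :=
      PT.le (PT.add (PT.mul (PT.const 2) hRW) (PT.const 3)) (PT_prodFin fun i => PT_lensP k i)
    refine (PT.ite hb ?_ (PT.const (offD o))).congr fun q => (fam_off k q o i).symm
    have hneg : ∀ {f : Pad → ℕ}, PT ∅ f →
        PT ∅ (fun q => (lensP k q i - f q % lensP k q i) % lensP k q i) := fun hf =>
      PT.mod (PT.sub hL (PT.mod hf hL)) hL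
    cases o with
    | o0 => exact PT.const 0
    | p1 => exact PT.mod (PT.const 1) hL
    | m1 => exact hneg (PT.const 1)
    | mW => exact hneg hP.W
    | far => exact PT.mod (PT.mul (PT.sub hP.R (PT.const 1)) hP.W) hL
    | pR => exact PT.mod hRW hL
    | mR => exact hneg hRW

end Vale.Agent.P330.S.Mach
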