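import Vale.Agent.P330.S.Core

/-!
# The finite lemma on the control values (block LOOP)

`q 0`, `q 1`, `q 2` are the limits of the averages of the three control bits, `C` is the set of
control data (threshold bits, `v`, `σ_X`, `σ_Y`) that may be read. If the facts `K1`-`K7`
hold, then one of the three target bits is constant and the corresponding control value is not
there yet. This contradicts `Core.ctl`.
-/

namespace Vale.Agent.P330.S

/-- The control data that may be read: threshold bits, `v`, `σ_X`, `σ_Y`. -/
structure LC where
  th : Fin 3 → Fin 5 → Bool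
  v : Bool
  x : Bool
  y : Bool

/-- The hypotheses on the limits `q` of the control values and the set `C` of the control data that
may be read. -/
structure LoopHyp (q : Fin 3 → ℝ) (C : LC → Prop) : Prop where
  th : ∀ c, C c → ThOK q c.th
  nonneg : ∀ i, 0 ≤ q i
  le_one : ∀ i, q i ≤ 1
  K1 : 1 / 3 ≤ q 2 → (q 0 ≤ 1 / 6 ∨ 5 / 6 ≤ q 0 ∨ q 1 ≤ 1 / 6 ∨ 5 / 6 ≤ q 1) →
    (∃ b, ∀ c, C c → c.v = b) ∨ ((∀ c, C c → c.y = true) ∧ 5 / 6 ≤ q 1)
  K2 : q 1 < 2 / 3 → ∃ b, ∀ c, C c → c.x = b
  K3 : 1 / 3 < q 1 → ∃ b, ∀ c, C c → c.y = b
  K4 : q 2 < 1 / 6 → ∀ c, C c → c.x = true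
  K5 : 1 / 6 < q 2 → q 0 ≤ 1 / 6 → q 1 ≤ 1 / 6 → (∀ c, C c → c.x = true) →
    ∀ c, C c → c.v = true
  K6 : 1 / 3 ≤ q 2 → q 0 ≤ 1 / 6 → (∀ c, C c → c.v = true) →
    ∃ b, ∀ c, C c → c.x = b ∧ c.y = b
  K7 : 1 / 3 ≤ q 2 → 5 / 6 ≤ q 0 → (∀ c, C c → c.v = true) → ∀ c, C c → c.y = false

/-- One of the control values has a constant target and is not there. -/
def Concl (q : Fin 3 → ℝ) (C : LC → Prop) : Prop :=
  ∃ (i : Fin 3) (b : Bool), (∀ c, C c → target c.th c.v c.x c.y i = b) ∧
    (b = true → q i < 1) ∧ (b = false → 0 < q i)

variable {q : Fin 3 → ℝ} {C : LC → Prop} {th : Fin 3 → Fin 5 → Bool} {i : Fin 3}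

theorem ThOK.t0 (h : ThOK q th) (hi : 1 / 6 < q i) : th i 0 = true :=
  (h i 0).1 (by norm_num; linarith)

theorem ThOK.t1 (h : ThOK q th) (hi : 1 / 3 < q i) : th i 1 = true :=
  (h i 1).1 (by norm_num; linarith)

theorem ThOK.t2 (h : ThOK q th) (hi : 1 / 2 < q i) : th i 2 = true :=
  (h i 2).1 (by norm_num; linarith)

theorem ThOK.t3 (h : ThOK q th) (hi : 2 / 3 < q i) : th i 3 = true :=
  (h i 3).1 (by norm_num; linarith)

theorem ThOK.t4 (h : ThOK q th) (hi : 5 / 6 < q i) : th i 4 = true :=
  (h i 4).1 (by norm_num; linarith)

theorem ThOK.f0 (h : ThOK q th) (hi : q i < 1 / 6) : th i 0 = false :=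
  (h i 0).2 (by norm_num; linarith)

theorem ThOK.f1 (h : ThOK q th) (hi : q i < 1 / 3) : th i 1 = false :=
  (h i 1).2 (by norm_num; linarith)

theorem ThOK.f2 (h : ThOK q th) (hi : q i < 1 / 2) : th i 2 = false :=
  (h i 2).2 (by norm_num; linarith)

theorem ThOK.f3 (h : ThOK q th) (hi : q i < 2 / 3) : th i 3 = false :=
  (h i 3).2 (by norm_num; linarith)

theorem ThOK.f4 (h : ThOK q th) (hi : q i < 5 / 6) : th i 4 = false :=
  (h i 4).2 (by norm_num; linarith)

/-- `target` as a function of the single bits. -/
def tgt (a0 a1 a2 a3 a4 b0 b1 b2 b3 b4 s0 s1 s2 s3 v x y : Bool) : Fin 3 → Bool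
  | 0 =>
    if v && s3 then !b1 || (!b3 && a2)
    else if v && (s0 && !s2) then
      (if x && !a1 && !b1 then false else b3 || (b1 && a2))
    else if s2 then a2 else false
  | 1 =>
    if v && s3 then a3 || (a1 && b2)
    else if v && (s0 && !s2) then
      (if x && !a1 && !b1 then false else !a1 || (!a3 && b2))
    else if s2 then b2 else false
  | 2 =>
    (x && !a0 && !b0) ||
      !(!s1 || !v || (a0 && !a4 && b0 && !b4) || (x && !a1 && b0 && !b3) || (y && b1))

theorem target_eq (th : Fin 3 → Fin 5 → Bool) (v x y : Bool) (i : Fin 3) :
    target th v x y i = tgt (th 0 0) (th 0 1) (th 0 2) (th 0 3) (th 0 4) (th 1 0) (th 1 1) (th 1 2)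
      (th 1 3) (th 1 4) (th 2 0) (th 2 1) (th 2 2) (th 2 3) v x y i :=
  match i with
  | 0 => rfl
  | 1 => rfl
  | 2 => rfl

theorem loop_lt (H : LoopHyp q C) (hs1 : q 2 < 1 / 6) :
    Concl q C := by
  have n0 := H.nonneg 0
  have n1 := H.nonneg 1
  have m0 := H.le_one 0
  have m1 := H.le_one 1
  have n2 := H.nonneg 2
  have hx := H.K4 (by linarith)
  rcases le_or_gt (q 0) (0) with g1 | g1
  · rcases le_or_gt (q 1) (0) with g2 | g2
    · refine ⟨2, true, fun c hc => ?_, fun _ => by linarith, by simp⟩
      have h := H.th c hc
      rw [target_eq, h.f0 (i := 0) (by linarith), h.f1 (i := 0) (by linarith),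
          h.f2 (i := 0) (by linarith), h.f3 (i := 0) (by linarith),
          h.f4 (i := 0) (by linarith), h.f0 (i := 1) (by linarith),
          h.f1 (i := 1) (by linarith), h.f2 (i := 1) (by linarith),
          h.f3 (i := 1) (by linarith), h.f4 (i := 1) (by linarith),
          h.f0 (i := 2) (by linarith), h.f1 (i := 2) (by linarith),
          h.f2 (i := 2) (by linarith), h.f3 (i := 2) (by linarith), hx c hc]
      simp [tgt]
    · refine ⟨1, false, fun c hc => ?_, by simp, fun _ => by linarith⟩
      have h := H.th c hc
      rw [target_eq, h.f0 (i := 0) (by linarith), h.f1 (i := 0) (by linarith),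
          h.f2 (i := 0) (by linarith), h.f3 (i := 0) (by linarith),
          h.f4 (i := 0) (by linarith), h.f0 (i := 2) (by linarith),
          h.f1 (i := 2) (by linarith), h.f2 (i := 2) (by linarith),
          h.f3 (i := 2) (by linarith), hx c hc]
      simp [tgt]
  · refine ⟨0, false, fun c hc => ?_, by simp, fun _ => by linarith⟩
    have h := H.th c hc
    rw [target_eq, h.f0 (i := 2) (by linarith), h.f1 (i := 2) (by linarith),
        h.f2 (i := 2) (by linarith), h.f3 (i := 2) (by linarith), hx c hc]
    simp [tgt]

theorem loop_s2 (H : LoopHyp q C) (hs1 : 1 / 6 ≤ q 2) (hs2 : q 2 ≤ 1 / 6) :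
    Concl q C := by
  have n0 := H.nonneg 0
  have n1 := H.nonneg 1
  have m0 := H.le_one 0
  have m1 := H.le_one 1
  rcases le_or_gt (q 1) (0) with g3 | g3
  · obtain ⟨z, hx⟩ := H.K2 (by linarith)
    cases z
    · refine ⟨2, false, fun c hc => ?_, by simp, fun _ => by linarith⟩
      have h := H.th c hc
      rw [target_eq, h.f0 (i := 1) (by linarith), h.f1 (i := 1) (by linarith),
          h.f2 (i := 1) (by linarith), h.f3 (i := 1) (by linarith),
          h.f4 (i := 1) (by linarith), h.f1 (i := 2) (by linarith),
          h.f2 (i := 2) (by linarith), h.f3 (i := 2) (by linarith), hx c hc]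
      simp [tgt]
    · rcases le_or_gt (q 0) (0) with g4 | g4
      · refine ⟨2, true, fun c hc => ?_, fun _ => by linarith, by simp⟩
        have h := H.th c hc
        rw [target_eq, h.f0 (i := 0) (by linarith), h.f1 (i := 0) (by linarith),
            h.f2 (i := 0) (by linarith), h.f3 (i := 0) (by linarith),
            h.f4 (i := 0) (by linarith), h.f0 (i := 1) (by linarith),
            h.f1 (i := 1) (by linarith), h.f2 (i := 1) (by linarith),
            h.f3 (i := 1) (by linarith), h.f4 (i := 1) (by linarith),
            h.f1 (i := 2) (by linarith), h.f2 (i := 2) (by linarith),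
            h.f3 (i := 2) (by linarith), hx c hc]
        simp [tgt]
      · refine ⟨0, false, fun c hc => ?_, by simp, fun _ => by linarith⟩
        have h := H.th c hc
        rw [target_eq, h.f0 (i := 1) (by linarith), h.f1 (i := 1) (by linarith),
            h.f2 (i := 1) (by linarith), h.f3 (i := 1) (by linarith),
            h.f4 (i := 1) (by linarith), h.f1 (i := 2) (by linarith),
            h.f2 (i := 2) (by linarith), h.f3 (i := 2) (by linarith), hx c hc]
        simp [tgt]
  · rcases le_or_gt (q 1) (1 / 6) with g5 | g5
    · obtain ⟨z, hx⟩ := H.K2 (by linarith)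
      cases z
      · refine ⟨2, false, fun c hc => ?_, by simp, fun _ => by linarith⟩
        have h := H.th c hc
        rw [target_eq, h.f1 (i := 1) (by linarith), h.f2 (i := 1) (by linarith),
            h.f3 (i := 1) (by linarith), h.f4 (i := 1) (by linarith),
            h.f1 (i := 2) (by linarith), h.f2 (i := 2) (by linarith),
            h.f3 (i := 2) (by linarith), hx c hc]
        simp [tgt]
      · refine ⟨1, false, fun c hc => ?_, by simp, fun _ => by linarith⟩
        have h := H.th c hc
        rw [target_eq, h.f1 (i := 1) (by linarith), h.f2 (i := 1) (by linarith),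
            h.f3 (i := 1) (by linarith), h.f4 (i := 1) (by linarith),
            h.f1 (i := 2) (by linarith), h.f2 (i := 2) (by linarith),
            h.f3 (i := 2) (by linarith), hx c hc]
        simp [tgt]
    · refine ⟨2, false, fun c hc => ?_, by simp, fun _ => by linarith⟩
      have h := H.th c hc
      rw [target_eq, h.t0 (i := 1) (by linarith), h.f1 (i := 2) (by linarith),
          h.f2 (i := 2) (by linarith), h.f3 (i := 2) (by linarith)]
      simp [tgt]

theorem loop_s3 (H : LoopHyp q C) (hs1 : 1 / 6 < q 2) (hs2 : q 2 < 1 / 3) :
    Concl q C := by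
  have n0 := H.nonneg 0
  have n1 := H.nonneg 1
  have m0 := H.le_one 0
  have m1 := H.le_one 1
  rcases le_or_gt (q 1) (0) with g6 | g6
  · obtain ⟨z, hx⟩ := H.K2 (by linarith)
    cases z
    · refine ⟨2, false, fun c hc => ?_, by simp, fun _ => by linarith⟩
      have h := H.th c hc
      rw [target_eq, h.f0 (i := 1) (by linarith), h.f1 (i := 1) (by linarith),
          h.f2 (i := 1) (by linarith), h.f3 (i := 1) (by linarith),
          h.f4 (i := 1) (by linarith), h.t0 (i := 2) (by linarith),
          h.f1 (i := 2) (by linarith), h.f2 (i := 2) (by linarith),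
          h.f3 (i := 2) (by linarith), hx c hc]
      simp [tgt]
    · rcases le_or_gt (q 0) (0) with g7 | g7
      · refine ⟨2, true, fun c hc => ?_, fun _ => by linarith, by simp⟩
        have h := H.th c hc
        rw [target_eq, h.f0 (i := 0) (by linarith), h.f1 (i := 0) (by linarith),
            h.f2 (i := 0) (by linarith), h.f3 (i := 0) (by linarith),
            h.f4 (i := 0) (by linarith), h.f0 (i := 1) (by linarith),
            h.f1 (i := 1) (by linarith), h.f2 (i := 1) (by linarith),
            h.f3 (i := 1) (by linarith), h.f4 (i := 1) (by linarith),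
            h.t0 (i := 2) (by linarith), h.f1 (i := 2) (by linarith),
            h.f2 (i := 2) (by linarith), h.f3 (i := 2) (by linarith), hx c hc]
        simp [tgt]
      · refine ⟨0, false, fun c hc => ?_, by simp, fun _ => by linarith⟩
        have h := H.th c hc
        rw [target_eq, h.f0 (i := 1) (by linarith), h.f1 (i := 1) (by linarith),
            h.f2 (i := 1) (by linarith), h.f3 (i := 1) (by linarith),
            h.f4 (i := 1) (by linarith), h.t0 (i := 2) (by linarith),
            h.f1 (i := 2) (by linarith), h.f2 (i := 2) (by linarith),
            h.f3 (i := 2) (by linarith), hx c hc]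
        simp [tgt]
  · rcases le_or_gt (q 1) (1 / 6) with g8 | g8
    · obtain ⟨z, hx⟩ := H.K2 (by linarith)
      cases z
      · refine ⟨2, false, fun c hc => ?_, by simp, fun _ => by linarith⟩
        have h := H.th c hc
        rw [target_eq, h.f1 (i := 1) (by linarith), h.f2 (i := 1) (by linarith),
            h.f3 (i := 1) (by linarith), h.f4 (i := 1) (by linarith),
            h.t0 (i := 2) (by linarith), h.f1 (i := 2) (by linarith),
            h.f2 (i := 2) (by linarith), h.f3 (i := 2) (by linarith), hx c hc]
        simp [tgt]
      · refine ⟨1, false, fun c hc => ?_, by simp, fun _ => by linarith⟩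
        have h := H.th c hc
        rw [target_eq, h.f1 (i := 1) (by linarith), h.f2 (i := 1) (by linarith),
            h.f3 (i := 1) (by linarith), h.f4 (i := 1) (by linarith),
            h.t0 (i := 2) (by linarith), h.f1 (i := 2) (by linarith),
            h.f2 (i := 2) (by linarith), h.f3 (i := 2) (by linarith), hx c hc]
        simp [tgt]
    · refine ⟨2, false, fun c hc => ?_, by simp, fun _ => by linarith⟩
      have h := H.th c hc
      rw [target_eq, h.t0 (i := 1) (by linarith), h.t0 (i := 2) (by linarith),
          h.f1 (i := 2) (by linarith), h.f2 (i := 2) (by linarith), h.f3 (i := 2) (by linarith)]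
      simp [tgt]

theorem loop_s4 (H : LoopHyp q C) (hs1 : 1 / 3 ≤ q 2) (hs2 : q 2 < 1 / 2) :
    Concl q C := by
  have n0 := H.nonneg 0
  have n1 := H.nonneg 1
  have m0 := H.le_one 0
  have m1 := H.le_one 1
  rcases le_or_gt (q 0) (1 / 6) with g9 | g9
  · rcases le_or_gt (q 1) (1 / 3) with g10 | g10
    · obtain ⟨z, hx⟩ := H.K2 (by linarith)
      cases z
      · rcases H.K1 (by linarith) (.inl (by linarith)) with ⟨z, hv⟩ | ⟨hy, hb⟩
        · cases z
          · refine ⟨2, false, fun c hc => ?_, by simp, fun _ => by linarith⟩
            have h := H.th c hc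
            rw [target_eq, h.f1 (i := 0) (by linarith), h.f2 (i := 0) (by linarith),
                h.f3 (i := 0) (by linarith), h.f4 (i := 0) (by linarith),
                h.f2 (i := 1) (by linarith), h.f3 (i := 1) (by linarith),
                h.f4 (i := 1) (by linarith), h.t0 (i := 2) (by linarith),
                h.f2 (i := 2) (by linarith), h.f3 (i := 2) (by linarith), hv c hc, hx c hc]
            simp [tgt]
          · refine ⟨1, true, fun c hc => ?_, fun _ => by linarith, by simp⟩
            have h := H.th c hc
            rw [target_eq, h.f1 (i := 0) (by linarith), h.f2 (i := 0) (by linarith),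
                h.f3 (i := 0) (by linarith), h.f4 (i := 0) (by linarith),
                h.f2 (i := 1) (by linarith), h.f3 (i := 1) (by linarith),
                h.f4 (i := 1) (by linarith), h.t0 (i := 2) (by linarith),
                h.f2 (i := 2) (by linarith), h.f3 (i := 2) (by linarith), hv c hc, hx c hc]
            simp [tgt]
        · exact absurd hb (by linarith)
      · rcases le_or_gt (q 1) (0) with g11 | g11
        · rcases le_or_gt (q 0) (0) with g12 | g12
          · refine ⟨2, true, fun c hc => ?_, fun _ => by linarith, by simp⟩
            have h := H.th c hc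
            rw [target_eq, h.f0 (i := 0) (by linarith), h.f1 (i := 0) (by linarith),
                h.f2 (i := 0) (by linarith), h.f3 (i := 0) (by linarith),
                h.f4 (i := 0) (by linarith), h.f0 (i := 1) (by linarith),
                h.f1 (i := 1) (by linarith), h.f2 (i := 1) (by linarith),
                h.f3 (i := 1) (by linarith), h.f4 (i := 1) (by linarith),
                h.t0 (i := 2) (by linarith), h.f2 (i := 2) (by linarith),
                h.f3 (i := 2) (by linarith), hx c hc]
            simp [tgt]
          · refine ⟨0, false, fun c hc => ?_, by simp, fun _ => by linarith⟩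
            have h := H.th c hc
            rw [target_eq, h.f1 (i := 0) (by linarith), h.f2 (i := 0) (by linarith),
                h.f3 (i := 0) (by linarith), h.f4 (i := 0) (by linarith),
                h.f0 (i := 1) (by linarith), h.f1 (i := 1) (by linarith),
                h.f2 (i := 1) (by linarith), h.f3 (i := 1) (by linarith),
                h.f4 (i := 1) (by linarith), h.t0 (i := 2) (by linarith),
                h.f2 (i := 2) (by linarith), h.f3 (i := 2) (by linarith), hx c hc]
            simp [tgt]
        · rcases le_or_gt (q 1) (1 / 6) with g13 | g13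
          · refine ⟨1, false, fun c hc => ?_, by simp, fun _ => by linarith⟩
            have h := H.th c hc
            rw [target_eq, h.f1 (i := 0) (by linarith), h.f2 (i := 0) (by linarith),
                h.f3 (i := 0) (by linarith), h.f4 (i := 0) (by linarith),
                h.f1 (i := 1) (by linarith), h.f2 (i := 1) (by linarith),
                h.f3 (i := 1) (by linarith), h.f4 (i := 1) (by linarith),
                h.t0 (i := 2) (by linarith), h.f2 (i := 2) (by linarith),
                h.f3 (i := 2) (by linarith), hx c hc]
            simp [tgt]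
          · refine ⟨2, false, fun c hc => ?_, by simp, fun _ => by linarith⟩
            have h := H.th c hc
            rw [target_eq, h.f1 (i := 0) (by linarith), h.f2 (i := 0) (by linarith),
                h.f3 (i := 0) (by linarith), h.f4 (i := 0) (by linarith),
                h.t0 (i := 1) (by linarith), h.f2 (i := 1) (by linarith),
                h.f3 (i := 1) (by linarith), h.f4 (i := 1) (by linarith),
                h.t0 (i := 2) (by linarith), h.f2 (i := 2) (by linarith),
                h.f3 (i := 2) (by linarith), hx c hc]
            simp [tgt]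
    · rcases H.K1 (by linarith) (.inl (by linarith)) with ⟨z, hv⟩ | ⟨hy, hb⟩
      · cases z
        · refine ⟨2, false, fun c hc => ?_, by simp, fun _ => by linarith⟩
          have h := H.th c hc
          rw [target_eq, h.f1 (i := 0) (by linarith), h.f2 (i := 0) (by linarith),
              h.f3 (i := 0) (by linarith), h.f4 (i := 0) (by linarith),
              h.t0 (i := 1) (by linarith), h.t1 (i := 1) (by linarith),
              h.t0 (i := 2) (by linarith), h.f2 (i := 2) (by linarith),
              h.f3 (i := 2) (by linarith), hv c hc]
          simp [tgt]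
        · rcases le_or_gt (q 1) (2 / 3) with g14 | g14
          · refine ⟨1, true, fun c hc => ?_, fun _ => by linarith, by simp⟩
            have h := H.th c hc
            rw [target_eq, h.f1 (i := 0) (by linarith), h.f2 (i := 0) (by linarith),
                h.f3 (i := 0) (by linarith), h.f4 (i := 0) (by linarith),
                h.t0 (i := 1) (by linarith), h.t1 (i := 1) (by linarith),
                h.f4 (i := 1) (by linarith), h.t0 (i := 2) (by linarith),
                h.f2 (i := 2) (by linarith), h.f3 (i := 2) (by linarith), hv c hc]
            simp [tgt]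
          · refine ⟨0, true, fun c hc => ?_, fun _ => by linarith, by simp⟩
            have h := H.th c hc
            rw [target_eq, h.f1 (i := 0) (by linarith), h.f2 (i := 0) (by linarith),
                h.f3 (i := 0) (by linarith), h.f4 (i := 0) (by linarith),
                h.t0 (i := 1) (by linarith), h.t1 (i := 1) (by linarith),
                h.t2 (i := 1) (by linarith), h.t3 (i := 1) (by linarith),
                h.t0 (i := 2) (by linarith), h.f2 (i := 2) (by linarith),
                h.f3 (i := 2) (by linarith), hv c hc]
            simp [tgt]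
      · refine ⟨2, false, fun c hc => ?_, by simp, fun _ => by linarith⟩
        have h := H.th c hc
        rw [target_eq, h.f1 (i := 0) (by linarith), h.f2 (i := 0) (by linarith),
            h.f3 (i := 0) (by linarith), h.f4 (i := 0) (by linarith),
            h.t0 (i := 1) (by linarith), h.t1 (i := 1) (by linarith),
            h.t2 (i := 1) (by linarith), h.t3 (i := 1) (by linarith),
            h.t0 (i := 2) (by linarith), h.f2 (i := 2) (by linarith),
            h.f3 (i := 2) (by linarith), hy c hc]
        simp [tgt]
  · rcases le_or_gt (q 0) (2 / 3) with g15 | g15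
    · rcases lt_or_ge (q 1) (5 / 6) with g16 | g16
      · rcases le_or_gt (q 1) (1 / 6) with g17 | g17
        · refine ⟨0, false, fun c hc => ?_, by simp, fun _ => by linarith⟩
          have h := H.th c hc
          rw [target_eq, h.t0 (i := 0) (by linarith), h.f4 (i := 0) (by linarith),
              h.f1 (i := 1) (by linarith), h.f2 (i := 1) (by linarith),
              h.f3 (i := 1) (by linarith), h.f4 (i := 1) (by linarith),
              h.t0 (i := 2) (by linarith), h.f2 (i := 2) (by linarith),
              h.f3 (i := 2) (by linarith)]
          simp [tgt]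
        · refine ⟨2, false, fun c hc => ?_, by simp, fun _ => by linarith⟩
          have h := H.th c hc
          rw [target_eq, h.t0 (i := 0) (by linarith), h.f4 (i := 0) (by linarith),
              h.t0 (i := 1) (by linarith), h.f4 (i := 1) (by linarith),
              h.t0 (i := 2) (by linarith), h.f2 (i := 2) (by linarith),
              h.f3 (i := 2) (by linarith)]
          simp [tgt]
      · rcases H.K1 (by linarith) (.inr (.inr (.inr (by linarith)))) with ⟨z, hv⟩ | ⟨hy, hb⟩
        · cases z
          · refine ⟨2, false, fun c hc => ?_, by simp, fun _ => by linarith⟩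
            have h := H.th c hc
            rw [target_eq, h.t0 (i := 0) (by linarith), h.f4 (i := 0) (by linarith),
                h.t0 (i := 1) (by linarith), h.t1 (i := 1) (by linarith),
                h.t2 (i := 1) (by linarith), h.t3 (i := 1) (by linarith),
                h.t0 (i := 2) (by linarith), h.f2 (i := 2) (by linarith),
                h.f3 (i := 2) (by linarith), hv c hc]
            simp [tgt]
          · refine ⟨0, true, fun c hc => ?_, fun _ => by linarith, by simp⟩
            have h := H.th c hc
            rw [target_eq, h.t0 (i := 0) (by linarith), h.f4 (i := 0) (by linarith),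
                h.t0 (i := 1) (by linarith), h.t1 (i := 1) (by linarith),
                h.t2 (i := 1) (by linarith), h.t3 (i := 1) (by linarith),
                h.t0 (i := 2) (by linarith), h.f2 (i := 2) (by linarith),
                h.f3 (i := 2) (by linarith), hv c hc]
            simp [tgt]
        · refine ⟨2, false, fun c hc => ?_, by simp, fun _ => by linarith⟩
          have h := H.th c hc
          rw [target_eq, h.t0 (i := 0) (by linarith), h.f4 (i := 0) (by linarith),
              h.t0 (i := 1) (by linarith), h.t1 (i := 1) (by linarith),
              h.t2 (i := 1) (by linarith), h.t3 (i := 1) (by linarith),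
              h.t0 (i := 2) (by linarith), h.f2 (i := 2) (by linarith),
              h.f3 (i := 2) (by linarith), hy c hc]
          simp [tgt]
    · rcases le_or_gt (q 1) (0) with g18 | g18
      · refine ⟨0, false, fun c hc => ?_, by simp, fun _ => by linarith⟩
        have h := H.th c hc
        rw [target_eq, h.t0 (i := 0) (by linarith), h.t1 (i := 0) (by linarith),
            h.t2 (i := 0) (by linarith), h.t3 (i := 0) (by linarith),
            h.f0 (i := 1) (by linarith), h.f1 (i := 1) (by linarith),
            h.f2 (i := 1) (by linarith), h.f3 (i := 1) (by linarith),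
            h.f4 (i := 1) (by linarith), h.t0 (i := 2) (by linarith),
            h.f2 (i := 2) (by linarith), h.f3 (i := 2) (by linarith)]
        simp [tgt]
      · refine ⟨1, false, fun c hc => ?_, by simp, fun _ => by linarith⟩
        have h := H.th c hc
        rw [target_eq, h.t0 (i := 0) (by linarith), h.t1 (i := 0) (by linarith),
            h.t2 (i := 0) (by linarith), h.t3 (i := 0) (by linarith),
            h.t0 (i := 2) (by linarith), h.f2 (i := 2) (by linarith),
            h.f3 (i := 2) (by linarith)]
        simp [tgt]

theorem loop_s6a (H : LoopHyp q C) (hs1 : 1 / 2 ≤ q 2) (hs2 : q 2 ≤ 1 / 2) (hs3 : q 0 < 5 / 6)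
    (hs4 : q 1 ≤ 1 / 2) :
    Concl q C := by
  have n0 := H.nonneg 0
  have n1 := H.nonneg 1
  have m0 := H.le_one 0
  have m1 := H.le_one 1
  rcases le_or_gt (q 0) (0) with g19 | g19
  · obtain ⟨z, hx⟩ := H.K2 (by linarith)
    cases z
    · rcases H.K1 (by linarith) (.inl (by linarith)) with ⟨z, hv⟩ | ⟨hy, hb⟩
      · cases z
        · refine ⟨2, false, fun c hc => ?_, by simp, fun _ => by linarith⟩
          have h := H.th c hc
          rw [target_eq, h.f0 (i := 0) (by linarith), h.f1 (i := 0) (by linarith),
              h.f2 (i := 0) (by linarith), h.f3 (i := 0) (by linarith),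
              h.f4 (i := 0) (by linarith), h.f3 (i := 1) (by linarith),
              h.f4 (i := 1) (by linarith), h.t0 (i := 2) (by linarith),
              h.t1 (i := 2) (by linarith), h.f3 (i := 2) (by linarith), hv c hc, hx c hc]
          simp [tgt]
        · obtain ⟨z, hz⟩ := H.K6 (by linarith) (by linarith) hv
          have hy : ∀ c, C c → c.y = false := fun c hc =>
            ((hz c hc).2).trans ((hz c hc).1.symm.trans (hx c hc))
          refine ⟨2, true, fun c hc => ?_, fun _ => by linarith, by simp⟩
          have h := H.th c hc
          rw [target_eq, h.f0 (i := 0) (by linarith), h.f1 (i := 0) (by linarith),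
              h.f2 (i := 0) (by linarith), h.f3 (i := 0) (by linarith),
              h.f4 (i := 0) (by linarith), h.f3 (i := 1) (by linarith),
              h.f4 (i := 1) (by linarith), h.t0 (i := 2) (by linarith),
              h.t1 (i := 2) (by linarith), h.f3 (i := 2) (by linarith), hv c hc, hx c hc,
              hy c hc]
          simp [tgt]
      · exact absurd hb (by linarith)
    · rcases le_or_gt (q 1) (0) with g20 | g20
      · refine ⟨2, true, fun c hc => ?_, fun _ => by linarith, by simp⟩
        have h := H.th c hc
        rw [target_eq, h.f0 (i := 0) (by linarith), h.f1 (i := 0) (by linarith),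
            h.f2 (i := 0) (by linarith), h.f3 (i := 0) (by linarith),
            h.f4 (i := 0) (by linarith), h.f0 (i := 1) (by linarith),
            h.f1 (i := 1) (by linarith), h.f2 (i := 1) (by linarith),
            h.f3 (i := 1) (by linarith), h.f4 (i := 1) (by linarith),
            h.t0 (i := 2) (by linarith), h.t1 (i := 2) (by linarith),
            h.f3 (i := 2) (by linarith), hx c hc]
        simp [tgt]
      · rcases le_or_gt (q 1) (1 / 6) with g21 | g21
        · refine ⟨1, false, fun c hc => ?_, by simp, fun _ => by linarith⟩
          have h := H.th c hc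
          rw [target_eq, h.f0 (i := 0) (by linarith), h.f1 (i := 0) (by linarith),
              h.f2 (i := 0) (by linarith), h.f3 (i := 0) (by linarith),
              h.f4 (i := 0) (by linarith), h.f1 (i := 1) (by linarith),
              h.f2 (i := 1) (by linarith), h.f3 (i := 1) (by linarith),
              h.f4 (i := 1) (by linarith), h.t0 (i := 2) (by linarith),
              h.t1 (i := 2) (by linarith), h.f3 (i := 2) (by linarith), hx c hc]
          simp [tgt]
        · refine ⟨2, false, fun c hc => ?_, by simp, fun _ => by linarith⟩
          have h := H.th c hc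
          rw [target_eq, h.f0 (i := 0) (by linarith), h.f1 (i := 0) (by linarith),
              h.f2 (i := 0) (by linarith), h.f3 (i := 0) (by linarith),
              h.f4 (i := 0) (by linarith), h.t0 (i := 1) (by linarith),
              h.f3 (i := 1) (by linarith), h.f4 (i := 1) (by linarith),
              h.t0 (i := 2) (by linarith), h.t1 (i := 2) (by linarith),
              h.f3 (i := 2) (by linarith), hx c hc]
          simp [tgt]
  · rcases le_or_gt (q 0) (1 / 3) with g22 | g22
    · refine ⟨0, false, fun c hc => ?_, by simp, fun _ => by linarith⟩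
      have h := H.th c hc
      rw [target_eq, h.f2 (i := 0) (by linarith), h.f3 (i := 0) (by linarith),
          h.f4 (i := 0) (by linarith), h.f3 (i := 1) (by linarith),
          h.f4 (i := 1) (by linarith), h.t0 (i := 2) (by linarith),
          h.t1 (i := 2) (by linarith), h.f3 (i := 2) (by linarith)]
      simp [tgt]
    · rcases le_or_gt (q 1) (0) with g23 | g23
      · rcases H.K1 (by linarith) (.inr (.inr (.inl (by linarith)))) with ⟨z, hv⟩ | ⟨hy, hb⟩
        · cases z
          · refine ⟨2, false, fun c hc => ?_, by simp, fun _ => by linarith⟩
            have h := H.th c hc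
            rw [target_eq, h.t0 (i := 0) (by linarith), h.t1 (i := 0) (by linarith),
                h.f4 (i := 0) (by linarith), h.f0 (i := 1) (by linarith),
                h.f1 (i := 1) (by linarith), h.f2 (i := 1) (by linarith),
                h.f3 (i := 1) (by linarith), h.f4 (i := 1) (by linarith),
                h.t0 (i := 2) (by linarith), h.t1 (i := 2) (by linarith),
                h.f3 (i := 2) (by linarith), hv c hc]
            simp [tgt]
          · refine ⟨2, true, fun c hc => ?_, fun _ => by linarith, by simp⟩
            have h := H.th c hc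
            rw [target_eq, h.t0 (i := 0) (by linarith), h.t1 (i := 0) (by linarith),
                h.f4 (i := 0) (by linarith), h.f0 (i := 1) (by linarith),
                h.f1 (i := 1) (by linarith), h.f2 (i := 1) (by linarith),
                h.f3 (i := 1) (by linarith), h.f4 (i := 1) (by linarith),
                h.t0 (i := 2) (by linarith), h.t1 (i := 2) (by linarith),
                h.f3 (i := 2) (by linarith), hv c hc]
            simp [tgt]
        · exact absurd hb (by linarith)
      · rcases le_or_gt (q 1) (1 / 6) with g24 | g24
        · refine ⟨1, false, fun c hc => ?_, by simp, fun _ => by linarith⟩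
          have h := H.th c hc
          rw [target_eq, h.t0 (i := 0) (by linarith), h.t1 (i := 0) (by linarith),
              h.f4 (i := 0) (by linarith), h.f1 (i := 1) (by linarith),
              h.f2 (i := 1) (by linarith), h.f3 (i := 1) (by linarith),
              h.f4 (i := 1) (by linarith), h.t0 (i := 2) (by linarith),
              h.t1 (i := 2) (by linarith), h.f3 (i := 2) (by linarith)]
          simp [tgt]
        · refine ⟨2, false, fun c hc => ?_, by simp, fun _ => by linarith⟩
          have h := H.th c hc
          rw [target_eq, h.t0 (i := 0) (by linarith), h.t1 (i := 0) (by linarith),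
              h.f4 (i := 0) (by linarith), h.t0 (i := 1) (by linarith),
              h.f3 (i := 1) (by linarith), h.f4 (i := 1) (by linarith),
              h.t0 (i := 2) (by linarith), h.t1 (i := 2) (by linarith),
              h.f3 (i := 2) (by linarith)]
          simp [tgt]

theorem loop_s6b (H : LoopHyp q C) (hs1 : 1 / 2 ≤ q 2) (hs2 : q 2 ≤ 1 / 2) (hs3 : q 0 < 5 / 6)
    (hs4 : 1 / 2 < q 1) :
    Concl q C := by
  have n0 := H.nonneg 0
  have n1 := H.nonneg 1
  have m0 := H.le_one 0
  have m1 := H.le_one 1
  rcases lt_or_ge (q 1) (5 / 6) with g25 | g25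
  · rcases le_or_gt (q 0) (1 / 6) with g26 | g26
    · rcases H.K1 (by linarith) (.inl (by linarith)) with ⟨z, hv⟩ | ⟨hy, hb⟩
      · cases z
        · refine ⟨2, false, fun c hc => ?_, by simp, fun _ => by linarith⟩
          have h := H.th c hc
          rw [target_eq, h.f1 (i := 0) (by linarith), h.f2 (i := 0) (by linarith),
              h.f3 (i := 0) (by linarith), h.f4 (i := 0) (by linarith),
              h.t0 (i := 1) (by linarith), h.t1 (i := 1) (by linarith),
              h.t2 (i := 1) (by linarith), h.f4 (i := 1) (by linarith),
              h.t0 (i := 2) (by linarith), h.t1 (i := 2) (by linarith),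
              h.f3 (i := 2) (by linarith), hv c hc]
          simp [tgt]
        · refine ⟨1, true, fun c hc => ?_, fun _ => by linarith, by simp⟩
          have h := H.th c hc
          rw [target_eq, h.f1 (i := 0) (by linarith), h.f2 (i := 0) (by linarith),
              h.f3 (i := 0) (by linarith), h.f4 (i := 0) (by linarith),
              h.t0 (i := 1) (by linarith), h.t1 (i := 1) (by linarith),
              h.t2 (i := 1) (by linarith), h.f4 (i := 1) (by linarith),
              h.t0 (i := 2) (by linarith), h.t1 (i := 2) (by linarith),
              h.f3 (i := 2) (by linarith), hv c hc]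
          simp [tgt]
      · exact absurd hb (by linarith)
    · refine ⟨2, false, fun c hc => ?_, by simp, fun _ => by linarith⟩
      have h := H.th c hc
      rw [target_eq, h.t0 (i := 0) (by linarith), h.f4 (i := 0) (by linarith),
          h.t0 (i := 1) (by linarith), h.t1 (i := 1) (by linarith),
          h.t2 (i := 1) (by linarith), h.f4 (i := 1) (by linarith),
          h.t0 (i := 2) (by linarith), h.t1 (i := 2) (by linarith), h.f3 (i := 2) (by linarith)]
      simp [tgt]
  · rcases H.K1 (by linarith) (.inr (.inr (.inr (by linarith)))) with ⟨z, hv⟩ | ⟨hy, hb⟩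
    · cases z
      · refine ⟨2, false, fun c hc => ?_, by simp, fun _ => by linarith⟩
        have h := H.th c hc
        rw [target_eq, h.f4 (i := 0) (by linarith), h.t0 (i := 1) (by linarith),
            h.t1 (i := 1) (by linarith), h.t2 (i := 1) (by linarith),
            h.t3 (i := 1) (by linarith), h.t0 (i := 2) (by linarith),
            h.t1 (i := 2) (by linarith), h.f3 (i := 2) (by linarith), hv c hc]
        simp [tgt]
      · rcases le_or_gt (q 1) (5 / 6) with g27 | g27
        · rcases le_or_gt (q 0) (1 / 2) with g28 | g28
          · refine ⟨1, true, fun c hc => ?_, fun _ => by linarith, by simp⟩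
            have h := H.th c hc
            rw [target_eq, h.f3 (i := 0) (by linarith), h.f4 (i := 0) (by linarith),
                h.t0 (i := 1) (by linarith), h.t1 (i := 1) (by linarith),
                h.t2 (i := 1) (by linarith), h.t3 (i := 1) (by linarith),
                h.t0 (i := 2) (by linarith), h.t1 (i := 2) (by linarith),
                h.f3 (i := 2) (by linarith), hv c hc]
            simp [tgt]
          · refine ⟨0, true, fun c hc => ?_, fun _ => by linarith, by simp⟩
            have h := H.th c hc
            rw [target_eq, h.t0 (i := 0) (by linarith), h.t1 (i := 0) (by linarith),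
                h.t2 (i := 0) (by linarith), h.f4 (i := 0) (by linarith),
                h.t0 (i := 1) (by linarith), h.t1 (i := 1) (by linarith),
                h.t2 (i := 1) (by linarith), h.t3 (i := 1) (by linarith),
                h.t0 (i := 2) (by linarith), h.t1 (i := 2) (by linarith),
                h.f3 (i := 2) (by linarith), hv c hc]
            simp [tgt]
        · obtain ⟨z, hy⟩ := H.K3 (by linarith)
          cases z
          · refine ⟨2, true, fun c hc => ?_, fun _ => by linarith, by simp⟩
            have h := H.th c hc
            rw [target_eq, h.f4 (i := 0) (by linarith), h.t0 (i := 1) (by linarith),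
                h.t1 (i := 1) (by linarith), h.t2 (i := 1) (by linarith),
                h.t3 (i := 1) (by linarith), h.t4 (i := 1) (by linarith),
                h.t0 (i := 2) (by linarith), h.t1 (i := 2) (by linarith),
                h.f3 (i := 2) (by linarith), hv c hc, hy c hc]
            simp [tgt]
          · refine ⟨2, false, fun c hc => ?_, by simp, fun _ => by linarith⟩
            have h := H.th c hc
            rw [target_eq, h.f4 (i := 0) (by linarith), h.t0 (i := 1) (by linarith),
                h.t1 (i := 1) (by linarith), h.t2 (i := 1) (by linarith),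
                h.t3 (i := 1) (by linarith), h.t4 (i := 1) (by linarith),
                h.t0 (i := 2) (by linarith), h.t1 (i := 2) (by linarith),
                h.f3 (i := 2) (by linarith), hv c hc, hy c hc]
            simp [tgt]
    · refine ⟨2, false, fun c hc => ?_, by simp, fun _ => by linarith⟩
      have h := H.th c hc
      rw [target_eq, h.f4 (i := 0) (by linarith), h.t0 (i := 1) (by linarith),
          h.t1 (i := 1) (by linarith), h.t2 (i := 1) (by linarith),
          h.t3 (i := 1) (by linarith), h.t0 (i := 2) (by linarith),
          h.t1 (i := 2) (by linarith), h.f3 (i := 2) (by linarith), hy c hc]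
      simp [tgt]

theorem loop_s6c (H : LoopHyp q C) (hs1 : 1 / 2 ≤ q 2) (hs2 : q 2 ≤ 1 / 2) (hs3 : 5 / 6 ≤ q 0) :
    Concl q C := by
  have n0 := H.nonneg 0
  have n1 := H.nonneg 1
  have m0 := H.le_one 0
  have m1 := H.le_one 1
  rcases H.K1 (by linarith) (.inr (.inl (by linarith))) with ⟨z, hv⟩ | ⟨hy, hb⟩
  · cases z
    · refine ⟨2, false, fun c hc => ?_, by simp, fun _ => by linarith⟩
      have h := H.th c hc
      rw [target_eq, h.t0 (i := 0) (by linarith), h.t1 (i := 0) (by linarith),
          h.t2 (i := 0) (by linarith), h.t3 (i := 0) (by linarith),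
          h.t0 (i := 2) (by linarith), h.t1 (i := 2) (by linarith),
          h.f3 (i := 2) (by linarith), hv c hc]
      simp [tgt]
    · have hy := H.K7 (by linarith) (by linarith) hv
      rcases le_or_gt (q 1) (1 / 3) with g29 | g29
      · rcases le_or_gt (q 1) (0) with g30 | g30
        · refine ⟨2, true, fun c hc => ?_, fun _ => by linarith, by simp⟩
          have h := H.th c hc
          rw [target_eq, h.t0 (i := 0) (by linarith), h.t1 (i := 0) (by linarith),
              h.t2 (i := 0) (by linarith), h.t3 (i := 0) (by linarith),
              h.f0 (i := 1) (by linarith), h.f1 (i := 1) (by linarith),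
              h.f2 (i := 1) (by linarith), h.f3 (i := 1) (by linarith),
              h.f4 (i := 1) (by linarith), h.t0 (i := 2) (by linarith),
              h.t1 (i := 2) (by linarith), h.f3 (i := 2) (by linarith), hv c hc, hy c hc]
          simp [tgt]
        · refine ⟨1, false, fun c hc => ?_, by simp, fun _ => by linarith⟩
          have h := H.th c hc
          rw [target_eq, h.t0 (i := 0) (by linarith), h.t1 (i := 0) (by linarith),
              h.t2 (i := 0) (by linarith), h.t3 (i := 0) (by linarith),
              h.f2 (i := 1) (by linarith), h.f3 (i := 1) (by linarith),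
              h.f4 (i := 1) (by linarith), h.t0 (i := 2) (by linarith),
              h.t1 (i := 2) (by linarith), h.f3 (i := 2) (by linarith), hv c hc, hy c hc]
          simp [tgt]
      · rcases le_or_gt (q 0) (5 / 6) with g31 | g31
        · refine ⟨0, true, fun c hc => ?_, fun _ => by linarith, by simp⟩
          have h := H.th c hc
          rw [target_eq, h.t0 (i := 0) (by linarith), h.t1 (i := 0) (by linarith),
              h.t2 (i := 0) (by linarith), h.t3 (i := 0) (by linarith),
              h.t0 (i := 1) (by linarith), h.t1 (i := 1) (by linarith),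
              h.t0 (i := 2) (by linarith), h.t1 (i := 2) (by linarith),
              h.f3 (i := 2) (by linarith), hv c hc, hy c hc]
          simp [tgt]
        · refine ⟨2, true, fun c hc => ?_, fun _ => by linarith, by simp⟩
          have h := H.th c hc
          rw [target_eq, h.t0 (i := 0) (by linarith), h.t1 (i := 0) (by linarith),
              h.t2 (i := 0) (by linarith), h.t3 (i := 0) (by linarith),
              h.t4 (i := 0) (by linarith), h.t0 (i := 1) (by linarith),
              h.t1 (i := 1) (by linarith), h.t0 (i := 2) (by linarith),
              h.t1 (i := 2) (by linarith), h.f3 (i := 2) (by linarith), hv c hc, hy c hc]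
          simp [tgt]
  · refine ⟨2, false, fun c hc => ?_, by simp, fun _ => by linarith⟩
    have h := H.th c hc
    rw [target_eq, h.t0 (i := 0) (by linarith), h.t1 (i := 0) (by linarith),
        h.t2 (i := 0) (by linarith), h.t3 (i := 0) (by linarith), h.t0 (i := 1) (by linarith),
        h.t1 (i := 1) (by linarith), h.t2 (i := 1) (by linarith), h.t3 (i := 1) (by linarith),
        h.t0 (i := 2) (by linarith), h.t1 (i := 2) (by linarith), h.f3 (i := 2) (by linarith),
        hy c hc]
    simp [tgt]

theorem loop_s7a (H : LoopHyp q C) (hs1 : 1 / 2 < q 2) (hs2 : q 2 < 2 / 3) (hs3 : q 1 ≤ 1 / 2) :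
    Concl q C := by
  have n0 := H.nonneg 0
  have n1 := H.nonneg 1
  have m0 := H.le_one 0
  have m1 := H.le_one 1
  rcases le_or_gt (q 0) (1 / 6) with g32 | g32
  · obtain ⟨z, hx⟩ := H.K2 (by linarith)
    cases z
    · rcases H.K1 (by linarith) (.inl (by linarith)) with ⟨z, hv⟩ | ⟨hy, hb⟩
      · cases z
        · refine ⟨2, false, fun c hc => ?_, by simp, fun _ => by linarith⟩
          have h := H.th c hc
          rw [target_eq, h.f1 (i := 0) (by linarith), h.f2 (i := 0) (by linarith),
              h.f3 (i := 0) (by linarith), h.f4 (i := 0) (by linarith),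
              h.f3 (i := 1) (by linarith), h.f4 (i := 1) (by linarith),
              h.t0 (i := 2) (by linarith), h.t1 (i := 2) (by linarith),
              h.t2 (i := 2) (by linarith), h.f3 (i := 2) (by linarith), hv c hc, hx c hc]
          simp [tgt]
        · obtain ⟨z, hz⟩ := H.K6 (by linarith) (by linarith) hv
          have hy : ∀ c, C c → c.y = false := fun c hc =>
            ((hz c hc).2).trans ((hz c hc).1.symm.trans (hx c hc))
          rcases le_or_gt (q 0) (0) with g33 | g33
          · refine ⟨2, true, fun c hc => ?_, fun _ => by linarith, by simp⟩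
            have h := H.th c hc
            rw [target_eq, h.f0 (i := 0) (by linarith), h.f1 (i := 0) (by linarith),
                h.f2 (i := 0) (by linarith), h.f3 (i := 0) (by linarith),
                h.f4 (i := 0) (by linarith), h.f3 (i := 1) (by linarith),
                h.f4 (i := 1) (by linarith), h.t0 (i := 2) (by linarith),
                h.t1 (i := 2) (by linarith), h.t2 (i := 2) (by linarith),
                h.f3 (i := 2) (by linarith), hv c hc, hx c hc, hy c hc]
            simp [tgt]
          · refine ⟨0, false, fun c hc => ?_, by simp, fun _ => by linarith⟩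
            have h := H.th c hc
            rw [target_eq, h.f1 (i := 0) (by linarith), h.f2 (i := 0) (by linarith),
                h.f3 (i := 0) (by linarith), h.f4 (i := 0) (by linarith),
                h.f3 (i := 1) (by linarith), h.f4 (i := 1) (by linarith),
                h.t0 (i := 2) (by linarith), h.t1 (i := 2) (by linarith),
                h.t2 (i := 2) (by linarith), h.f3 (i := 2) (by linarith), hv c hc, hx c hc,
                hy c hc]
            simp [tgt]
      · exact absurd hb (by linarith)
    · rcases le_or_gt (q 1) (0) with g34 | g34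
      · rcases le_or_gt (q 0) (0) with g35 | g35
        · refine ⟨2, true, fun c hc => ?_, fun _ => by linarith, by simp⟩
          have h := H.th c hc
          rw [target_eq, h.f0 (i := 0) (by linarith), h.f1 (i := 0) (by linarith),
              h.f2 (i := 0) (by linarith), h.f3 (i := 0) (by linarith),
              h.f4 (i := 0) (by linarith), h.f0 (i := 1) (by linarith),
              h.f1 (i := 1) (by linarith), h.f2 (i := 1) (by linarith),
              h.f3 (i := 1) (by linarith), h.f4 (i := 1) (by linarith),
              h.t0 (i := 2) (by linarith), h.t1 (i := 2) (by linarith),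
              h.t2 (i := 2) (by linarith), h.f3 (i := 2) (by linarith), hx c hc]
          simp [tgt]
        · refine ⟨0, false, fun c hc => ?_, by simp, fun _ => by linarith⟩
          have h := H.th c hc
          rw [target_eq, h.f1 (i := 0) (by linarith), h.f2 (i := 0) (by linarith),
              h.f3 (i := 0) (by linarith), h.f4 (i := 0) (by linarith),
              h.f0 (i := 1) (by linarith), h.f1 (i := 1) (by linarith),
              h.f2 (i := 1) (by linarith), h.f3 (i := 1) (by linarith),
              h.f4 (i := 1) (by linarith), h.t0 (i := 2) (by linarith),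
              h.t1 (i := 2) (by linarith), h.t2 (i := 2) (by linarith),
              h.f3 (i := 2) (by linarith), hx c hc]
          simp [tgt]
      · rcases le_or_gt (q 1) (1 / 6) with g36 | g36
        · refine ⟨1, false, fun c hc => ?_, by simp, fun _ => by linarith⟩
          have h := H.th c hc
          rw [target_eq, h.f1 (i := 0) (by linarith), h.f2 (i := 0) (by linarith),
              h.f3 (i := 0) (by linarith), h.f4 (i := 0) (by linarith),
              h.f1 (i := 1) (by linarith), h.f2 (i := 1) (by linarith),
              h.f3 (i := 1) (by linarith), h.f4 (i := 1) (by linarith),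
              h.t0 (i := 2) (by linarith), h.t1 (i := 2) (by linarith),
              h.t2 (i := 2) (by linarith), h.f3 (i := 2) (by linarith), hx c hc]
          simp [tgt]
        · refine ⟨2, false, fun c hc => ?_, by simp, fun _ => by linarith⟩
          have h := H.th c hc
          rw [target_eq, h.f1 (i := 0) (by linarith), h.f2 (i := 0) (by linarith),
              h.f3 (i := 0) (by linarith), h.f4 (i := 0) (by linarith),
              h.t0 (i := 1) (by linarith), h.f3 (i := 1) (by linarith),
              h.f4 (i := 1) (by linarith), h.t0 (i := 2) (by linarith),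
              h.t1 (i := 2) (by linarith), h.t2 (i := 2) (by linarith),
              h.f3 (i := 2) (by linarith), hx c hc]
          simp [tgt]
  · rcases lt_or_ge (q 0) (5 / 6) with g37 | g37
    · rcases le_or_gt (q 1) (0) with g38 | g38
      · rcases H.K1 (by linarith) (.inr (.inr (.inl (by linarith)))) with ⟨z, hv⟩ | ⟨hy, hb⟩
        · cases z
          · refine ⟨2, false, fun c hc => ?_, by simp, fun _ => by linarith⟩
            have h := H.th c hc
            rw [target_eq, h.t0 (i := 0) (by linarith), h.f4 (i := 0) (by linarith),
                h.f0 (i := 1) (by linarith), h.f1 (i := 1) (by linarith),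
                h.f2 (i := 1) (by linarith), h.f3 (i := 1) (by linarith),
                h.f4 (i := 1) (by linarith), h.t0 (i := 2) (by linarith),
                h.t1 (i := 2) (by linarith), h.t2 (i := 2) (by linarith),
                h.f3 (i := 2) (by linarith), hv c hc]
            simp [tgt]
          · refine ⟨2, true, fun c hc => ?_, fun _ => by linarith, by simp⟩
            have h := H.th c hc
            rw [target_eq, h.t0 (i := 0) (by linarith), h.f4 (i := 0) (by linarith),
                h.f0 (i := 1) (by linarith), h.f1 (i := 1) (by linarith),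
                h.f2 (i := 1) (by linarith), h.f3 (i := 1) (by linarith),
                h.f4 (i := 1) (by linarith), h.t0 (i := 2) (by linarith),
                h.t1 (i := 2) (by linarith), h.t2 (i := 2) (by linarith),
                h.f3 (i := 2) (by linarith), hv c hc]
            simp [tgt]
        · exact absurd hb (by linarith)
      · rcases le_or_gt (q 1) (1 / 6) with g39 | g39
        · refine ⟨1, false, fun c hc => ?_, by simp, fun _ => by linarith⟩
          have h := H.th c hc
          rw [target_eq, h.t0 (i := 0) (by linarith), h.f4 (i := 0) (by linarith),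
              h.f1 (i := 1) (by linarith), h.f2 (i := 1) (by linarith),
              h.f3 (i := 1) (by linarith), h.f4 (i := 1) (by linarith),
              h.t0 (i := 2) (by linarith), h.t1 (i := 2) (by linarith),
              h.t2 (i := 2) (by linarith), h.f3 (i := 2) (by linarith)]
          simp [tgt]
        · refine ⟨2, false, fun c hc => ?_, by simp, fun _ => by linarith⟩
          have h := H.th c hc
          rw [target_eq, h.t0 (i := 0) (by linarith), h.f4 (i := 0) (by linarith),
              h.t0 (i := 1) (by linarith), h.f3 (i := 1) (by linarith),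
              h.f4 (i := 1) (by linarith), h.t0 (i := 2) (by linarith),
              h.t1 (i := 2) (by linarith), h.t2 (i := 2) (by linarith),
              h.f3 (i := 2) (by linarith)]
          simp [tgt]
    · rcases H.K1 (by linarith) (.inr (.inl (by linarith))) with ⟨z, hv⟩ | ⟨hy, hb⟩
      · cases z
        · refine ⟨2, false, fun c hc => ?_, by simp, fun _ => by linarith⟩
          have h := H.th c hc
          rw [target_eq, h.t0 (i := 0) (by linarith), h.t1 (i := 0) (by linarith),
              h.t2 (i := 0) (by linarith), h.t3 (i := 0) (by linarith),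
              h.f3 (i := 1) (by linarith), h.f4 (i := 1) (by linarith),
              h.t0 (i := 2) (by linarith), h.t1 (i := 2) (by linarith),
              h.t2 (i := 2) (by linarith), h.f3 (i := 2) (by linarith), hv c hc]
          simp [tgt]
        · have hy := H.K7 (by linarith) (by linarith) hv
          rcases le_or_gt (q 0) (5 / 6) with g40 | g40
          · refine ⟨0, true, fun c hc => ?_, fun _ => by linarith, by simp⟩
            have h := H.th c hc
            rw [target_eq, h.t0 (i := 0) (by linarith), h.t1 (i := 0) (by linarith),
                h.t2 (i := 0) (by linarith), h.t3 (i := 0) (by linarith),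
                h.f3 (i := 1) (by linarith), h.f4 (i := 1) (by linarith),
                h.t0 (i := 2) (by linarith), h.t1 (i := 2) (by linarith),
                h.t2 (i := 2) (by linarith), h.f3 (i := 2) (by linarith), hv c hc, hy c hc]
            simp [tgt]
          · refine ⟨2, true, fun c hc => ?_, fun _ => by linarith, by simp⟩
            have h := H.th c hc
            rw [target_eq, h.t0 (i := 0) (by linarith), h.t1 (i := 0) (by linarith),
                h.t2 (i := 0) (by linarith), h.t3 (i := 0) (by linarith),
                h.t4 (i := 0) (by linarith), h.f3 (i := 1) (by linarith),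
                h.f4 (i := 1) (by linarith), h.t0 (i := 2) (by linarith),
                h.t1 (i := 2) (by linarith), h.t2 (i := 2) (by linarith),
                h.f3 (i := 2) (by linarith), hv c hc, hy c hc]
            simp [tgt]
      · exact absurd hb (by linarith)

theorem loop_s7b (H : LoopHyp q C) (hs1 : 1 / 2 < q 2) (hs2 : q 2 < 2 / 3) (hs3 : 1 / 2 < q 1) :
    Concl q C := by
  have n0 := H.nonneg 0
  have n1 := H.nonneg 1
  have m0 := H.le_one 0
  have m1 := H.le_one 1
  obtain ⟨z, hy⟩ := H.K3 (by linarith)
  cases z
  · rcases le_or_gt (q 1) (5 / 6) with g41 | g41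
    · refine ⟨1, true, fun c hc => ?_, fun _ => by linarith, by simp⟩
      have h := H.th c hc
      rw [target_eq, h.t0 (i := 1) (by linarith), h.t1 (i := 1) (by linarith),
          h.t2 (i := 1) (by linarith), h.t0 (i := 2) (by linarith),
          h.t1 (i := 2) (by linarith), h.t2 (i := 2) (by linarith),
          h.f3 (i := 2) (by linarith), hy c hc]
      simp [tgt]
    · rcases H.K1 (by linarith) (.inr (.inr (.inr (by linarith)))) with ⟨z, hv⟩ | ⟨hy2, hb⟩
      · cases z
        · refine ⟨2, false, fun c hc => ?_, by simp, fun _ => by linarith⟩
          have h := H.th c hc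
          rw [target_eq, h.t0 (i := 1) (by linarith), h.t1 (i := 1) (by linarith),
              h.t2 (i := 1) (by linarith), h.t3 (i := 1) (by linarith),
              h.t4 (i := 1) (by linarith), h.t0 (i := 2) (by linarith),
              h.t1 (i := 2) (by linarith), h.t2 (i := 2) (by linarith),
              h.f3 (i := 2) (by linarith), hv c hc, hy c hc]
          simp [tgt]
        · refine ⟨2, true, fun c hc => ?_, fun _ => by linarith, by simp⟩
          have h := H.th c hc
          rw [target_eq, h.t0 (i := 1) (by linarith), h.t1 (i := 1) (by linarith),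
              h.t2 (i := 1) (by linarith), h.t3 (i := 1) (by linarith),
              h.t4 (i := 1) (by linarith), h.t0 (i := 2) (by linarith),
              h.t1 (i := 2) (by linarith), h.t2 (i := 2) (by linarith),
              h.f3 (i := 2) (by linarith), hv c hc, hy c hc]
          simp [tgt]
      · exact ⟨2, false, fun c hc => absurd ((hy c hc).symm.trans (hy2 c hc)) (by decide), by simp, fun _ => by linarith⟩
  · refine ⟨2, false, fun c hc => ?_, by simp, fun _ => by linarith⟩
    have h := H.th c hc
    rw [target_eq, h.t0 (i := 1) (by linarith), h.t1 (i := 1) (by linarith),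
        h.t2 (i := 1) (by linarith), h.t0 (i := 2) (by linarith), h.t1 (i := 2) (by linarith),
        h.t2 (i := 2) (by linarith), h.f3 (i := 2) (by linarith), hy c hc]
    simp [tgt]

theorem loop_s8a (H : LoopHyp q C) (hs1 : 2 / 3 ≤ q 2) (hs2 : q 2 ≤ 2 / 3) (hs3 : q 0 < 5 / 6) :
    Concl q C := by
  have n0 := H.nonneg 0
  have n1 := H.nonneg 1
  have m0 := H.le_one 0
  have m1 := H.le_one 1
  rcases le_or_gt (q 1) (1 / 3) with g42 | g42
  · rcases le_or_gt (q 1) (0) with g43 | g43
    · rcases H.K1 (by linarith) (.inr (.inr (.inl (by linarith)))) with ⟨z, hv⟩ | ⟨hy, hb⟩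
      · cases z
        · obtain ⟨z, hx⟩ := H.K2 (by linarith)
          cases z
          · refine ⟨2, false, fun c hc => ?_, by simp, fun _ => by linarith⟩
            have h := H.th c hc
            rw [target_eq, h.f4 (i := 0) (by linarith), h.f0 (i := 1) (by linarith),
                h.f1 (i := 1) (by linarith), h.f2 (i := 1) (by linarith),
                h.f3 (i := 1) (by linarith), h.f4 (i := 1) (by linarith),
                h.t0 (i := 2) (by linarith), h.t1 (i := 2) (by linarith),
                h.t2 (i := 2) (by linarith), hv c hc, hx c hc]
            simp [tgt]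
          · rcases le_or_gt (q 0) (1 / 6) with g44 | g44
            · have hv2 := H.K5 (by linarith) (by linarith) (by linarith) hx
              exact ⟨2, false, fun c hc => absurd ((hv c hc).symm.trans (hv2 c hc)) (by decide), by simp, fun _ => by linarith⟩
            · refine ⟨2, false, fun c hc => ?_, by simp, fun _ => by linarith⟩
              have h := H.th c hc
              rw [target_eq, h.t0 (i := 0) (by linarith), h.f4 (i := 0) (by linarith),
                  h.f0 (i := 1) (by linarith), h.f1 (i := 1) (by linarith),
                  h.f2 (i := 1) (by linarith), h.f3 (i := 1) (by linarith),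
                  h.f4 (i := 1) (by linarith), h.t0 (i := 2) (by linarith),
                  h.t1 (i := 2) (by linarith), h.t2 (i := 2) (by linarith), hv c hc, hx c hc]
              simp [tgt]
        · refine ⟨2, true, fun c hc => ?_, fun _ => by linarith, by simp⟩
          have h := H.th c hc
          rw [target_eq, h.f4 (i := 0) (by linarith), h.f0 (i := 1) (by linarith),
              h.f1 (i := 1) (by linarith), h.f2 (i := 1) (by linarith),
              h.f3 (i := 1) (by linarith), h.f4 (i := 1) (by linarith),
              h.t0 (i := 2) (by linarith), h.t1 (i := 2) (by linarith),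
              h.t2 (i := 2) (by linarith), hv c hc]
          simp [tgt]
      · exact absurd hb (by linarith)
    · rcases le_or_gt (q 0) (1 / 2) with g45 | g45
      · refine ⟨1, false, fun c hc => ?_, by simp, fun _ => by linarith⟩
        have h := H.th c hc
        rw [target_eq, h.f3 (i := 0) (by linarith), h.f4 (i := 0) (by linarith),
            h.f2 (i := 1) (by linarith), h.f3 (i := 1) (by linarith),
            h.f4 (i := 1) (by linarith), h.t0 (i := 2) (by linarith),
            h.t1 (i := 2) (by linarith), h.t2 (i := 2) (by linarith)]
        simp [tgt]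
      · refine ⟨0, true, fun c hc => ?_, fun _ => by linarith, by simp⟩
        have h := H.th c hc
        rw [target_eq, h.t0 (i := 0) (by linarith), h.t1 (i := 0) (by linarith),
            h.t2 (i := 0) (by linarith), h.f4 (i := 0) (by linarith),
            h.f2 (i := 1) (by linarith), h.f3 (i := 1) (by linarith),
            h.f4 (i := 1) (by linarith), h.t0 (i := 2) (by linarith),
            h.t1 (i := 2) (by linarith), h.t2 (i := 2) (by linarith)]
        simp [tgt]
  · rcases le_or_gt (q 0) (0) with g46 | g46
    · rcases H.K1 (by linarith) (.inl (by linarith)) with ⟨z, hv⟩ | ⟨hy, hb⟩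
      · cases z
        · refine ⟨2, false, fun c hc => ?_, by simp, fun _ => by linarith⟩
          have h := H.th c hc
          rw [target_eq, h.f0 (i := 0) (by linarith), h.f1 (i := 0) (by linarith),
              h.f2 (i := 0) (by linarith), h.f3 (i := 0) (by linarith),
              h.f4 (i := 0) (by linarith), h.t0 (i := 1) (by linarith),
              h.t1 (i := 1) (by linarith), h.t0 (i := 2) (by linarith),
              h.t1 (i := 2) (by linarith), h.t2 (i := 2) (by linarith), hv c hc]
          simp [tgt]
        · obtain ⟨z, hz⟩ := H.K6 (by linarith) (by linarith) hv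
          have hx := fun c hc => (hz c hc).1
          have hy := fun c hc => (hz c hc).2
          cases z
          · refine ⟨2, true, fun c hc => ?_, fun _ => by linarith, by simp⟩
            have h := H.th c hc
            rw [target_eq, h.f0 (i := 0) (by linarith), h.f1 (i := 0) (by linarith),
                h.f2 (i := 0) (by linarith), h.f3 (i := 0) (by linarith),
                h.f4 (i := 0) (by linarith), h.t0 (i := 1) (by linarith),
                h.t1 (i := 1) (by linarith), h.t0 (i := 2) (by linarith),
                h.t1 (i := 2) (by linarith), h.t2 (i := 2) (by linarith), hv c hc, hx c hc,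
                hy c hc]
            simp [tgt]
          · refine ⟨2, false, fun c hc => ?_, by simp, fun _ => by linarith⟩
            have h := H.th c hc
            rw [target_eq, h.f0 (i := 0) (by linarith), h.f1 (i := 0) (by linarith),
                h.f2 (i := 0) (by linarith), h.f3 (i := 0) (by linarith),
                h.f4 (i := 0) (by linarith), h.t0 (i := 1) (by linarith),
                h.t1 (i := 1) (by linarith), h.t0 (i := 2) (by linarith),
                h.t1 (i := 2) (by linarith), h.t2 (i := 2) (by linarith), hv c hc, hx c hc,
                hy c hc]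
            simp [tgt]
      · refine ⟨2, false, fun c hc => ?_, by simp, fun _ => by linarith⟩
        have h := H.th c hc
        rw [target_eq, h.f0 (i := 0) (by linarith), h.f1 (i := 0) (by linarith),
            h.f2 (i := 0) (by linarith), h.f3 (i := 0) (by linarith),
            h.f4 (i := 0) (by linarith), h.t0 (i := 1) (by linarith),
            h.t1 (i := 1) (by linarith), h.t2 (i := 1) (by linarith),
            h.t3 (i := 1) (by linarith), h.t0 (i := 2) (by linarith),
            h.t1 (i := 2) (by linarith), h.t2 (i := 2) (by linarith), hy c hc]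
        simp [tgt]
    · rcases le_or_gt (q 1) (5 / 6) with g47 | g47
      · rcases le_or_gt (q 0) (1 / 3) with g48 | g48
        · refine ⟨0, false, fun c hc => ?_, by simp, fun _ => by linarith⟩
          have h := H.th c hc
          rw [target_eq, h.f2 (i := 0) (by linarith), h.f3 (i := 0) (by linarith),
              h.f4 (i := 0) (by linarith), h.t0 (i := 1) (by linarith),
              h.t1 (i := 1) (by linarith), h.t0 (i := 2) (by linarith),
              h.t1 (i := 2) (by linarith), h.t2 (i := 2) (by linarith)]
          simp [tgt]
        · rcases le_or_gt (q 1) (1 / 2) with g49 | g49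
          · refine ⟨2, false, fun c hc => ?_, by simp, fun _ => by linarith⟩
            have h := H.th c hc
            rw [target_eq, h.t0 (i := 0) (by linarith), h.t1 (i := 0) (by linarith),
                h.f4 (i := 0) (by linarith), h.t0 (i := 1) (by linarith),
                h.t1 (i := 1) (by linarith), h.f3 (i := 1) (by linarith),
                h.f4 (i := 1) (by linarith), h.t0 (i := 2) (by linarith),
                h.t1 (i := 2) (by linarith), h.t2 (i := 2) (by linarith)]
            simp [tgt]
          · refine ⟨1, true, fun c hc => ?_, fun _ => by linarith, by simp⟩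
            have h := H.th c hc
            rw [target_eq, h.t0 (i := 0) (by linarith), h.t1 (i := 0) (by linarith),
                h.f4 (i := 0) (by linarith), h.t0 (i := 1) (by linarith),
                h.t1 (i := 1) (by linarith), h.t2 (i := 1) (by linarith),
                h.t0 (i := 2) (by linarith), h.t1 (i := 2) (by linarith),
                h.t2 (i := 2) (by linarith)]
            simp [tgt]
      · rcases H.K1 (by linarith) (.inr (.inr (.inr (by linarith)))) with ⟨z, hv⟩ | ⟨hy, hb⟩
        · cases z
          · refine ⟨2, false, fun c hc => ?_, by simp, fun _ => by linarith⟩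
            have h := H.th c hc
            rw [target_eq, h.f4 (i := 0) (by linarith), h.t0 (i := 1) (by linarith),
                h.t1 (i := 1) (by linarith), h.t2 (i := 1) (by linarith),
                h.t3 (i := 1) (by linarith), h.t4 (i := 1) (by linarith),
                h.t0 (i := 2) (by linarith), h.t1 (i := 2) (by linarith),
                h.t2 (i := 2) (by linarith), hv c hc]
            simp [tgt]
          · obtain ⟨z, hy⟩ := H.K3 (by linarith)
            cases z
            · refine ⟨2, true, fun c hc => ?_, fun _ => by linarith, by simp⟩
              have h := H.th c hc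
              rw [target_eq, h.f4 (i := 0) (by linarith), h.t0 (i := 1) (by linarith),
                  h.t1 (i := 1) (by linarith), h.t2 (i := 1) (by linarith),
                  h.t3 (i := 1) (by linarith), h.t4 (i := 1) (by linarith),
                  h.t0 (i := 2) (by linarith), h.t1 (i := 2) (by linarith),
                  h.t2 (i := 2) (by linarith), hv c hc, hy c hc]
              simp [tgt]
            · refine ⟨2, false, fun c hc => ?_, by simp, fun _ => by linarith⟩
              have h := H.th c hc
              rw [target_eq, h.f4 (i := 0) (by linarith), h.t0 (i := 1) (by linarith),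
                  h.t1 (i := 1) (by linarith), h.t2 (i := 1) (by linarith),
                  h.t3 (i := 1) (by linarith), h.t4 (i := 1) (by linarith),
                  h.t0 (i := 2) (by linarith), h.t1 (i := 2) (by linarith),
                  h.t2 (i := 2) (by linarith), hv c hc, hy c hc]
              simp [tgt]
        · refine ⟨2, false, fun c hc => ?_, by simp, fun _ => by linarith⟩
          have h := H.th c hc
          rw [target_eq, h.f4 (i := 0) (by linarith), h.t0 (i := 1) (by linarith),
              h.t1 (i := 1) (by linarith), h.t2 (i := 1) (by linarith),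
              h.t3 (i := 1) (by linarith), h.t4 (i := 1) (by linarith),
              h.t0 (i := 2) (by linarith), h.t1 (i := 2) (by linarith),
              h.t2 (i := 2) (by linarith), hy c hc]
          simp [tgt]

theorem loop_s8b (H : LoopHyp q C) (hs1 : 2 / 3 ≤ q 2) (hs2 : q 2 ≤ 2 / 3) (hs3 : 5 / 6 ≤ q 0) :
    Concl q C := by
  have n0 := H.nonneg 0
  have n1 := H.nonneg 1
  have m0 := H.le_one 0
  have m1 := H.le_one 1
  rcases H.K1 (by linarith) (.inr (.inl (by linarith))) with ⟨z, hv⟩ | ⟨hy, hb⟩
  · cases z
    · refine ⟨2, false, fun c hc => ?_, by simp, fun _ => by linarith⟩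
      have h := H.th c hc
      rw [target_eq, h.t0 (i := 0) (by linarith), h.t1 (i := 0) (by linarith),
          h.t2 (i := 0) (by linarith), h.t3 (i := 0) (by linarith),
          h.t0 (i := 2) (by linarith), h.t1 (i := 2) (by linarith),
          h.t2 (i := 2) (by linarith), hv c hc]
      simp [tgt]
    · have hy := H.K7 (by linarith) (by linarith) hv
      rcases le_or_gt (q 1) (1 / 2) with g50 | g50
      · rcases le_or_gt (q 0) (5 / 6) with g51 | g51
        · refine ⟨0, true, fun c hc => ?_, fun _ => by linarith, by simp⟩
          have h := H.th c hc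
          rw [target_eq, h.t0 (i := 0) (by linarith), h.t1 (i := 0) (by linarith),
              h.t2 (i := 0) (by linarith), h.t3 (i := 0) (by linarith),
              h.f3 (i := 1) (by linarith), h.f4 (i := 1) (by linarith),
              h.t0 (i := 2) (by linarith), h.t1 (i := 2) (by linarith),
              h.t2 (i := 2) (by linarith), hv c hc, hy c hc]
          simp [tgt]
        · refine ⟨2, true, fun c hc => ?_, fun _ => by linarith, by simp⟩
          have h := H.th c hc
          rw [target_eq, h.t0 (i := 0) (by linarith), h.t1 (i := 0) (by linarith),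
              h.t2 (i := 0) (by linarith), h.t3 (i := 0) (by linarith),
              h.t4 (i := 0) (by linarith), h.f3 (i := 1) (by linarith),
              h.f4 (i := 1) (by linarith), h.t0 (i := 2) (by linarith),
              h.t1 (i := 2) (by linarith), h.t2 (i := 2) (by linarith), hv c hc, hy c hc]
          simp [tgt]
      · rcases le_or_gt (q 1) (5 / 6) with g52 | g52
        · refine ⟨1, true, fun c hc => ?_, fun _ => by linarith, by simp⟩
          have h := H.th c hc
          rw [target_eq, h.t0 (i := 0) (by linarith), h.t1 (i := 0) (by linarith),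
              h.t2 (i := 0) (by linarith), h.t3 (i := 0) (by linarith),
              h.t0 (i := 1) (by linarith), h.t1 (i := 1) (by linarith),
              h.t2 (i := 1) (by linarith), h.t0 (i := 2) (by linarith),
              h.t1 (i := 2) (by linarith), h.t2 (i := 2) (by linarith), hv c hc, hy c hc]
          simp [tgt]
        · refine ⟨2, true, fun c hc => ?_, fun _ => by linarith, by simp⟩
          have h := H.th c hc
          rw [target_eq, h.t0 (i := 0) (by linarith), h.t1 (i := 0) (by linarith),
              h.t2 (i := 0) (by linarith), h.t3 (i := 0) (by linarith),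
              h.t0 (i := 1) (by linarith), h.t1 (i := 1) (by linarith),
              h.t2 (i := 1) (by linarith), h.t3 (i := 1) (by linarith),
              h.t4 (i := 1) (by linarith), h.t0 (i := 2) (by linarith),
              h.t1 (i := 2) (by linarith), h.t2 (i := 2) (by linarith), hv c hc, hy c hc]
          simp [tgt]
  · refine ⟨2, false, fun c hc => ?_, by simp, fun _ => by linarith⟩
    have h := H.th c hc
    rw [target_eq, h.t0 (i := 0) (by linarith), h.t1 (i := 0) (by linarith),
        h.t2 (i := 0) (by linarith), h.t3 (i := 0) (by linarith), h.t0 (i := 1) (by linarith),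
        h.t1 (i := 1) (by linarith), h.t2 (i := 1) (by linarith), h.t3 (i := 1) (by linarith),
        h.t0 (i := 2) (by linarith), h.t1 (i := 2) (by linarith), h.t2 (i := 2) (by linarith),
        hy c hc]
    simp [tgt]

theorem loop_s9 (H : LoopHyp q C) (hs1 : 2 / 3 < q 2) :
    Concl q C := by
  have n0 := H.nonneg 0
  have n1 := H.nonneg 1
  have m0 := H.le_one 0
  have m1 := H.le_one 1
  have m2 := H.le_one 2
  rcases le_or_gt (q 0) (1 / 6) with g53 | g53
  · rcases H.K1 (by linarith) (.inl (by linarith)) with ⟨z, hv⟩ | ⟨hy, hb⟩
    · cases z
      · rcases le_or_gt (q 1) (1 / 6) with g54 | g54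
        · obtain ⟨z, hx⟩ := H.K2 (by linarith)
          cases z
          · refine ⟨2, false, fun c hc => ?_, by simp, fun _ => by linarith⟩
            have h := H.th c hc
            rw [target_eq, h.f1 (i := 0) (by linarith), h.f2 (i := 0) (by linarith),
                h.f3 (i := 0) (by linarith), h.f4 (i := 0) (by linarith),
                h.f1 (i := 1) (by linarith), h.f2 (i := 1) (by linarith),
                h.f3 (i := 1) (by linarith), h.f4 (i := 1) (by linarith),
                h.t0 (i := 2) (by linarith), h.t1 (i := 2) (by linarith),
                h.t2 (i := 2) (by linarith), h.t3 (i := 2) (by linarith), hv c hc, hx c hc]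
            simp [tgt]
          · have hv2 := H.K5 (by linarith) (by linarith) (by linarith) hx
            exact ⟨2, false, fun c hc => absurd ((hv c hc).symm.trans (hv2 c hc)) (by decide), by simp, fun _ => by linarith⟩
        · refine ⟨2, false, fun c hc => ?_, by simp, fun _ => by linarith⟩
          have h := H.th c hc
          rw [target_eq, h.f1 (i := 0) (by linarith), h.f2 (i := 0) (by linarith),
              h.f3 (i := 0) (by linarith), h.f4 (i := 0) (by linarith),
              h.t0 (i := 1) (by linarith), h.t0 (i := 2) (by linarith),
              h.t1 (i := 2) (by linarith), h.t2 (i := 2) (by linarith),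
              h.t3 (i := 2) (by linarith), hv c hc]
          simp [tgt]
      · rcases le_or_gt (q 1) (0) with g55 | g55
        · refine ⟨0, true, fun c hc => ?_, fun _ => by linarith, by simp⟩
          have h := H.th c hc
          rw [target_eq, h.f1 (i := 0) (by linarith), h.f2 (i := 0) (by linarith),
              h.f3 (i := 0) (by linarith), h.f4 (i := 0) (by linarith),
              h.f0 (i := 1) (by linarith), h.f1 (i := 1) (by linarith),
              h.f2 (i := 1) (by linarith), h.f3 (i := 1) (by linarith),
              h.f4 (i := 1) (by linarith), h.t0 (i := 2) (by linarith),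
              h.t1 (i := 2) (by linarith), h.t2 (i := 2) (by linarith),
              h.t3 (i := 2) (by linarith), hv c hc]
          simp [tgt]
        · refine ⟨1, false, fun c hc => ?_, by simp, fun _ => by linarith⟩
          have h := H.th c hc
          rw [target_eq, h.f1 (i := 0) (by linarith), h.f2 (i := 0) (by linarith),
              h.f3 (i := 0) (by linarith), h.f4 (i := 0) (by linarith),
              h.t0 (i := 2) (by linarith), h.t1 (i := 2) (by linarith),
              h.t2 (i := 2) (by linarith), h.t3 (i := 2) (by linarith), hv c hc]
          simp [tgt]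
    · refine ⟨2, false, fun c hc => ?_, by simp, fun _ => by linarith⟩
      have h := H.th c hc
      rw [target_eq, h.f1 (i := 0) (by linarith), h.f2 (i := 0) (by linarith),
          h.f3 (i := 0) (by linarith), h.f4 (i := 0) (by linarith),
          h.t0 (i := 1) (by linarith), h.t1 (i := 1) (by linarith),
          h.t2 (i := 1) (by linarith), h.t3 (i := 1) (by linarith),
          h.t0 (i := 2) (by linarith), h.t1 (i := 2) (by linarith),
          h.t2 (i := 2) (by linarith), h.t3 (i := 2) (by linarith), hy c hc]
      simp [tgt]
  · rcases lt_or_ge (q 1) (5 / 6) with g56 | g56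
    · rcases lt_or_ge (q 0) (5 / 6) with g57 | g57
      · rcases le_or_gt (q 1) (1 / 6) with g58 | g58
        · rcases H.K1 (by linarith) (.inr (.inr (.inl (by linarith)))) with ⟨z, hv⟩ | ⟨hy, hb⟩
          · cases z
            · refine ⟨2, false, fun c hc => ?_, by simp, fun _ => by linarith⟩
              have h := H.th c hc
              rw [target_eq, h.t0 (i := 0) (by linarith), h.f4 (i := 0) (by linarith),
                  h.f1 (i := 1) (by linarith), h.f2 (i := 1) (by linarith),
                  h.f3 (i := 1) (by linarith), h.f4 (i := 1) (by linarith),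
                  h.t0 (i := 2) (by linarith), h.t1 (i := 2) (by linarith),
                  h.t2 (i := 2) (by linarith), h.t3 (i := 2) (by linarith), hv c hc]
              simp [tgt]
            · refine ⟨0, true, fun c hc => ?_, fun _ => by linarith, by simp⟩
              have h := H.th c hc
              rw [target_eq, h.t0 (i := 0) (by linarith), h.f4 (i := 0) (by linarith),
                  h.f1 (i := 1) (by linarith), h.f2 (i := 1) (by linarith),
                  h.f3 (i := 1) (by linarith), h.f4 (i := 1) (by linarith),
                  h.t0 (i := 2) (by linarith), h.t1 (i := 2) (by linarith),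
                  h.t2 (i := 2) (by linarith), h.t3 (i := 2) (by linarith), hv c hc]
              simp [tgt]
          · exact absurd hb (by linarith)
        · refine ⟨2, false, fun c hc => ?_, by simp, fun _ => by linarith⟩
          have h := H.th c hc
          rw [target_eq, h.t0 (i := 0) (by linarith), h.f4 (i := 0) (by linarith),
              h.t0 (i := 1) (by linarith), h.f4 (i := 1) (by linarith),
              h.t0 (i := 2) (by linarith), h.t1 (i := 2) (by linarith),
              h.t2 (i := 2) (by linarith), h.t3 (i := 2) (by linarith)]
          simp [tgt]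
      · rcases H.K1 (by linarith) (.inr (.inl (by linarith))) with ⟨z, hv⟩ | ⟨hy, hb⟩
        · cases z
          · refine ⟨2, false, fun c hc => ?_, by simp, fun _ => by linarith⟩
            have h := H.th c hc
            rw [target_eq, h.t0 (i := 0) (by linarith), h.t1 (i := 0) (by linarith),
                h.t2 (i := 0) (by linarith), h.t3 (i := 0) (by linarith),
                h.f4 (i := 1) (by linarith), h.t0 (i := 2) (by linarith),
                h.t1 (i := 2) (by linarith), h.t2 (i := 2) (by linarith),
                h.t3 (i := 2) (by linarith), hv c hc]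
            simp [tgt]
          · refine ⟨1, true, fun c hc => ?_, fun _ => by linarith, by simp⟩
            have h := H.th c hc
            rw [target_eq, h.t0 (i := 0) (by linarith), h.t1 (i := 0) (by linarith),
                h.t2 (i := 0) (by linarith), h.t3 (i := 0) (by linarith),
                h.f4 (i := 1) (by linarith), h.t0 (i := 2) (by linarith),
                h.t1 (i := 2) (by linarith), h.t2 (i := 2) (by linarith),
                h.t3 (i := 2) (by linarith), hv c hc]
            simp [tgt]
        · exact absurd hb (by linarith)
    · rcases H.K1 (by linarith) (.inr (.inr (.inr (by linarith)))) with ⟨z, hv⟩ | ⟨hy, hb⟩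
      · cases z
        · refine ⟨2, false, fun c hc => ?_, by simp, fun _ => by linarith⟩
          have h := H.th c hc
          rw [target_eq, h.t0 (i := 0) (by linarith), h.t0 (i := 1) (by linarith),
              h.t1 (i := 1) (by linarith), h.t2 (i := 1) (by linarith),
              h.t3 (i := 1) (by linarith), h.t0 (i := 2) (by linarith),
              h.t1 (i := 2) (by linarith), h.t2 (i := 2) (by linarith),
              h.t3 (i := 2) (by linarith), hv c hc]
          simp [tgt]
        · refine ⟨0, false, fun c hc => ?_, by simp, fun _ => by linarith⟩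
          have h := H.th c hc
          rw [target_eq, h.t0 (i := 0) (by linarith), h.t0 (i := 1) (by linarith),
              h.t1 (i := 1) (by linarith), h.t2 (i := 1) (by linarith),
              h.t3 (i := 1) (by linarith), h.t0 (i := 2) (by linarith),
              h.t1 (i := 2) (by linarith), h.t2 (i := 2) (by linarith),
              h.t3 (i := 2) (by linarith), hv c hc]
          simp [tgt]
      · refine ⟨2, false, fun c hc => ?_, by simp, fun _ => by linarith⟩
        have h := H.th c hc
        rw [target_eq, h.t0 (i := 0) (by linarith), h.t0 (i := 1) (by linarith),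
            h.t1 (i := 1) (by linarith), h.t2 (i := 1) (by linarith),
            h.t3 (i := 1) (by linarith), h.t0 (i := 2) (by linarith),
            h.t1 (i := 2) (by linarith), h.t2 (i := 2) (by linarith),
            h.t3 (i := 2) (by linarith), hy c hc]
        simp [tgt]

/-- **The loop lemma.** One of the three control values has a constant target and is not there. -/
theorem LoopHyp.concl (H : LoopHyp q C) : Concl q C := by
  rcases lt_or_ge (q 2) (1 / 6) with g | g
  · exact loop_lt H g
  rcases eq_or_lt_of_le g with g | g
  · exact loop_s2 H g.le g.ge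
  rcases lt_or_ge (q 2) (1 / 3) with k | k
  · exact loop_s3 H g k
  rcases lt_or_ge (q 2) (1 / 2) with k2 | k2
  · exact loop_s4 H k k2
  rcases eq_or_lt_of_le k2 with k3 | k3
  · rcases lt_or_ge (q 0) (5 / 6) with g0 | g0
    · rcases le_or_gt (q 1) (1 / 2) with g1 | g1
      · exact loop_s6a H k3.le k3.ge g0 g1
      · exact loop_s6b H k3.le k3.ge g0 g1
    · exact loop_s6c H k3.le k3.ge g0
  rcases lt_or_ge (q 2) (2 / 3) with k4 | k4
  · rcases le_or_gt (q 1) (1 / 2) with g1 | g1
    · exact loop_s7a H k3 k4 g1
    · exact loop_s7b H k3 k4 g1
  rcases eq_or_lt_of_le k4 with k5 | k5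
  · rcases lt_or_ge (q 0) (5 / 6) with g0 | g0
    · exact loop_s8a H k5.le k5.ge g0
    · exact loop_s8b H k5.le k5.ge g0
  exact loop_s9 H k5

/-- The loop lemma for sets of values. -/
theorem loop_sets {V SX SY : Set Bool} (q_mem : ∀ i, 0 ≤ q i ∧ q i ≤ 1)
    (K1 : 1 / 3 ≤ q 2 → (q 0 ≤ 1 / 6 ∨ 5 / 6 ≤ q 0 ∨ q 1 ≤ 1 / 6 ∨ 5 / 6 ≤ q 1) →
      V.Subsingleton ∨ (SY = {true} ∧ 5 / 6 ≤ q 1))
    (K2 : q 1 < 2 / 3 → SX.Subsingleton) (K3 : 1 / 3 < q 1 → SY.Subsingleton)
    (K4 : q 2 < 1 / 6 → SX = {true})
    (K5 : 1 / 6 < q 2 → q 0 ≤ 1 / 6 → q 1 ≤ 1 / 6 → SX = {true} → V = {true})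
    (K6 : 1 / 3 ≤ q 2 → q 0 ≤ 1 / 6 → V = {true} → ∃ b, SX = {b} ∧ SY = {b})
    (K7 : 1 / 3 ≤ q 2 → 5 / 6 ≤ q 0 → V = {true} → SY = {false})
    (hV : V.Nonempty) (hX : SX.Nonempty) :
    ∃ (i : Fin 3) (b : Bool), (∀ th, ThOK q th → ∀ v ∈ V, ∀ x ∈ SX, ∀ y ∈ SY,
      target th v x y i = b) ∧ (b = true → q i < 1) ∧ (b = false → 0 < q i) := by
  have hss : ∀ {s : Set Bool}, s.Subsingleton → ∃ b, ∀ x ∈ s, x = b := by
    intro s hs
    by_cases hn : s.Nonempty
    · obtain ⟨b, hb⟩ := hn
      exact ⟨b, fun x hx => hs hx hb⟩
    · exact ⟨true, fun x hx => absurd ⟨x, hx⟩ hn⟩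
  by_cases hY : SY.Nonempty
  swap
  · -- then there is nothing to prove
    by_cases h0 : q 0 < 1
    · exact ⟨0, true, fun th _ v _ x _ y hy => absurd ⟨y, hy⟩ hY, fun _ => h0, by simp⟩
    · exact ⟨0, false, fun th _ v _ x _ y hy => absurd ⟨y, hy⟩ hY, by simp,
        fun _ => by linarith [(q_mem 0).2]⟩
  obtain ⟨v0, hv0⟩ := hV
  obtain ⟨x0, hx0⟩ := hX
  obtain ⟨y0, hy0⟩ := hY
  classical
  have hth : ThOK q fun i l => decide ((((l : ℕ) : ℝ) + 1) / 6 < q i) := fun i l =>
    ⟨fun h => decide_eq_true h, fun h => decide_eq_false (not_lt.2 h.le)⟩
  let C : LC → Prop := fun c => ThOK q c.th ∧ c.v ∈ V ∧ c.x ∈ SX ∧ c.y ∈ SY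
  have mkv : (∀ c, C c → c.v = true) → V = {true} := by
    intro h
    have h1 : ∀ v ∈ V, v = true := fun v hv => h ⟨_, v, x0, y0⟩ ⟨hth, hv, hx0, hy0⟩
    ext v
    exact ⟨fun hv => h1 v hv, fun hv => by rw [Set.mem_singleton_iff] at hv; rw [hv, ← h1 v0 hv0]; exact hv0⟩
  have mkx : (∀ c, C c → c.x = true) → SX = {true} := by
    intro h
    have h1 : ∀ x ∈ SX, x = true := fun x hx => h ⟨_, v0, x, y0⟩ ⟨hth, hv0, hx, hy0⟩
    ext x
    exact ⟨fun hx => h1 x hx, fun hx => by rw [Set.mem_singleton_iff] at hx; rw [hx, ← h1 x0 hx0]; exact hx0⟩
  have H : LoopHyp q C := by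
    refine ⟨fun c hc => hc.1, fun i => (q_mem i).1, fun i => (q_mem i).2, ?_, ?_, ?_, ?_, ?_, ?_,
      ?_⟩
    · intro h1 h2
      rcases K1 h1 h2 with h | ⟨h, h'⟩
      · obtain ⟨b, hb⟩ := hss h
        exact Or.inl ⟨b, fun c hc => hb _ hc.2.1⟩
      · exact Or.inr ⟨fun c hc => by have := hc.2.2.2; rwa [h] at this, h'⟩
    · intro h1
      obtain ⟨b, hb⟩ := hss (K2 h1)
      exact ⟨b, fun c hc => hb _ hc.2.2.1⟩
    · intro h1
      obtain ⟨b, hb⟩ := hss (K3 h1)
      exact ⟨b, fun c hc => hb _ hc.2.2.2⟩
    · intro h1 c hc
      have := hc.2.2.1
      rwa [K4 h1] at this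
    · intro h1 h2 h3 h4 c hc
      have := hc.2.1
      rwa [K5 h1 h2 h3 (mkx h4)] at this
    · intro h1 h2 h3
      obtain ⟨b, hb1, hb2⟩ := K6 h1 h2 (mkv h3)
      refine ⟨b, fun c hc => ⟨?_, ?_⟩⟩
      · have := hc.2.2.1
        rwa [hb1] at this
      · have := hc.2.2.2
        rwa [hb2] at this
    · intro h1 h2 h3 c hc
      have := hc.2.2.2
      rwa [K7 h1 h2 (mkv h3)] at this
  obtain ⟨i, b, h1, h2, h3⟩ := H.concl
  exact ⟨i, b, fun th ht v hv x hx y hy => h1 ⟨th, v, x, y⟩ ⟨ht, hv, hx, hy⟩, h2, h3⟩

/-- **There is no core**: the loop lemma contradicts the equations of the control bits. -/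
theorem Core.no (C : Core) : False := by
  obtain ⟨y0, hy0⟩ := C.exists_cons
  obtain ⟨i, b, h1, h2, h3⟩ := loop_sets (V := C.V) (SX := C.SG false) (SY := C.SG true)
    C.q_mem C.K1 C.K2 C.K3 C.K4 C.K5 C.K6 C.K7 ⟨_, y0, hy0, rfl⟩ ⟨_, y0, hy0, rfl⟩
  have h4 := C.ctl i b fun y hy hy' => h1 y.th hy _ ⟨y, ⟨hy, hy'⟩, rfl⟩ _ ⟨y, ⟨hy, hy'⟩, rfl⟩ _
    ⟨y, ⟨hy, hy'⟩, rfl⟩
  cases b with
  | true =>
    have := h2 rfl
    rw [h4] at this
    simp at this
  | false =>
    have := h3 rfl
    rw [h4] at this
    simp at this

end Vale.Agent.P330.S
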