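import Vale.Agent.P330.S.AE

/-!
# From a sequence of counterexamples to the limit
-/

namespace Vale.Agent.P330.S

open Filter Topology

variable {S : Spec} {r : ℕ}

/-- No solution is revealed. -/
def NoSol (I : Inst S r) (ε ρ₀ : ℝ) (x : Reg S → I.Site → ℝ) : Prop :=
  (∀ w, I.Valid w → Near I ε ρ₀ x false w → I.Valid (I.step false w)) ∧
    ∀ w, I.Valid w → w ≠ I.w0 → Near I ε ρ₀ x true w → I.Valid (I.step true w)

/-- the parameters `lam` of the counterexamples -/
def seqLam (n : ℕ) : ℚ := 1 / (n + 2)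

/-- the parameters `ε` and `β` of the counterexamples -/
def seqEps (n : ℕ) : ℚ := 1 / (n + 200) ^ 2

theorem seqLam_pos (n : ℕ) : 0 < seqLam n := by
  unfold seqLam
  positivity

theorem seqLam_lt (n : ℕ) : seqLam n < 1 := by
  unfold seqLam
  rw [div_lt_one (by positivity)]
  have : (0 : ℚ) ≤ n := Nat.cast_nonneg n
  linarith

theorem seqEps_pos (n : ℕ) : 0 < seqEps n := by
  unfold seqEps
  positivity

theorem seqEps_lt (n : ℕ) : seqEps n < 1 / 100 := by
  unfold seqEps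
  rw [div_lt_div_iff₀ (by positivity) (by norm_num)]
  have : (0 : ℚ) ≤ n := Nat.cast_nonneg n
  nlinarith

theorem seqLam_lim : Tendsto (fun n => ((seqLam n : ℚ) : ℝ)) atTop (𝓝 0) := by
  have h : Tendsto (fun n : ℕ => (1 : ℝ) / ((n : ℝ) + 1)) atTop (𝓝 0) :=
    tendsto_one_div_add_atTop_nhds_zero_nat
  have h2 := h.comp (tendsto_add_atTop_nat 1)
  refine h2.congr fun n => ?_
  unfold seqLam
  simp only [Function.comp]
  push_cast
  ring_nf

theorem seqEps_ratio (n : ℕ) : ((seqEps n : ℚ) : ℝ) / ((seqLam n : ℚ) : ℝ) ≤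
    1 / ((n : ℝ) + 1) := by
  unfold seqEps seqLam
  push_cast
  have hn : (0 : ℝ) ≤ n := Nat.cast_nonneg n
  rw [div_div_eq_mul_div, div_one, div_mul_eq_mul_div, one_mul,
    div_le_div_iff₀ (by positivity) (by positivity)]
  nlinarith

theorem seqEps_lam : Tendsto (fun n => ((seqEps n : ℚ) : ℝ) / ((seqLam n : ℚ) : ℝ)) atTop
    (𝓝 0) := by
  refine squeeze_zero (fun n => ?_) seqEps_ratio tendsto_one_div_add_atTop_nhds_zero_nat
  have h1 : (0 : ℝ) < ((seqEps n : ℚ) : ℝ) := by exact_mod_cast seqEps_pos n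
  have h2 : (0 : ℝ) < ((seqLam n : ℚ) : ℝ) := by exact_mod_cast seqLam_pos n
  positivity

theorem seqEps_lim : Tendsto (fun n => ((seqEps n : ℚ) : ℝ)) atTop (𝓝 0) := by
  refine squeeze_zero (fun n => ?_) (fun n => ?_) seqEps_lam
  · have h1 : (0 : ℝ) < ((seqEps n : ℚ) : ℝ) := by exact_mod_cast seqEps_pos n
    exact h1.le
  · have h1 : (0 : ℝ) < ((seqEps n : ℚ) : ℝ) := by exact_mod_cast seqEps_pos n
    have h2 : (0 : ℝ) < ((seqLam n : ℚ) : ℝ) := by exact_mod_cast seqLam_pos n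
    have h3 : ((seqLam n : ℚ) : ℝ) < 1 := by exact_mod_cast seqLam_lt n
    rw [le_div_iff₀ h2]
    nlinarith

/-- **Reduction of `SoundStmt` to the limit.** -/
theorem soundStmt_of (H : ∀ (S : Spec) (r : ℕ), 0 < r → ∀ ρ₀ : ℝ, 0 < ρ₀ →
    ∃ τ : ℚ, 0 < τ ∧ τ < 1 ∧ ∀ A : Lim S r, A.τ = τ →
      (∀ n, NoSol (A.I n) (A.ε n) ρ₀ (A.x n)) → False) : SoundStmt := by
  intro S r hr ρ₀ hρ₀
  obtain ⟨τ, h1, h2, h3⟩ := H S r hr ρ₀ hρ₀
  refine ⟨τ, h1, h2, ?_⟩
  by_contra hcon
  have key : ∀ n : ℕ, ∃ (I : Inst S r) (X : Exp I) (x : Reg S → I.Site → ℝ), Facts I ∧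
      Obeys I X τ ((seqEps n : ℚ) : ℝ) ((seqLam n : ℚ) : ℝ) ((seqEps n : ℚ) : ℝ) x ∧
      NoSol I ((seqEps n : ℚ) : ℝ) ρ₀ x := by
    intro n
    by_contra hn
    apply hcon
    refine ⟨seqLam n, seqLam_pos n, seqLam_lt n, seqEps n, seqEps_pos n, seqEps_lt n,
      ((seqEps n : ℚ) : ℝ), by exact_mod_cast seqEps_pos n, fun I X hF x hO => ?_⟩
    by_contra hs
    push Not at hs
    exact hn ⟨I, X, x, hF, hO, fun w a b => hs.1 w a b, fun w a b c => hs.2 w a b c⟩
  choose I X x hF hO hN using key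
  refine h3
    { U := hyperfilter ℕ
      I := I
      X := X
      τ := τ
      ε := fun n => ((seqEps n : ℚ) : ℝ)
      lam := fun n => ((seqLam n : ℚ) : ℝ)
      β := fun n => ((seqEps n : ℚ) : ℝ)
      x := x
      facts := hF
      obeys := hO
      ε_pos := fun n => by exact_mod_cast seqEps_pos n
      ε_lt := fun n => by
        have := seqEps_lt n
        have h : ((seqEps n : ℚ) : ℝ) < ((1 / 100 : ℚ) : ℝ) := by exact_mod_cast this
        push_cast at h
        exact h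
      ε_lim := seqEps_lim.mono_left Nat.hyperfilter_le_atTop
      β_lim := seqEps_lim.mono_left Nat.hyperfilter_le_atTop
      lam_pos := fun n => by exact_mod_cast seqLam_pos n
      lam_lt := fun n => by exact_mod_cast seqLam_lt n
      lam_lim := seqLam_lim.mono_left Nat.hyperfilter_le_atTop
      ε_lam := seqEps_lam.mono_left Nat.hyperfilter_le_atTop
      β_lam := seqEps_lam.mono_left Nat.hyperfilter_le_atTop } rfl hN

end Vale.Agent.P330.S
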