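import Vale.Agent.P330.S.Core

/-!
# Pointwise lemmas: multiplexers, comparisons, control bits
-/

namespace Vale.Agent.P330.S

open Finset

section

variable {Reg Rd CB Ω : Type} {E : Sem Rd CB Ω} {ε lam : ℝ} {x : Reg → Ω → ℝ} {ω : Ω}

/-- The input `p` has the value `b` at `ω`. -/
def InpIs (E : Sem Rd CB Ω) (ε : ℝ) (x : Reg → Ω → ℝ) (ω : Ω) (p : (Rd × Reg) ⊕ CB) (b : Bool) :
    Prop :=
  Sum.elim (fun p => IsB ε b (x p.2 (E.rd p.1 ω))) (fun κ => E.cb κ ω = b) p

/-- The completion `y` is compatible with the input `i`. -/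
def Compat (E : Sem Rd CB Ω) (ε : ℝ) (x : Reg → Ω → ℝ) (ω : Ω) (p : (Rd × Reg) ⊕ CB) (b : Bool) :
    Prop :=
  Sum.elim (fun p => ∀ b', IsB ε b' (x p.2 (E.rd p.1 ω)) → b = b')
    (fun κ => b = E.cb κ ω) p

theorem Compat.eq {p : (Rd × Reg) ⊕ CB} {b b' : Bool} (h : Compat E ε x ω p b)
    (h' : InpIs E ε x ω p b') : b = b' := by
  cases p with
  | inl p => exact h b' h'
  | inr κ => exact Eq.trans h h'

/-- The rule of a bit register. -/
theorem rel_bit {B : BitDef Reg Rd CB} {ρ : Reg} (h : (MDef.bit B).Rel E ε lam x ρ ω) (b : Bool)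
    (hb : ∀ y : B.ι → Bool, (∀ i, Compat E ε x ω (B.inp i) (y i)) → B.f y = b) :
    IsB ε b (x ρ ω) := h b hb

end

variable {S : Spec} {r : ℕ} {I : Inst S r} {X : Exp I} {τ : ℚ} {ε lam : ℝ}
  {x : Reg S → I.Site → ℝ} {ω : I.Site}

/-- **Multiplexer**, pointwise. -/
theorem mux_pt {z : Bool} {c : S.Comp} (hR : (net S r τ (.m z c)).Rel (I.sem X) ε lam x (.m z c) ω)
    (e : Bool)
    (ha : IsB ε true (x (.th 2 0) ω) ∨ I.cb (.start c) ω = e)
    (hb : IsB ε false (x (.th 2 0) ω) ∨ IsB ε (!z) (x (.th 1 (if z then 1 else 3)) ω) ∨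
      IsB ε e (x (.h z c) ω))
    (hc : IsB ε false (x (.th 2 0) ω) ∨ IsB ε z (x (.th 1 (if z then 1 else 3)) ω) ∨
      IsB ε true (x (.th 0 2) ω) ∨ IsB ε e (x (.h (!z) c) ω))
    (hd : IsB ε false (x (.th 2 0) ω) ∨ IsB ε z (x (.th 1 (if z then 1 else 3)) ω) ∨
      IsB ε false (x (.th 0 2) ω) ∨ IsB ε e (x (.a (!z) c) ω)) :
    IsB ε e (x (.m z c) ω) := by
  refine rel_bit (B := muxDef r z c) hR e fun y hy => ?_
  have h1 := hy .s1
  have h2 := hy .bsel
  have h3 := hy .asel
  have h4 := hy .start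
  have h5 := hy .hold
  have h6 := hy .other
  have h7 := hy .next
  show (if y .s1 = false then y .start else if y .bsel = z then y .hold
    else if y .asel = false then y .other else y .next) = e
  by_cases c1 : y .s1 = false
  · rw [if_pos c1]
    rcases ha with h | h
    · have := h1 _ h
      rw [c1] at this
      exact absurd this (by simp)
    · exact Eq.trans h4 h
  · rw [if_neg c1]
    have c1' : y .s1 = true := by simpa using c1
    by_cases c2 : y .bsel = z
    · rw [if_pos c2]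
      rcases hb with h | h | h
      · exact absurd (h1 _ h) c1
      · have := h2 _ h
        rw [c2] at this
        cases z <;> simp at this
      · exact h5 _ h
    · rw [if_neg c2]
      by_cases c3 : y .asel = false
      · rw [if_pos c3]
        rcases hc with h | h | h | h
        · exact absurd (h1 _ h) c1
        · exact absurd (h2 _ h) c2
        · have := h3 _ h
          rw [c3] at this
          exact absurd this (by simp)
        · exact h6 _ h
      · rw [if_neg c3]
        rcases hd with h | h | h | h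
        · exact absurd (h1 _ h) c1
        · exact absurd (h2 _ h) c2
        · exact absurd (h3 _ h) c3
        · exact h7 _ h

/-- **Comparison**, pointwise: different inputs. -/
theorem cmp_true {ρ : Reg S} {u v : S.Comp → (Rd S r × Reg S) ⊕ CB S}
    (hR : (MDef.bit (cmpDef r u v)).Rel (I.sem X) ε lam x ρ ω) {c : S.Comp} {b b' : Bool}
    (h : InpIs (I.sem X) ε x ω (u c) b) (h' : InpIs (I.sem X) ε x ω (v c) b') (hne : b ≠ b') :
    IsB ε true (x ρ ω) := by
  refine rel_bit (B := cmpDef r u v) hR true fun y hy => ?_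
  have h1 := hy (false, c)
  have h2 := hy (true, c)
  refine decide_eq_true ⟨c, ?_⟩
  have e1 : y (false, c) = b := Compat.eq (p := u c) h1 h
  have e2 : y (true, c) = b' := Compat.eq (p := v c) h2 h'
  rw [e1, e2]
  exact hne

/-- **Comparison**, pointwise: equal inputs. -/
theorem cmp_false {ρ : Reg S} {u v : S.Comp → (Rd S r × Reg S) ⊕ CB S}
    (hR : (MDef.bit (cmpDef r u v)).Rel (I.sem X) ε lam x ρ ω) {b : S.Comp → Bool}
    (h : ∀ c, InpIs (I.sem X) ε x ω (u c) (b c)) (h' : ∀ c, InpIs (I.sem X) ε x ω (v c) (b c)) :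
    IsB ε false (x ρ ω) := by
  refine rel_bit (B := cmpDef r u v) hR false fun y hy => ?_
  refine decide_eq_false ?_
  rintro ⟨c, hc⟩
  have e1 : y (false, c) = b c := Compat.eq (p := u c) (hy (false, c)) (h c)
  have e2 : y (true, c) = b c := Compat.eq (p := v c) (hy (true, c)) (h' c)
  exact hc (e1.trans e2.symm)

/-- **Control bits**, pointwise. -/
theorem ctl_pt {i : Fin 3} {q : Fin 3 → ℝ} {T : Tst → ℝ} {b : Bool}
    (hR : (net S r τ (.q i)).Rel (I.sem X) ε lam x (.q i) ω)
    (hth : ∀ (j : Fin 3) (l : Fin 5), ((((l : ℕ) : ℝ) + 1) / 6 < q j → IsB ε true (x (.th j l) ω)) ∧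
      (q j < (((l : ℕ) : ℝ) + 1) / 6 → IsB ε false (x (.th j l) ω)))
    (htf : ∀ k, ((τ : ℝ) < T k → IsB ε true (x (.tf k) ω)) ∧
      (T k < (τ : ℝ) → IsB ε false (x (.tf k) ω)))
    (h : ∀ y : Ctl, ThOK q y.th → TfOK (τ : ℝ) T y.tf →
      target y.th y.v (y.sg false) (y.sg true) i = b) :
    IsB ε b (x (.q i) ω) := by
  refine rel_bit (B := qDef r i) hR b fun y hy => ?_
  refine h ⟨fun i l => y (.inl (i, l)), fun k => y (.inr k)⟩ ?_ ?_
  · intro j l
    have h1 := hy (.inl (j, l))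
    exact ⟨fun hj => h1 _ ((hth j l).1 hj), fun hj => h1 _ ((hth j l).2 hj)⟩
  · intro k
    have h1 := hy (.inr k)
    exact ⟨fun hj => h1 _ ((htf k).1 hj), fun hj => h1 _ ((htf k).2 hj)⟩

end Vale.Agent.P330.S
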