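import Vale.Agent.P330.S.GB
import Vale.Agent.P330.H855.TG

/-!
The gate list of a network is computable in polynomial time.
-/

namespace Vale.Agent.P330.S

open Vale.Agent.Lib.PolyTime

variable {Reg Rd CB : Type} [Fintype Reg] [Fintype CB]

variable {A : Set Word} {α : Type*} [Enc α]

theorem PT_addr (defs : Reg → MDef Reg Rd CB) (lam : ℚ) {rd : α → Rd → ℕ → ℕ}
    {nb : α → Fin 8 → ℕ → ℕ} {w : α → ℕ}
    (hrd : ∀ r, PT A (fun a => rd a r (w a))) (hnb : ∀ k, PT A (fun a => nb a k (w a)))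
    (hw : PT A w) (u : ((Rd × Reg) ⊕ (Fin 8 × Reg)) ⊕ ℕ) :
    PT A (fun a => addr defs lam (rd a) (nb a) (w a) u) := by
  rcases u with (⟨r, ρ⟩ | ⟨k, ρ⟩) | j
  · exact PT.add (PT.mul (hrd r) (PT.const _)) (PT.const _)
  · exact PT.add (PT.mul (hnb k) (PT.const _)) (PT.const _)
  · exact PT.add (PT.mul hw (PT.const _)) (PT.const _)

theorem PT_gateOfSite (defs : Reg → MDef Reg Rd CB) (lam : ℚ) {rd : α → Rd → ℕ → ℕ}
    {cb : α → CB → ℕ → Bool} {nb : α → Fin 8 → ℕ → ℕ} {w : α → ℕ}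
    (hrd : ∀ r, PT A (fun a => rd a r (w a))) (hcb : ∀ κ, PT A (fun a => cb a κ (w a)))
    (hnb : ∀ k, PT A (fun a => nb a k (w a))) (hw : PT A w) (j : ℕ) (t : Tp Reg Rd CB) :
    PT A (fun a => siteGate defs lam (rd a) (cb a) (nb a) (w a) j t) := by
  have hz : PT A (fun a => w a * KK defs lam + j) := PT.add (PT.mul hw (PT.const _)) (PT.const _)
  cases t with
  | bit κ =>
    refine PT_gConst ?_ hz
    refine ((hcb κ).cond (PT.const (1 : ℚ)) (PT.const 0)).congr fun a => ?_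
    cases cb a κ (w a) <;> rfl
  | op o =>
    exact PT_toGate (e := fun a => addr defs lam (rd a) (nb a) (w a))
      (PT_addr defs lam hrd hnb hw) hz o

theorem PT_gatesOfSite (defs : Reg → MDef Reg Rd CB) (lam : ℚ) {rd : α → Rd → ℕ → ℕ}
    {cb : α → CB → ℕ → Bool} {nb : α → Fin 8 → ℕ → ℕ} {w : α → ℕ}
    (hrd : ∀ r, PT A (fun a => rd a r (w a))) (hcb : ∀ κ, PT A (fun a => cb a κ (w a)))
    (hnb : ∀ k, PT A (fun a => nb a k (w a))) (hw : PT A w) :
    PT A (fun a => siteGates defs lam (rd a) (cb a) (nb a) (w a)) := by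
  refine (PT_mapConst (f := fun (p : Tp Reg Rd CB × ℕ) a =>
    siteGate defs lam (rd a) (cb a) (nb a) (w a) p.2 p.1) (tpl defs lam).zipIdx fun p _ =>
      PT_gateOfSite defs lam hrd hcb hnb hw p.2 p.1).congr fun a => ?_
  unfold siteGates
  rw [List.mapIdx_eq_zipIdx_map]

/-- **GBPT**: the list of the gates of the network is computable in polynomial time. -/
theorem PT_gatesL (defs : Reg → MDef Reg Rd CB) (lam : ℚ) {N : α → ℕ} (hN : PT A N)
    (hNb : PBd N) {rd : α → Rd → ℕ → ℕ} {cb : α → CB → ℕ → Bool} {nb : α → Fin 8 → ℕ → ℕ}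
    (hrd : ∀ r, PT A (fun p : α × ℕ => rd p.1 r p.2))
    (hcb : ∀ κ, PT A (fun p : α × ℕ => cb p.1 κ p.2))
    (hnb : ∀ k, PT A (fun p : α × ℕ => nb p.1 k p.2)) :
    PT A (fun a => gatesL defs lam (N a) (rd a) (cb a) (nb a)) :=
  PT.flatMap (f := fun a w => siteGates defs lam (rd a) (cb a) (nb a) w) (PT.range hN hNb)
    (PT_gatesOfSite defs lam (rd := fun p : α × ℕ => rd p.1) (cb := fun p => cb p.1)
      (nb := fun p => nb p.1) hrd hcb hnb PT.snd')

end Vale.Agent.P330.S
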