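import Vale.Agent.P330.S.Dec
import Vale.Agent.P330.PTEol

/-!
# The decoder on numbers

Sites are numbers, the values of the registers are given by a list of rational numbers.
-/

namespace Vale.Agent.P330.S

open Finset PCP.AR Vale.Agent.Lib.PolyTime

section num

variable {κ : Type*} {r : ℕ}

/-- The number of ones among the bits decoded at the site with number `s`. -/
def decN (E K : ℕ) (mask : Finset (Fin r) → ℕ) (rt : κ → ℕ) (T : Finset κ) (xs : List ℚ)
    (s : ℕ) : ℕ :=
  ∑ c ∈ T, ∑ A : Finset (Fin r),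
    if 1 / 2 < xs.getD ((((s / E) ^^^ mask A) * E + s % E) * K + rt c) 0 then 1 else 0

/-- The decoded bit. -/
def decBit (E K : ℕ) (mask : Finset (Fin r) → ℕ) (rt : κ → ℕ) (T : Finset κ) (xs : List ℚ) :
    Bool :=
  decide (E * E < 2 * (List.range (E * E)).countP fun s =>
    decide (decN E K mask rt T xs s % 2 = 1))

end num

/-! ### Meaning -/

theorem countP_range_eq_card (N : ℕ) (p : ℕ → Bool) :
    (List.range N).countP p = (Finset.univ.filter fun s : Fin N => p s = true).card := by
  rw [List.countP_eq_length_filter]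
  have h1 : ((List.range N).filter p).length = ((Finset.range N).filter fun s => p s = true).card := by
    rw [← List.toFinset_card_of_nodup ((List.nodup_range).filter _)]
    congr 1
    ext s
    simp
  rw [h1]
  symm
  refine Finset.card_bij (fun s _ => (s : ℕ)) ?_ ?_ ?_
  · intro s hs
    simp only [Finset.mem_filter, Finset.mem_univ, true_and, Finset.mem_range] at hs ⊢
    exact ⟨s.2, hs⟩
  · intro s _ s' _ h
    exact Fin.ext h
  · intro s hs
    simp only [Finset.mem_filter, Finset.mem_range] at hs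
    exact ⟨⟨s, hs.1⟩, by simp [hs.2], rfl⟩

variable {S : Spec} {r : ℕ} (I : Inst S r)

theorem odd_iff_cast (n : ℕ) : n % 2 = 1 ↔ (n : ZMod 2) = 1 := by
  have h1 : ((1 : ℕ) : ZMod 2) = 1 := Nat.cast_one
  rw [← h1, ZMod.natCast_eq_natCast_iff']

/-- The decoder on numbers computes the majority of the parities of `Inst.dec`. -/
theorem Inst.decBit_iff {e : ℕ} (numV : I.V ≃ Fin (2 ^ e)) (num : I.Site ≃ Fin (2 ^ e * 2 ^ e))
    (hnum : ∀ M z, (num (M, z) : ℕ) = numV M * 2 ^ e + numV z) (j : I.J)
    (mask : Finset (Fin r) → ℕ)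
    (hmask : ∀ A M, (numV (MLT.cp A (I.dl j) M) : ℕ) = (numV M : ℕ) ^^^ mask A)
    (K : ℕ) (rt : S.Comp → ℕ) (P : S.Cell → Prop) [DecidablePred P] (xs : List ℚ)
    (f : S.Comp → I.Site → Bool)
    (hf : ∀ c ω, f c ω = decide (1 / 2 < xs.getD ((num ω : ℕ) * K + rt c) 0)) :
    decBit (2 ^ e) K mask rt (Finset.univ.filter fun c : S.Comp => P (c 0)) xs = true ↔
      Fintype.card I.Site < 2 * (Finset.univ.filter fun ω => I.dec f P j ω = 1).card := by
  unfold decBit
  rw [decide_eq_true_eq, countP_range_eq_card]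
  have hE : 0 < 2 ^ e := by positivity
  have hcard : Fintype.card I.Site = 2 ^ e * 2 ^ e := by
    rw [Fintype.card_congr num, Fintype.card_fin]
  have hkey : ∀ ω : I.Site, decN (2 ^ e) K mask rt
      (Finset.univ.filter fun c : S.Comp => P (c 0)) xs (num ω) % 2 = 1 ↔ I.dec f P j ω = 1 := by
    rintro ⟨M, z⟩
    rw [odd_iff_cast]
    have h1 : ((decN (2 ^ e) K mask rt (Finset.univ.filter fun c : S.Comp => P (c 0)) xs
        (num (M, z)) : ℕ) : ZMod 2) = I.dec f P j (M, z) := by
      unfold decN Inst.dec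
      rw [Nat.cast_sum, Finset.sum_filter]
      refine Finset.sum_congr rfl fun c _ => ?_
      split_ifs with hP
      · rw [Nat.cast_sum]
        refine Finset.sum_congr rfl fun A _ => ?_
        rw [hf, hnum, hnum, hmask]
        have h2 : ((numV M : ℕ) * 2 ^ e + numV z) / 2 ^ e = numV M := by
          rw [add_comm, Nat.add_mul_div_right _ _ hE, Nat.div_eq_of_lt (numV z).2, zero_add]
        have h3 : ((numV M : ℕ) * 2 ^ e + numV z) % 2 ^ e = numV z := by
          rw [add_comm, Nat.add_mul_mod_self_right, Nat.mod_eq_of_lt (numV z).2]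
        rw [h2, h3]
        by_cases hx : 1 / 2 < xs.getD ((((numV M : ℕ) ^^^ mask A) * 2 ^ e + numV z) * K + rt c) 0
        · rw [if_pos hx]
          simp only [hx, decide_true, b2, if_true, Nat.cast_one]
        · rw [if_neg hx]
          simp only [hx, decide_false, b2, Bool.false_eq_true, if_false, Nat.cast_zero]
      · rfl
    rw [h1]
  have h4 : (Finset.univ.filter fun s : Fin (2 ^ e * 2 ^ e) => decide (decN (2 ^ e) K mask rt
      (Finset.univ.filter fun c : S.Comp => P (c 0)) xs s % 2 = 1) = true).card =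
      (Finset.univ.filter fun ω => I.dec f P j ω = 1).card := by
    symm
    refine Finset.card_bij (fun ω _ => num ω) ?_ ?_ ?_
    · intro ω hω
      simp only [Finset.mem_filter, Finset.mem_univ, true_and, decide_eq_true_eq] at hω ⊢
      exact (hkey ω).2 hω
    · intro ω _ ω' _ h
      exact num.injective h
    · intro s hs
      simp only [Finset.mem_filter, Finset.mem_univ, true_and, decide_eq_true_eq] at hs
      refine ⟨num.symm s, ?_, num.apply_symm_apply s⟩
      simp only [Finset.mem_filter, Finset.mem_univ, true_and]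
      rw [← hkey, num.apply_symm_apply]
      exact hs
  rw [h4, hcard]

/-- **The decoder on numbers is correct.** -/
theorem Inst.decBit_correct {e : ℕ} (numV : I.V ≃ Fin (2 ^ e))
    (num : I.Site ≃ Fin (2 ^ e * 2 ^ e))
    (hnum : ∀ M z, (num (M, z) : ℕ) = numV M * 2 ^ e + numV z) (j : I.J)
    (mask : Finset (Fin r) → ℕ)
    (hmask : ∀ A M, (numV (MLT.cp A (I.dl j) M) : ℕ) = (numV M : ℕ) ^^^ mask A)
    (K : ℕ) (root : Reg S → ℕ) (P : S.Cell → Prop) [DecidablePred P] (xs : List ℚ)
    {ε ρ₀ : ℝ} (hε : ε < 1 / 2) (hρ : 2 ^ r * ρ₀ < 1 / 2) {z : Bool} {w : I.J → S.Cell}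
    (h : Near I ε ρ₀ (fun ρ ω => val xs ((num ω : ℕ) * K + root ρ)) z w) :
    decBit (2 ^ e) K mask (fun c => root (.x z c))
      (Finset.univ.filter fun c : S.Comp => P (c 0)) xs = decide (P (w j)) := by
  rw [Bool.eq_iff_iff, decide_eq_true_eq]
  rw [I.decBit_iff numV num hnum j mask hmask K _ P xs
    (fun c ω => decide (1 / 2 < xs.getD ((num ω : ℕ) * K + root (.x z c)) 0)) (fun _ _ => rfl)]
  refine I.dec_majority P j (ρ := ρ₀) ?_ hρ
  have h1 := h.bits (I := I) hε
  refine le_trans (le_of_eq ?_) h1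
  refine pr_congr fun ω => ?_
  refine exists_congr fun c => ?_
  have h2 : (1 / 2 < xs.getD ((num ω : ℕ) * K + root (.x z c)) 0) ↔
      (1 / 2 < val xs ((num ω : ℕ) * K + root (.x z c))) := by
    unfold val
    rw [← Rat.cast_lt (K := ℝ)]
    push_cast
    rfl
  rw [decide_eq_decide.2 h2]

/-! ### Polynomial time -/

section PT

variable {A : Set Word} {α β γ : Type*} [Enc α] [Enc β] [Enc γ]

/-- Sums with a constant index set. -/
theorem PT_sumConst {κ : Type*} (s : Finset κ) {F : κ → α → ℕ} (h : ∀ c ∈ s, PT A (F c)) :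
    PT A (fun a => ∑ c ∈ s, F c a) := by
  classical
  induction s using Finset.induction_on with
  | empty => exact (PT.const 0).congr fun a => (Finset.sum_empty).symm
  | insert c s hc ih =>
    refine (PT.add (h c (Finset.mem_insert_self c s)) (ih fun d hd =>
      h d (Finset.mem_insert_of_mem hd))).congr fun a => ?_
    rw [Finset.sum_insert hc]

theorem PT_halfLt {f : α → ℚ} (hf : PT A f) : PT A (fun a => decide (1 / 2 < f a)) :=
  (PT_ratLe hf 1 2 (by norm_num) (1 / 2) (by norm_num)).not.congr fun a => by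
    rw [← decide_not]
    exact decide_eq_decide.2 not_le

theorem PT_decN {κ : Type*} {r : ℕ} {E : α → ℕ} (K : ℕ) {mask : Finset (Fin r) → α → ℕ}
    (rt : κ → ℕ) (T : Finset κ) {xs : α → List ℚ} {s : α → ℕ} (hE : PT A E)
    (hm : ∀ B, PT A (mask B)) (hx : PT A xs) (hs : PT A s) :
    PT A (fun a => decN (E a) K (fun B => mask B a) rt T (xs a) (s a)) := by
  unfold decN
  refine PT_sumConst T fun c _ => ?_
  refine PT_sumConst Finset.univ fun B _ => ?_
  refine PT.ite ?_ (PT.const 1) (PT.const 0)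
  refine PT_halfLt (PT.getD hx ?_ (PT.const 0))
  exact PT.add (PT.mul (PT.add (PT.mul (PT.natXor (PT.div hs hE) (hm B)) hE) (PT.mod hs hE))
    (PT.const K)) (PT.const _)

theorem PT_decBit {κ : Type*} {r : ℕ} {E : α → ℕ} (K : ℕ) {mask : Finset (Fin r) → α → ℕ}
    (rt : κ → ℕ) (T : Finset κ) {xs : α → List ℚ} (hE : PT A E) (hEb : PBd E)
    (hm : ∀ B, PT A (mask B)) (hx : PT A xs) :
    PT A (fun a => decBit (E a) K (fun B => mask B a) rt T (xs a)) := by
  unfold decBit
  refine PT.lt (PT.mul hE hE) (PT.mul (PT.const 2) ?_)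
  refine PT.countP (f := fun a s => decide (decN (E a) K (fun B => mask B a) rt T (xs a) s % 2 = 1))
    (PT.range (PT.mul hE hE) (hEb.mul hEb)) ?_
  exact PT.odd (PT_decN K rt T (hE.comp PT.fst') (fun B => (hm B).comp PT.fst')
    (hx.comp PT.fst') PT.snd')

end PT

end Vale.Agent.P330.S
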