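import Vale.Agent.P330.S.Defs
import Vale.Agent.P330.KG
import Vale.Agent.P330.EX

/-!
# GB: from a homogeneous network to a generalized circuit

* `mprog`: the program of a definition `MDef`;
* `tpl`: the template of a site (a list of `K` entries), `root ρ` the position of the register;
* `circ`: the generalized circuit with `N * K` nodes and `N * K` gates;
* `circ_obeys`: an assignment satisfying all but the fraction `δ` of the gates obeys the network,
  except for `δ * K * N` sites.
-/

namespace Vale.Agent.P330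

/-- Renaming the inputs of a program. -/
def Prog.map {ι ι' : Type} (f : ι → ι') (p : Prog ι) : Prog ι' where
  ops := p.ops.map (Op.map (Sum.map f id))
  pos := by simpa using p.pos
  below := fun k o h j hj => by
    rw [List.getElem?_map] at h
    obtain ⟨o', ho', rfl⟩ := Option.map_eq_some_iff.1 h
    rw [Op.ins_map] at hj
    obtain ⟨w, hw, hwj⟩ := List.mem_map.1 hj
    rcases w with i | j'
    · simp at hwj
    · simp at hwj; subst hwj
      exact p.below k o' ho' j' hw
  params_mem := fun o ho => by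
    obtain ⟨o', ho', rfl⟩ := List.mem_map.1 ho
    rw [Op.params_map]
    exact p.params_mem o' ho'

theorem Prog.sat_map {ι ι' : Type} {f : ι → ι'} {p : Prog ι} {ε : ℝ} {x : ι' ⊕ ℕ → ℝ}
    (h : (p.map f).Sat ε x) : p.Sat ε (fun u => x (Sum.map f id u)) := by
  intro k o hk
  have := h k (o.map (Sum.map f id)) (by simp [Prog.map, hk])
  rw [Op.sat_map] at this
  exact this

theorem Prog.res_map {ι ι' : Type} {f : ι → ι'} {p : Prog ι} {x : ι' ⊕ ℕ → ℝ} :
    (p.map f).res x = p.res (fun u => x (Sum.map f id u)) := by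
  simp [Prog.res, Prog.map]

namespace S

open Finset PCP.AR

theorem isB_iff {ε t : ℝ} {b : Bool} : IsB ε b t ↔ P330.Rd ε t b := by
  cases b <;> simp [IsB, P330.Rd]

section gen

/-- Clamp of a rational number to `[0, 1]`. -/
def clq (α : ℚ) : ℚ := max 0 (min 1 α)

theorem clq_mem (α : ℚ) : 0 ≤ clq α ∧ clq α ≤ 1 :=
  ⟨le_max_left _ _, max_le zero_le_one (min_le_left _ _)⟩

theorem clq_eq {α : ℚ} (h : 0 ≤ α ∧ α ≤ 1) : clq α = α := by
  unfold clq; rw [min_eq_right h.2, max_eq_right h.1]

/-- Inputs of the program of a definition. -/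
inductive Inp (Reg Rd CB : Type)
  | rd (r : Rd) (ρ : Reg)
  | cb (κ : CB)
  | nb (k : Fin 8) (ρ : Reg)
  | self (ρ : Reg)

variable {Reg Rd CB : Type}

/-- The terms of a resolvent average. -/
def raTerms (lam : ℚ) (ρ ρ' : Reg) (g : Bool) : List (ℚ × Inp Reg Rd CB) :=
  if g then (clq lam, .self ρ') :: (List.finRange 8).map fun k => ((1 - clq lam) / 8, .nb k ρ)
  else [(clq lam, .self ρ'), ((1 - clq lam) / 4, .nb 0 ρ), ((1 - clq lam) / 4, .nb 1 ρ),
    ((1 - clq lam) / 4, .nb 2 ρ), ((1 - clq lam) / 4, .nb 3 ρ)]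

theorem raTerms_mem (lam : ℚ) (ρ ρ' : Reg) (g : Bool) :
    ∀ p ∈ (raTerms lam ρ ρ' g : List (ℚ × Inp Reg Rd CB)), 0 ≤ p.1 ∧ p.1 ≤ 1 := by
  have h := clq_mem lam
  intro p hp
  cases g
  · simp only [raTerms, Bool.false_eq_true, if_false, List.mem_cons, List.not_mem_nil,
      or_false] at hp
    rcases hp with rfl | rfl | rfl | rfl | rfl
    · exact h
    all_goals exact ⟨by simp only; linarith [h.2], by simp only; linarith [h.1]⟩
  · simp only [raTerms, if_true, List.mem_cons, List.mem_map] at hp
    rcases hp with rfl | ⟨k, _, rfl⟩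
    · exact h
    · exact ⟨by simp only; linarith [h.2], by simp only; linarith [h.1]⟩

/-- The name of an input. -/
def inpOf : (Rd × Reg) ⊕ CB → Inp Reg Rd CB
  | .inl p => .rd p.1 p.2
  | .inr κ => .cb κ

open Classical in
/-- The program of a definition. -/
noncomputable def mprog (lam : ℚ) (ρ : Reg) : MDef Reg Rd CB → Prog (Inp Reg Rd CB)
  | .bit B => letI := B.fι; (kg B.f).map fun i => inpOf (B.inp i)
  | .thr α ρ' => (thrP (clq α) (clq_mem α)).map fun _ => .self ρ'
  | .ra g ρ' => aff (raTerms lam ρ ρ' g) (raTerms_mem lam ρ ρ' g)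

/-- The threshold lies in `[0, 1]`. -/
def _root_.Vale.Agent.P330.S.MDef.Ok : MDef Reg Rd CB → Prop
  | .thr α _ => 0 ≤ α ∧ α ≤ 1
  | _ => True

theorem mprog_spec {Ω : Type} (E : Sem Rd CB Ω) {ε : ℝ} (hε : ε < 1 / 2) (lam : ℚ)
    (hlam : 0 ≤ lam ∧ lam ≤ 1) (ρ : Reg) (D : MDef Reg Rd CB) (hD : D.Ok)
    (x : Reg → Ω → ℝ) (ω : Ω) (y : Inp Reg Rd CB ⊕ ℕ → ℝ)
    (h0 : ∀ u, 0 ≤ y u ∧ y u ≤ 1)
    (hrd : ∀ r ρ', y (Sum.inl (.rd r ρ')) = x ρ' (E.rd r ω))
    (hnb : ∀ k ρ', y (Sum.inl (.nb k ρ')) = x ρ' (E.nb k ω))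
    (hself : ∀ ρ', y (Sum.inl (.self ρ')) = x ρ' ω)
    (hcb : ∀ κ, P330.Rd ε (y (Sum.inl (.cb κ))) (E.cb κ ω))
    (hres : x ρ ω = (mprog lam ρ D).res y)
    (h : (mprog lam ρ D).Sat ε y) : D.Rel E ε lam x ρ ω := by
  classical
  cases D with
  | bit B =>
    let _ := B.fι
    simp only [mprog] at h hres
    simp only [MDef.Rel]
    intro b hb
    rw [isB_iff, hres, Prog.res_map]
    refine kg_spec hε B.f _ (Prog.sat_map h) b ?_
    intro b' hb'
    refine hb b' fun i => ?_
    have h1 := hb' i
    simp only [Sum.map_inl] at h1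
    cases hi : B.inp i with
    | inl p =>
      rw [hi] at h1
      simp only [inpOf, hrd] at h1
      simp only [Sum.elim_inl]
      intro c hc
      exact h1 c (isB_iff.1 hc)
    | inr κ =>
      rw [hi] at h1
      simp only [inpOf] at h1
      simp only [Sum.elim_inr]
      exact h1 _ (hcb κ)
  | thr α ρ' =>
    simp only [mprog] at h hres
    simp only [MDef.Ok] at hD
    simp only [MDef.Rel]
    have h1 := thrP_spec (clq α) (clq_mem α) _ (Prog.sat_map h)
    rw [Sum.map_inl] at h1
    simp only [clq_eq hD, hself] at h1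
    rw [isB_iff, isB_iff, hres, Prog.res_map]
    simp only [clq_eq hD] at h1 ⊢
    exact h1
  | ra g ρ' =>
    simp only [mprog] at h hres
    simp only [MDef.Rel]
    have hl : clq lam = lam := clq_eq hlam
    have hl0 : (0 : ℝ) ≤ lam := by exact_mod_cast hlam.1
    have hl1 : (lam : ℝ) ≤ 1 := by exact_mod_cast hlam.2
    have hε0 : 0 ≤ ε := by
      have h2 := h 0 (.const 0) rfl
      simp only [Op.Sat] at h2
      exact (abs_nonneg _).trans h2
    have hsum : ((raTerms lam ρ ρ' g : List (ℚ × Inp Reg Rd CB)).map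
        fun p => (p.1 : ℝ) * y (Sum.inl p.2)).sum
        = (1 - lam) * E.avg g (x ρ) ω + lam * x ρ' ω := by
      cases g
      · simp only [raTerms, Bool.false_eq_true, if_false, hl, List.map_cons, List.map_nil,
          List.sum_cons, List.sum_nil, hself, hnb, Sem.avg]
        push_cast
        ring
      · simp only [raTerms, if_true, hl, List.map_cons, List.map_map,
          List.sum_cons, hself, Sem.avg]
        have e1 : ((List.finRange 8).map ((fun p : ℚ × Inp Reg Rd CB =>
            (p.1 : ℝ) * y (Sum.inl p.2)) ∘ fun k => ((1 - lam) / 8, Inp.nb k ρ))).sum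
            = ∑ k : Fin 8, ((1 - (lam : ℝ)) / 8) * x ρ (E.nb k ω) := by
          rw [← List.sum_ofFn, List.ofFn_eq_map]
          congr 1
          refine List.map_congr_left fun k _ => ?_
          simp [hnb]
        rw [e1, ← Finset.mul_sum]
        ring
    have havg : 0 ≤ E.avg g (x ρ) ω ∧ E.avg g (x ρ) ω ≤ 1 := by
      have hb : ∀ k, 0 ≤ x ρ (E.nb k ω) ∧ x ρ (E.nb k ω) ≤ 1 := fun k => by
        rw [← hnb]; exact h0 _
      cases g
      · simp only [Sem.avg, Bool.false_eq_true, if_false]
        have := hb 0; have := hb 1; have := hb 2; have := hb 3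
        constructor <;> linarith
      · simp only [Sem.avg, if_true]
        have h3 : 0 ≤ ∑ k : Fin 8, x ρ (E.nb k ω) := Finset.sum_nonneg fun k _ => (hb k).1
        have h4 : ∑ k : Fin 8, x ρ (E.nb k ω) ≤ ∑ k : Fin 8, (1 : ℝ) :=
          Finset.sum_le_sum fun k _ => (hb k).2
        simp at h4
        constructor <;> linarith
    have hx1 : 0 ≤ x ρ' ω ∧ x ρ' ω ≤ 1 := by rw [← hself]; exact h0 _
    have h5 := aff_spec (ε := ε) (raTerms lam ρ ρ' g) (raTerms_mem lam ρ ρ' g) y
      (fun p _ => (h0 _).1) (by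
        rw [hsum]
        nlinarith [havg.2, hx1.2]) h
    rw [hsum, ← hres] at h5
    refine h5.trans ?_
    have h6 : ((raTerms lam ρ ρ' g : List (ℚ × Inp Reg Rd CB)).length : ℝ) ≤ 9 := by
      cases g
      · simp [raTerms]; norm_num
      · simp [raTerms]
    nlinarith

/-! ### The template of a site -/

/-- Entries of the template of a site. -/
inductive Tp (Reg Rd CB : Type)
  | bit (κ : CB)
  | op (o : Op (((Rd × Reg) ⊕ (Fin 8 × Reg)) ⊕ ℕ))

variable [Fintype Reg] [Fintype CB]

/-- The list of the registers. -/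
noncomputable def regs (Reg : Type) [Fintype Reg] : List Reg := (Finset.univ : Finset Reg).toList

section tpl

variable (defs : Reg → MDef Reg Rd CB) (lam : ℚ)

/-- Number of operations of the program of a register. -/
noncomputable def sz (ρ : Reg) : ℕ := (mprog lam ρ (defs ρ)).ops.length

omit [Fintype Reg] [Fintype CB] in
theorem sz_pos (ρ : Reg) : 0 < sz defs lam ρ := (mprog lam ρ (defs ρ)).pos

open Classical in
/-- The offset of the block of a register. -/
noncomputable def offL : List Reg → ℕ → Reg → ℕ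
  | [], n, _ => n
  | ρ' :: l, n, ρ => if ρ' = ρ then n else offL l (n + sz defs lam ρ') ρ

/-- The offset of the block of a register. -/
noncomputable def offR (ρ : Reg) : ℕ :=
  offL defs lam (regs Reg) (Fintype.card CB) ρ

/-- The position of a register in the template of a site. -/
noncomputable def root (ρ : Reg) : ℕ := offR defs lam ρ + sz defs lam ρ - 1

open Classical in
/-- The position of a hard-wired bit. -/
noncomputable def cbIdx (κ : CB) : ℕ := (regs CB).idxOf κ

/-- Translation of the nodes of the program of a register with the offset `n`. -/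
noncomputable def trN (n : ℕ) : Inp Reg Rd CB ⊕ ℕ → ((Rd × Reg) ⊕ (Fin 8 × Reg)) ⊕ ℕ
  | .inl (.rd r ρ) => .inl (.inl (r, ρ))
  | .inl (.cb κ) => .inr (cbIdx κ)
  | .inl (.nb k ρ) => .inl (.inr (k, ρ))
  | .inl (.self ρ) => .inr (root defs lam ρ)
  | .inr j => .inr (n + j)

/-- The blocks of the registers. -/
noncomputable def blocks : List Reg → ℕ → List (Tp Reg Rd CB)
  | [], _ => []
  | ρ :: l, n => (mprog lam ρ (defs ρ)).ops.map (fun o => .op (o.map (trN defs lam n))) ++
      blocks l (n + sz defs lam ρ)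

/-- The template of a site. -/
noncomputable def tpl : List (Tp Reg Rd CB) :=
  (regs CB).map .bit ++ blocks defs lam (regs Reg) (Fintype.card CB)

/-- Number of nodes per site. -/
noncomputable def KK : ℕ := (tpl defs lam).length

theorem blocks_spec (l : List Reg) (n : ℕ) (ρ : Reg) (hρ : ρ ∈ l) :
    n ≤ offL defs lam l n ρ ∧
    offL defs lam l n ρ + sz defs lam ρ ≤ n + (blocks defs lam l n).length ∧
    ∀ (k : ℕ) (o : Op (Inp Reg Rd CB ⊕ ℕ)), (mprog lam ρ (defs ρ)).ops[k]? = some o →
      (blocks defs lam l n)[offL defs lam l n ρ - n + k]? =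
        some (.op (o.map (trN defs lam (offL defs lam l n ρ)))) := by
  classical
  induction l generalizing n with
  | nil => simp at hρ
  | cons ρ' l ih =>
    by_cases h : ρ' = ρ
    · subst h
      simp only [offL, if_true, blocks, List.length_append, List.length_map]
      refine ⟨le_rfl, by simp only [sz]; omega, fun k o hk => ?_⟩
      rw [Nat.sub_self, Nat.zero_add]
      have hlt : k < (mprog lam ρ' (defs ρ')).ops.length := (List.getElem?_eq_some_iff.1 hk).1
      rw [List.getElem?_append_left (by simpa using hlt), List.getElem?_map, hk]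
      rfl
    · have hρl : ρ ∈ l := by
        rcases List.mem_cons.1 hρ with h' | h'
        · exact absurd h'.symm h
        · exact h'
      simp only [offL, h, if_false, blocks, List.length_append, List.length_map]
      obtain ⟨h1, h2, h3⟩ := ih (n + sz defs lam ρ') hρl
      refine ⟨by omega, by simp only [sz] at h2 ⊢; omega, fun k o hk => ?_⟩
      have h4 := h3 k o hk
      rw [List.getElem?_append_right (by
        simp only [List.length_map]
        simp only [sz] at h1 ⊢; omega)]
      simp only [List.length_map]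
      rw [← h4]
      congr 1
      simp only [sz] at h1 ⊢
      omega

theorem tpl_reg (ρ : Reg) (k : ℕ) (o : Op (Inp Reg Rd CB ⊕ ℕ))
    (hk : (mprog lam ρ (defs ρ)).ops[k]? = some o) :
    (tpl defs lam)[offR defs lam ρ + k]? =
      some (.op (o.map (trN defs lam (offR defs lam ρ)))) := by
  obtain ⟨h1, _, h3⟩ := blocks_spec defs lam (regs Reg) (Fintype.card CB) ρ (by simp [regs])
  have h4 := h3 k o hk
  unfold tpl
  have hc : ((regs CB).map (Tp.bit : CB → Tp Reg Rd CB)).length = Fintype.card CB := by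
    simp [regs]
  rw [List.getElem?_append_right (by rw [hc]; unfold offR; omega), hc]
  unfold offR
  rw [← h4]
  congr 1
  omega

theorem root_lt (ρ : Reg) : root defs lam ρ < KK defs lam := by
  obtain ⟨h1, h2, _⟩ := blocks_spec defs lam (regs Reg) (Fintype.card CB) ρ (by simp [regs])
  have hs := sz_pos defs lam ρ
  have hc : ((regs CB).map (Tp.bit : CB → Tp Reg Rd CB)).length = Fintype.card CB := by
    simp [regs]
  unfold root KK tpl
  rw [List.length_append, hc]
  unfold offR
  omega

omit [Fintype Reg] in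
theorem cbIdx_lt (κ : CB) : cbIdx κ < Fintype.card CB := by
  classical
  have : (regs CB).length = Fintype.card CB := by simp [regs]
  rw [← this]
  unfold cbIdx
  exact List.idxOf_lt_length_of_mem (by simp [regs])

theorem tpl_bit (κ : CB) : (tpl defs lam)[cbIdx κ]? = some (.bit κ) := by
  classical
  unfold tpl
  have hc : ((regs CB).map (Tp.bit : CB → Tp Reg Rd CB)).length = Fintype.card CB := by
    simp [regs]
  rw [List.getElem?_append_left (by rw [hc]; exact cbIdx_lt κ), List.getElem?_map]
  have : (regs CB)[cbIdx κ]? = some κ := by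
    unfold cbIdx
    exact List.getElem?_idxOf (by simp [regs])
  rw [this]
  rfl

theorem cbIdx_lt' (κ : CB) : cbIdx κ < KK defs lam :=
  (List.getElem?_eq_some_iff.1 (tpl_bit defs lam κ)).1

/-- All entries of the template read local nodes with numbers `< KK` and have good
parameters. -/
theorem tpl_op {j : ℕ} {o : Op (((Rd × Reg) ⊕ (Fin 8 × Reg)) ⊕ ℕ)}
    (h : (tpl defs lam)[j]? = some (.op o)) :
    (∀ i, Sum.inr i ∈ o.ins → i < KK defs lam) ∧ ∀ α ∈ o.params, 0 ≤ α ∧ α ≤ 1 := by
  classical
  have key : ∀ (l : List Reg) (n : ℕ), n + (blocks defs lam l n).length ≤ KK defs lam →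
      Tp.op o ∈ blocks defs lam l n →
      (∀ i, Sum.inr i ∈ o.ins → i < KK defs lam) ∧ ∀ α ∈ o.params, 0 ≤ α ∧ α ≤ 1 := by
    intro l
    induction l with
    | nil => intro n _ h; simp [blocks] at h
    | cons ρ l ih =>
      intro n hn h
      simp only [blocks, List.mem_append, List.mem_map] at h
      simp only [blocks, List.length_append, List.length_map] at hn
      rcases h with ⟨o', ho', ho⟩ | h
      · have ho2 : o'.map (trN defs lam n) = o := by injection ho
        subst ho2
        refine ⟨fun i hi => ?_, fun α hα => ?_⟩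
        · rw [Op.ins_map] at hi
          obtain ⟨w, hw, hwi⟩ := List.mem_map.1 hi
          obtain ⟨k, hk⟩ := List.getElem?_of_mem ho'
          have hlt : k < (mprog lam ρ (defs ρ)).ops.length := (List.getElem?_eq_some_iff.1 hk).1
          rcases w with (⟨r, ρ'⟩ | κ | ⟨k, ρ'⟩ | ρ') | j'
          · simp [trN] at hwi
          · simp only [trN, Sum.inr.injEq] at hwi
            rw [← hwi]; exact cbIdx_lt' defs lam κ
          · simp [trN] at hwi
          · simp only [trN, Sum.inr.injEq] at hwi
            rw [← hwi]; exact root_lt defs lam ρ'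
          · simp only [trN, Sum.inr.injEq] at hwi
            have := (mprog lam ρ (defs ρ)).below k o' hk j' hw
            omega
        · rw [Op.params_map] at hα
          exact (mprog lam ρ (defs ρ)).params_mem o' ho' α hα
      · exact ih (n + sz defs lam ρ) (by simp only [sz] at hn ⊢; omega) h
  have hmem := List.mem_of_getElem? h
  unfold tpl at hmem
  rcases List.mem_append.1 hmem with h1 | h1
  · simp at h1
  · refine key (regs Reg) (Fintype.card CB) ?_ h1
    unfold KK tpl
    simp [regs]

end tpl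

/-! ### The circuit -/

section circ

variable (defs : Reg → MDef Reg Rd CB) (lam : ℚ) (N : ℕ)
  (rd : Rd → ℕ → ℕ) (cb : CB → ℕ → Bool) (nb : Fin 8 → ℕ → ℕ)

/-- The number of a node. -/
noncomputable def addr (w : ℕ) : ((Rd × Reg) ⊕ (Fin 8 × Reg)) ⊕ ℕ → ℕ
  | .inl (.inl (r, ρ)) => rd r w * KK defs lam + root defs lam ρ
  | .inl (.inr (k, ρ)) => nb k w * KK defs lam + root defs lam ρ
  | .inr j => w * KK defs lam + j

/-- The gate with the number `j` of the site `w`. -/
noncomputable def siteGate (w j : ℕ) : Tp Reg Rd CB → Gate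
  | .bit κ => .const (if cb κ w then 1 else 0) (w * KK defs lam + j)
  | .op o => o.toGate (addr defs lam rd nb w) (w * KK defs lam + j)

theorem out_siteGate (w j : ℕ) (t : Tp Reg Rd CB) :
    (siteGate defs lam rd cb nb w j t).out = w * KK defs lam + j := by
  cases t with
  | bit κ => rfl
  | op o => exact Op.out_toGate _ _ _

/-- The gates of a site. -/
noncomputable def siteGates (w : ℕ) : List Gate :=
  (tpl defs lam).mapIdx fun j t => siteGate defs lam rd cb nb w j t

/-- The list of all gates. -/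
noncomputable def gatesL : List Gate := (List.range N).flatMap (siteGates defs lam rd cb nb)

theorem map_out_siteGates (w : ℕ) : (siteGates defs lam rd cb nb w).map Gate.out =
    (List.range (KK defs lam)).map fun j => w * KK defs lam + j := by
  apply List.ext_getElem?
  intro j
  unfold siteGates
  rw [List.getElem?_map, List.getElem?_mapIdx, List.getElem?_map]
  by_cases h : j < KK defs lam
  · have h' : j < (tpl defs lam).length := h
    rw [List.getElem?_eq_getElem h', List.getElem?_range h]
    simp [out_siteGate]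
  · have h' : (tpl defs lam).length ≤ j := not_lt.1 h
    rw [List.getElem?_eq_none h', List.getElem?_eq_none (by simpa using h)]
    rfl

omit [Fintype Reg] [Fintype CB] in
theorem flatMap_range (N K : ℕ) : (List.range N).flatMap (fun w => (List.range K).map
    fun j => w * K + j) = List.range (N * K) := by
  induction N with
  | zero => simp
  | succ N ih =>
    rw [List.range_succ, List.flatMap_append, ih, Nat.succ_mul, List.range_add]
    simp

theorem map_out_gatesL : (gatesL defs lam N rd cb nb).map Gate.out =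
    List.range (N * KK defs lam) := by
  unfold gatesL
  rw [List.map_flatMap]
  simp only [map_out_siteGates]
  exact flatMap_range _ _

theorem length_gatesL : (gatesL defs lam N rd cb nb).length = N * KK defs lam := by
  have := congrArg List.length (map_out_gatesL defs lam N rd cb nb)
  simpa using this

theorem mem_siteGates {w : ℕ} {g : Gate} (h : g ∈ siteGates defs lam rd cb nb w) :
    ∃ (j : ℕ) (t : Tp Reg Rd CB), (tpl defs lam)[j]? = some t ∧
      g = siteGate defs lam rd cb nb w j t := by
  obtain ⟨j, hj⟩ := List.getElem?_of_mem h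
  unfold siteGates at hj
  rw [List.getElem?_mapIdx] at hj
  obtain ⟨t, ht, rfl⟩ := Option.map_eq_some_iff.1 hj
  exact ⟨j, t, ht, rfl⟩

theorem siteGate_mem {w j : ℕ} {t : Tp Reg Rd CB} (h : (tpl defs lam)[j]? = some t) :
    siteGate defs lam rd cb nb w j t ∈ siteGates defs lam rd cb nb w := by
  apply List.mem_of_getElem? (i := j)
  unfold siteGates
  rw [List.getElem?_mapIdx, h]
  rfl

/-- **The circuit** of a network on `N` sites. -/
noncomputable def circ [Nonempty Reg] (hN : 0 < N) (hrd : ∀ r w, w < N → rd r w < N)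
    (hnb : ∀ k w, w < N → nb k w < N) : GenCircuit where
  nodes := N * KK defs lam
  gates := gatesL defs lam N rd cb nb
  gates_ne := by
    intro h
    have h1 := length_gatesL defs lam N rd cb nb
    rw [h] at h1
    have h2 : 0 < KK defs lam := by
      have := root_lt defs lam (Classical.arbitrary Reg)
      omega
    have h3 := Nat.mul_pos hN h2
    simp at h1
    omega
  out_lt := by
    intro g hg
    have h1 : g.out ∈ (gatesL defs lam N rd cb nb).map Gate.out := List.mem_map_of_mem hg
    rw [map_out_gatesL] at h1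
    exact List.mem_range.1 h1
  ins_lt := by
    intro g hg a ha
    obtain ⟨w, hw, hg⟩ := List.mem_flatMap.1 hg
    have hw := List.mem_range.1 hw
    obtain ⟨j, t, ht, rfl⟩ := mem_siteGates defs lam rd cb nb hg
    cases t with
    | bit κ => simp [siteGate, Gate.ins] at ha
    | op o =>
      simp only [siteGate, Op.ins_toGate] at ha
      obtain ⟨u, hu, rfl⟩ := List.mem_map.1 ha
      have key : ∀ v i, v < N → i < KK defs lam → v * KK defs lam + i < N * KK defs lam := by
        intro v i hv hi
        have : (v + 1) * KK defs lam ≤ N * KK defs lam := Nat.mul_le_mul_right _ hv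
        rw [Nat.succ_mul] at this
        omega
      rcases u with (⟨r, ρ⟩ | ⟨k, ρ⟩) | i
      · exact key _ _ (hrd r w hw) (root_lt defs lam ρ)
      · exact key _ _ (hnb k w hw) (root_lt defs lam ρ)
      · exact key _ _ hw ((tpl_op defs lam ht).1 i hu)
  out_nodup := by
    rw [map_out_gatesL]
    exact List.nodup_range
  params_mem := by
    intro g hg α hα
    obtain ⟨w, hw, hg⟩ := List.mem_flatMap.1 hg
    obtain ⟨j, t, ht, rfl⟩ := mem_siteGates defs lam rd cb nb hg
    cases t with
    | bit κ =>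
      simp only [siteGate, Gate.params, List.mem_singleton] at hα
      subst hα
      split_ifs <;> norm_num
    | op o =>
      simp only [siteGate, Op.params_toGate] at hα
      exact (tpl_op defs lam ht).2 α hα

/-- If all gates of a site are satisfied, then the registers obey their definitions at this
site. -/
theorem rel_of_sat {Ω : Type} (E : Sem Rd CB Ω) (e : Ω → ℕ)
    (hrd : ∀ r ω, rd r (e ω) = e (E.rd r ω)) (hnb : ∀ k ω, nb k (e ω) = e (E.nb k ω))
    (hcb : ∀ κ ω, cb κ (e ω) = E.cb κ ω) {ε : ℝ} (hε : ε < 1 / 2)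
    (hlam : 0 ≤ lam ∧ lam ≤ 1) (hdefs : ∀ ρ, (defs ρ).Ok)
    (v : ℕ → ℝ) (hv : ∀ i, 0 ≤ v i ∧ v i ≤ 1) (ω : Ω)
    (hs : ∀ g ∈ siteGates defs lam rd cb nb (e ω), g.Sat ε v) (ρ : Reg) :
    (defs ρ).Rel E ε lam (fun ρ' ω' => v (e ω' * KK defs lam + root defs lam ρ')) ρ ω := by
  set y : Inp Reg Rd CB ⊕ ℕ → ℝ :=
    fun u => v (addr defs lam rd nb (e ω) (trN defs lam (offR defs lam ρ) u)) with hy
  refine mprog_spec E hε lam hlam ρ (defs ρ) (hdefs ρ) _ ω y (fun u => hv _) ?_ ?_ ?_ ?_ ?_ ?_
  · intro r ρ'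
    simp only [hy, trN, addr, hrd]
  · intro k ρ'
    simp only [hy, trN, addr, hnb]
  · intro ρ'
    simp only [hy, trN, addr]
  · intro κ
    simp only [hy, trN, addr]
    have h1 := hs _ (siteGate_mem defs lam rd cb nb (w := e ω) (tpl_bit defs lam κ))
    simp only [siteGate, Gate.Sat, hcb] at h1
    rw [abs_le] at h1
    cases h2 : E.cb κ ω
    · rw [h2] at h1
      simp only [P330.Rd]
      simp at h1
      linarith [h1.2]
    · rw [h2] at h1
      simp only [P330.Rd]
      simp at h1
      linarith [h1.1]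
  · simp only [hy, Prog.res, trN, addr]
    congr 1
    unfold root
    have := sz_pos defs lam ρ
    unfold sz at this ⊢
    omega
  · intro k o hk
    have h1 := hs _ (siteGate_mem defs lam rd cb nb (w := e ω) (tpl_reg defs lam ρ k o hk))
    simp only [siteGate] at h1
    rw [Op.sat_toGate, Op.sat_map] at h1
    exact h1

open Classical in
/-- **GB**: an assignment satisfying all but the fraction `δ` of the gates obeys the network
except for `δ * K * N` sites. -/
theorem circ_obeys [Nonempty Reg] {Ω : Type} [Fintype Ω] (E : Sem Rd CB Ω) (e : Ω → ℕ)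
    (he : Function.Injective e) (heN : ∀ ω, e ω < N)
    (hrd : ∀ r ω, rd r (e ω) = e (E.rd r ω)) (hnb : ∀ k ω, nb k (e ω) = e (E.nb k ω))
    (hcb : ∀ κ ω, cb κ (e ω) = E.cb κ ω) (hN : 0 < N) (hrd' : ∀ r w, w < N → rd r w < N)
    (hnb' : ∀ k w, w < N → nb k w < N) {ε δ : ℝ} (hε : ε < 1 / 2)
    (hlam : 0 ≤ lam ∧ lam ≤ 1) (hdefs : ∀ ρ, (defs ρ).Ok)
    (x : List ℚ) (hx : IsAssignment (circ defs lam N rd cb nb hN hrd' hnb') x)
    (hsat : (1 - δ) * (circ defs lam N rd cb nb hN hrd' hnb').gates.length ≤
      numSat ε (circ defs lam N rd cb nb hN hrd' hnb') x) :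
    (∀ i, 0 ≤ val x i ∧ val x i ≤ 1) ∧
    ((univ.filter fun ω : Ω => ∃ ρ, ¬ (defs ρ).Rel E ε lam
      (fun ρ' ω' => val x (e ω' * KK defs lam + root defs lam ρ')) ρ ω).card : ℝ)
      ≤ δ * (N * KK defs lam) := by
  have hv : ∀ i, 0 ≤ val x i ∧ val x i ≤ 1 := by
    intro i
    unfold val
    rw [List.getD_eq_getElem?_getD]
    cases h : x[i]? with
    | none => simp
    | some r =>
      have := hx.2 r (List.mem_of_getElem? h)
      simp only [Option.getD_some]
      exact ⟨by exact_mod_cast this.1, by exact_mod_cast this.2⟩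
  refine ⟨hv, ?_⟩
  set G := circ defs lam N rd cb nb hN hrd' hnb' with hG
  have hlen : G.gates.length = N * KK defs lam := length_gatesL defs lam N rd cb nb
  have hnd : G.gates.Nodup := List.Nodup.of_map _ G.out_nodup
  -- the unsatisfied gates
  set U : Finset Gate := G.gates.toFinset.filter fun g => ¬ g.Sat ε (val x) with hU
  have hcard : (U.card : ℝ) + numSat ε G x = N * KK defs lam := by
    have h1 : numSat ε G x = (G.gates.toFinset.filter fun g => g.Sat ε (val x)).card := by
      unfold numSat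
      rw [← Set.ncard_coe_finset]
      congr 1
      ext g
      simp
    rw [h1, hU]
    have h2 := Finset.card_filter_add_card_filter_not (s := G.gates.toFinset)
      (fun g => g.Sat ε (val x))
    rw [List.toFinset_card_of_nodup hnd, hlen] at h2
    have h3 : ((N * KK defs lam : ℕ) : ℝ) = (N : ℝ) * KK defs lam := by push_cast; ring
    rw [← h3, ← h2]
    push_cast
    ring
  have hle : (univ.filter fun ω : Ω => ∃ ρ, ¬ (defs ρ).Rel E ε lam
      (fun ρ' ω' => val x (e ω' * KK defs lam + root defs lam ρ')) ρ ω).card ≤ U.card := by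
    -- a bad site has an unsatisfied gate
    have hbad : ∀ ω : Ω, (∃ ρ, ¬ (defs ρ).Rel E ε lam
        (fun ρ' ω' => val x (e ω' * KK defs lam + root defs lam ρ')) ρ ω) →
        ∃ g ∈ siteGates defs lam rd cb nb (e ω), ¬ g.Sat ε (val x) := by
      rintro ω ⟨ρ, hρ⟩
      by_contra hcon
      push Not at hcon
      exact hρ (rel_of_sat defs lam rd cb nb E e hrd hnb hcb hε hlam hdefs (val x) hv ω hcon ρ)
    have hK : 0 < KK defs lam := by
      have := root_lt defs lam (Classical.arbitrary Reg)
      omega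
    refine (Finset.card_le_card_of_injOn e (t := U.image fun g => g.out / KK defs lam)
      ?_ he.injOn).trans Finset.card_image_le
    intro ω hω
    simp only [Finset.coe_filter, Finset.mem_univ, true_and, Set.mem_ofPred_eq] at hω
    obtain ⟨g, hg, hgs⟩ := hbad ω hω
    simp only [Finset.coe_image, Set.mem_image, Finset.mem_coe]
    refine ⟨g, ?_, ?_⟩
    · rw [hU, Finset.mem_filter, List.mem_toFinset]
      exact ⟨List.mem_flatMap.2 ⟨e ω, List.mem_range.2 (heN ω), hg⟩, hgs⟩
    · obtain ⟨j, t, ht, rfl⟩ := mem_siteGates defs lam rd cb nb hg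
      rw [out_siteGate]
      have hj : j < KK defs lam := (List.getElem?_eq_some_iff.1 ht).1
      rw [mul_comm, Nat.mul_add_div hK, Nat.div_eq_of_lt hj, add_zero]
  have h4 : (((univ.filter fun ω : Ω => ∃ ρ, ¬ (defs ρ).Rel E ε lam
      (fun ρ' ω' => val x (e ω' * KK defs lam + root defs lam ρ')) ρ ω).card : ℕ) : ℝ)
      ≤ U.card := by exact_mod_cast hle
  rw [hlen] at hsat
  push_cast at hsat
  linarith

end circ

end gen

/-! ### The network `net S r τ` -/

instance {S : Spec} : Finite (Reg S) := by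
  let f : ((Fin 7 × Bool × S.Comp) ⊕ (Fin 3 × Bool × S.Off × S.Cell)) ⊕
      ((Fin 3 × Tst) ⊕ (Fin 2 × Fin 3) ⊕ (Fin 3 × Fin 5)) → Reg S := fun u =>
    match u with
    | .inl (.inl (k, z, c)) => (![.m z c, .p z c, .x z c, .lo z c, .hi z c, .h z c, .a z c] :
        Fin 7 → Reg S) k
    | .inl (.inr (k, z, o, e)) => (![.y z o e, .ya z o e, .yb z o e] : Fin 3 → Reg S) k
    | .inr (.inl (k, t)) => (![.t t, .ta t, .tf t] : Fin 3 → Reg S) k
    | .inr (.inr (.inl (k, i))) => (![.q i, .qa i] : Fin 2 → Reg S) k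
    | .inr (.inr (.inr (i, l))) => .th i l
  refine Finite.of_surjective f fun ρ => ?_
  cases ρ with
  | m z c => exact ⟨.inl (.inl (0, z, c)), rfl⟩
  | p z c => exact ⟨.inl (.inl (1, z, c)), rfl⟩
  | x z c => exact ⟨.inl (.inl (2, z, c)), rfl⟩
  | lo z c => exact ⟨.inl (.inl (3, z, c)), rfl⟩
  | hi z c => exact ⟨.inl (.inl (4, z, c)), rfl⟩
  | h z c => exact ⟨.inl (.inl (5, z, c)), rfl⟩
  | a z c => exact ⟨.inl (.inl (6, z, c)), rfl⟩
  | y z o e => exact ⟨.inl (.inr (0, z, o, e)), rfl⟩
  | ya z o e => exact ⟨.inl (.inr (1, z, o, e)), rfl⟩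
  | yb z o e => exact ⟨.inl (.inr (2, z, o, e)), rfl⟩
  | t k => exact ⟨.inr (.inl (0, k)), rfl⟩
  | ta k => exact ⟨.inr (.inl (1, k)), rfl⟩
  | tf k => exact ⟨.inr (.inl (2, k)), rfl⟩
  | q i => exact ⟨.inr (.inr (.inl (0, i))), rfl⟩
  | qa i => exact ⟨.inr (.inr (.inl (1, i))), rfl⟩
  | th i l => exact ⟨.inr (.inr (.inr (i, l))), rfl⟩

noncomputable instance {S : Spec} : Fintype (Reg S) := Fintype.ofFinite _

instance {S : Spec} : Finite (CB S) := by
  let f : S.Comp ⊕ S.Stat → CB S := fun u =>
    match u with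
    | .inl c => .start c
    | .inr q => .stat q
  refine Finite.of_surjective f fun κ => ?_
  cases κ with
  | start c => exact ⟨.inl c, rfl⟩
  | stat q => exact ⟨.inr q, rfl⟩

noncomputable instance {S : Spec} : Fintype (CB S) := Fintype.ofFinite _

instance {S : Spec} : Nonempty (Reg S) := ⟨.q 0⟩

theorem net_ok (S : Spec) (r : ℕ) (τ : ℚ) (hτ : 0 ≤ τ ∧ τ ≤ 1) (ρ : Reg S) :
    (net S r τ ρ).Ok := by
  cases ρ with
  | th i l =>
    simp only [net, MDef.Ok]
    fin_cases l <;> norm_num
  | tf k => exact hτ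
  | _ => simp only [net, MDef.Ok] <;> norm_num

open Classical in
theorem pr_le_of_card {Ω : Type} [Fintype Ω] (p : Ω → Prop) {β : ℝ} {N : ℕ} (hN : 0 < N)
    (hcard : Fintype.card Ω = N) (h : ((univ.filter p).card : ℝ) ≤ β * N) : pr p ≤ β := by
  have hN' : (0 : ℝ) < N := by exact_mod_cast hN
  have e : (∑ ω, if p ω then (1 : ℝ) else 0) = ((univ.filter p).card : ℝ) := by
    rw [Finset.sum_boole]
  unfold pr
  rw [hcard, div_le_iff₀ hN']
  refine le_trans (le_of_eq ?_) h
  rw [← e]

open Classical in
/-- **GB for the network**: the values of the registers, read off an acceptable assignment of the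
circuit, obey the network. -/
theorem obeys_circ {S : Spec} {r : ℕ} (I : Inst S r) (X : Exp I) (τ lam : ℚ)
    (hτ : 0 ≤ τ ∧ τ ≤ 1) (hlam : 0 ≤ lam ∧ lam ≤ 1) (N : ℕ)
    (rd : Rd S r → ℕ → ℕ) (cb : CB S → ℕ → Bool) (nb : Fin 8 → ℕ → ℕ)
    (e : I.Site → ℕ) (he : Function.Injective e) (heN : ∀ ω, e ω < N)
    (hcardN : Fintype.card I.Site = N)
    (hrd : ∀ r ω, rd r (e ω) = e (I.rd r ω)) (hnb : ∀ k ω, nb k (e ω) = e ((I.sem X).nb k ω))
    (hcb : ∀ κ ω, cb κ (e ω) = I.cb κ ω) (hN : 0 < N) (hrd' : ∀ r w, w < N → rd r w < N)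
    (hnb' : ∀ k w, w < N → nb k w < N) {ε δ β : ℝ} (hε : ε < 1 / 2)
    (hβ : δ * KK (net S r τ) lam ≤ β)
    (x : List ℚ) (hx : IsAssignment (circ (net S r τ) lam N rd cb nb hN hrd' hnb') x)
    (hsat : (1 - δ) * (circ (net S r τ) lam N rd cb nb hN hrd' hnb').gates.length ≤
      numSat ε (circ (net S r τ) lam N rd cb nb hN hrd' hnb') x) :
    Obeys I X τ ε lam β
      (fun ρ ω => val x (e ω * KK (net S r τ) lam + root (net S r τ) lam ρ)) := by
  obtain ⟨h1, h2⟩ := circ_obeys (net S r τ) lam N rd cb nb (I.sem X) e he heN hrd hnb hcb hN hrd'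
    hnb' hε hlam (net_ok S r τ hτ) x hx hsat
  refine ⟨fun ρ ω => h1 _, fun ρ => ?_⟩
  have hN' : (0 : ℝ) < N := by exact_mod_cast hN
  refine pr_le_of_card _ hN hcardN
    (le_trans (Nat.cast_le.2 (Finset.card_le_card ?_)) (h2.trans ?_))
  · intro ω hω
    simp only [Finset.mem_filter, Finset.mem_univ, true_and] at hω ⊢
    exact ⟨ρ, hω⟩
  · calc δ * (N * KK (net S r τ) lam) = (δ * KK (net S r τ) lam) * N := by ring
      _ ≤ β * N := mul_le_mul_of_nonneg_right hβ hN'.le

end S

end Vale.Agent.P330
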