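import Vale.Agent.P330.S.NumRd

/-!
# Polynomial time: reads and neighbours
-/

namespace Vale.Agent.P330.S

open Finset Vale.Agent.Lib.PolyTime

variable {S : Spec} {r : ℕ} {A : Set Word} {α β : Type*} [Enc α] [Enc β]

/-- A family of instances whose data are computable in polynomial time, with polynomially many
table arguments. -/
structure PTInst (A : Set Word) (I : α → Inst S r) : Prop where
  L : ∀ i, PT A (fun a => (I a).L i)
  V : PBd (fun a => 2 ^ (I a).e)
  off : ∀ o i, PT A (fun a => ((I a).off o i).val)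

variable {I : α → Inst S r}

theorem PTInst.comp (h : PTInst A I) {g : β → α} (hg : PT A g) : PTInst A (fun b => I (g b)) where
  L i := (h.L i).comp hg
  V := h.V.comp hg
  off o i := (h.off o i).comp hg

theorem PTInst.PT_base (h : PTInst A I) (i : Fin r) : PT A (fun a => (I a).base i) :=
  PT_sumFin fun _ => PT.powConst (h.L _) _

theorem PTInst.PT_e (h : PTInst A I) : PT A (fun a => (I a).e) :=
  PT_sumFin fun _ => PT.powConst (h.L _) _

theorem PTInst.PBd_e (h : PTInst A I) : PBd (fun a => (I a).e) :=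
  h.V.mono fun _ => Nat.lt_two_pow_self.le

theorem PTInst.PT_V (h : PTInst A I) : PT A (fun a => 2 ^ (I a).e) :=
  PT.pow (PT.const 2) h.PT_e h.PBd_e

theorem PTInst.PBd_L (h : PTInst A I) (i : Fin r) : PBd (fun a => (I a).L i) :=
  h.PBd_e.mono fun a => by
    have h1 : (I a).L i ≤ (I a).L i ^ (S.d + 2) :=
      Nat.le_self_pow (by omega) _
    refine h1.trans ?_
    unfold Inst.e
    exact Finset.single_le_sum (f := fun i => (I a).L i ^ (S.d + 2)) (fun _ _ => Nat.zero_le _)
      (Finset.mem_univ i)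

theorem PTInst.PT_offN (h : PTInst A I) (o : S.Off) (i : Fin r) :
    PT A (fun a => (I a).offN o i) := h.off o i

theorem PTInst.PT_bitN (h : PTInst A I) {n : α → ℕ} {i : Fin r} {y : α → S.Slot → ℕ} (hn : PT A n)
    (hy : ∀ t, PT A (fun a => y a t)) : PT A (fun a => (I a).bitN (n a) i (y a)) :=
  PT.testBit hn (PT.add (h.PT_base i) (PT_sumFin fun t =>
    PT.mul (PT.mod (hy t) (h.L i)) (PT.powConst (h.L i) _)))

theorem PTInst.PT_vecN (h : PTInst A I) {n m : α → ℕ} {i : Fin r} {t : S.Slot} (hn : PT A n)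
    (hm : PT A m) : PT A (fun a => (I a).vecN t i (n a) (m a)) := by
  refine h.PT_bitN hn fun u => ?_
  by_cases h0 : u = 0
  · exact hm.congr fun a => by rw [if_pos h0]
  · by_cases h1 : u = 1
    · exact (PT.const (t : ℕ)).congr fun a => by rw [if_neg h0, if_pos h1]
    · exact (PT.const 0).congr fun a => by rw [if_neg h0, if_neg h1]

theorem PTInst.PT_diagN (h : PTInst A I) {i : Fin r} {o : S.Slot → S.Off} {y : α → S.Slot → ℕ}
    (hy : ∀ t, PT A (fun a => y a t)) : PT A (fun a => (I a).diagN o i (y a)) :=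
  PT_allFin fun t => PT.eqNat (PT.mod (PT.add (hy t) (h.off (o 0) i)) (h.L i))
    (PT.mod (PT.add (hy 0) (h.off (o t) i)) (h.L i))

theorem PTInst.PT_phiBN (h : PTInst A I) {n : α → ℕ} {i : Fin r} {y : α → S.Slot → ℕ} (hn : PT A n)
    (hy : ∀ t, PT A (fun a => y a t)) (φ : Phi S) :
    PT A (fun a => (I a).phiBN i (n a) (y a) φ) := by
  cases φ with
  | id => exact h.PT_bitN hn hy
  | shift o => exact h.PT_bitN hn fun t => PT.add (hy t) (h.off (o t) i)
  | ones o => exact h.PT_diagN hy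
  | prod => exact PT_allFin fun t => PT_decideBool (h.PT_vecN hn (hy t))
  | lin t =>
    refine PT.and (PT_allFin fun u => ?_) (h.PT_vecN hn (hy 0))
    by_cases h0 : u = 0
    · exact (PT.const true).congr fun a => by simp [h0]
    · exact (PT.eqNat (PT.mod (hy u) (h.L i)) (PT.const 0)).congr fun a => by simp [h0]
  | win =>
    exact PT.and (h.PT_diagN hy) (h.PT_vecN hn (PT.add (hy 0) (PT.sub (h.L i) (h.off _ i))))

theorem PTInst.PT_buildV (h : PTInst A I) {f : α → Fin r → (S.Slot → ℕ) → Bool}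
    (hf : ∀ (i : Fin r) (y : α × ℕ → S.Slot → ℕ), (∀ t, PT A (fun q => y q t)) →
      PT A (fun q : α × ℕ => f q.1 i (y q))) : PT A (fun a => (I a).buildV (f a)) := by
  have h' : PTInst A (fun q : α × ℕ => I q.1) := h.comp PT.fst'
  refine PT.ofBits h.PT_e h.PBd_e (PT_exFin fun i => ?_)
  refine PT.decide_and (PT.le (h'.PT_base i) PT.snd') (PT.decide_and
    (PT.lt PT.snd' (PT.add (h'.PT_base i) (PT.powConst (h'.L i) _))) (PT_decideBool ?_))
  exact hf i _ fun t => PT.mod (PT.div (PT.sub PT.snd' (h'.PT_base i))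
    (PT.powConst (h'.L i) _)) (h'.L i)

/-- **Reads in polynomial time.** -/
theorem PTInst.PT_rdN (h : PTInst A I) (ρ : Rd S r) {n : α → ℕ} (hn : PT A n) :
    PT A (fun a => (I a).rdN ρ (n a)) := by
  have hV := h.PT_V
  have h' : PTInst A (fun q : α × ℕ => I q.1) := h.comp PT.fst'
  have hd : PT A (fun a => n a / 2 ^ (I a).e) := PT.div hn hV
  have hm : PT A (fun a => n a % 2 ^ (I a).e) := PT.mod hn hV
  have hd' : PT A (fun q : α × ℕ => n q.1 / 2 ^ (I q.1).e) := hd.comp PT.fst'
  have hm' : PT A (fun q : α × ℕ => n q.1 % 2 ^ (I q.1).e) := hm.comp PT.fst'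
  cases ρ with
  | self => exact hn
  | cube B φ =>
    refine PT.add (PT.mul (h.PT_buildV fun i y hy => ?_) hV) hd
    by_cases hi : i ∈ B
    · simp only [if_pos hi]
      exact PT.xor (h'.PT_phiBN hd' hy φ) (h'.PT_bitN hm' hy)
    · simp only [if_neg hi]
      exact h'.PT_bitN hm' hy
  | b1 k =>
    refine PT.add (PT.mul (h.PT_buildV fun i y hy => ?_) hV) (h.PT_buildV fun i y hy => ?_)
    · by_cases hi : i = k
      · simp only [if_pos hi]
        exact h'.PT_bitN hm' hy
      · simp only [if_neg hi]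
        exact h'.PT_bitN hd' hy
    · by_cases hi : i = k
      · simp only [if_pos hi]
        exact h'.PT_bitN hd' hy
      · simp only [if_neg hi]
        exact h'.PT_bitN hm' hy
  | b2 k =>
    refine PT.add (PT.mul (h.PT_buildV fun i y hy => ?_) hV) hm
    by_cases hi : i = k
    · simp only [if_pos hi]
      exact PT.xor (h'.PT_bitN hd' hy) (h'.PT_bitN hm' hy)
    · simp only [if_neg hi]
      exact h'.PT_bitN hd' hy

theorem PT_mgN {m n : α → ℕ} (hm : PT A m) (hn : PT A n) (k : Fin 4) :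
    PT A (fun a => mgN (m a) k (n a)) := by
  have hk : k = 0 ∨ k = 1 ∨ k = 2 ∨ k = 3 := by revert k; decide
  have hd := PT.div hn hm
  have hr := PT.mod hn hm
  rcases hk with rfl | rfl | rfl | rfl
  · exact PT.add (PT.mul (PT.mod (PT.add hd (PT.mul (PT.const 2) hr)) hm) hm) hr
  · exact PT.add (PT.mul (PT.mod (PT.add (PT.add hd (PT.mul (PT.const 2) hr)) (PT.const 1)) hm)
      hm) hr
  · exact PT.add (PT.mul hd hm) (PT.mod (PT.add hr (PT.mul (PT.const 2) hd)) hm)
  · exact PT.add (PT.mul hd hm) (PT.mod (PT.add (PT.add hr (PT.mul (PT.const 2) hd)) (PT.const 1))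
      hm)

/-- **Neighbours in polynomial time.** -/
theorem PTInst.PT_nbN (h : PTInst A I) (k : Fin 8) {n : α → ℕ} (hn : PT A n) :
    PT A (fun a => (I a).nbN k (n a)) := by
  have hV := h.PT_V
  have h2 : PT A (fun a => 2 ^ ((I a).e / 2)) :=
    PT.pow (PT.const 2) (PT.div h.PT_e (PT.const 2)) (h.PBd_e.mono fun a => Nat.div_le_self _ _)
  unfold Inst.nbN
  by_cases hk : (k : ℕ) < 4
  · simp only [dif_pos hk]
    exact PT.add (PT.mul (PT.div hn hV) hV) (PT_mgN h2 (PT.mod hn hV) _)
  · simp only [dif_neg hk]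
    exact PT.add (PT.mul (PT_mgN h2 (PT.div hn hV) _) hV) (PT.mod hn hV)

/-- The number of the sites. -/
theorem PTInst.PT_N (h : PTInst A I) : PT A (fun a => 2 ^ (I a).e * 2 ^ (I a).e) :=
  PT.mul h.PT_V h.PT_V

theorem PTInst.PBd_N (h : PTInst A I) : PBd (fun a => 2 ^ (I a).e * 2 ^ (I a).e) :=
  h.V.mul h.V

end Vale.Agent.P330.S
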