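import Vale.Agent.P330.S.Core

/-!
# From sequences of configurations to germs

`SeqCore` is `Core` with sequences of configurations and for almost all `n` along an
ultrafilter; `SeqCore.toCore` passes to the quotient.
-/

namespace Vale.Agent.P330.S

open Filter

/-- `Core` for sequences. -/
structure SeqCore where
  U : Ultrafilter ℕ
  /-- configurations -/
  Cf : ℕ → Type
  Val : ∀ n, Cf n → Prop
  w0 : ∀ n, Cf n
  step : ∀ n, Bool → Cf n → Cf n
  τ : ℝ
  τ_pos : 0 < τ
  q : Fin 3 → ℝ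
  q_mem : ∀ i, 0 ≤ q i ∧ q i ≤ 1
  T : Tst → ℝ
  Codes : Bool → (∀ n, Cf n) → Prop
  Nr : Bool → (∀ n, Cf n) → Prop
  codes_congr : ∀ z w w', (∀ᶠ n in (U : Filter ℕ), w n = w' n) → Codes z w → Codes z w'
  nr_congr : ∀ z w w', (∀ᶠ n in (U : Filter ℕ), w n = w' n) → Nr z w → Nr z w'
  valid0 : ∀ n, Val n (w0 n)
  inv : ∀ n z w, Val n w → Val n (step n z w) → step n (!z) (step n z w) = w
  start : ∀ n, ¬ Val n (step n true (w0 n))
  codes_near : ∀ z w, Codes z w → Nr z w
  T_sound : ∀ z, T (.T z) ≤ τ → ∃ w, (∀ᶠ n in (U : Filter ℕ), Val n (w n)) ∧ Nr z w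
  T_complete : ∀ z w, (∀ᶠ n in (U : Filter ℕ), Val n (w n)) → Codes z w → T (.T z) = 0
  E0_sound : ∀ w w', T .E0 ≤ τ → Nr false w → Nr true w' →
    ∀ᶠ n in (U : Filter ℕ), w n = w' n
  E0_complete : ∀ w, Codes false w → Codes true w → T .E0 = 0
  E1_sound : ∀ w w', T .E1 ≤ τ → (∀ᶠ n in (U : Filter ℕ), Val n (w n)) → Nr false w →
    Nr true w' → ∀ᶠ n in (U : Filter ℕ), w' n = step n false (w n)
  E1_complete : ∀ w, (∀ᶠ n in (U : Filter ℕ), Val n (w n)) → Codes false w →
    Codes true (fun n => step n false (w n)) → T .E1 = 0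
  D_sound : ∀ z w, T (.D z) ≤ τ → Nr z w → ∀ᶠ n in (U : Filter ℕ), w n = w0 n
  D_complete : ∀ z, Codes z w0 → T (.D z) = 0
  mux_start : q 2 < 1 / 6 → ∀ z, Codes z w0
  mux_hold0 : ∀ z, HoldAt q z → Nr z w0 → Codes z w0
  mux_hold : 1 / 6 < q 2 → ∀ z w, HoldAt q z → Nr z w → Codes z w
  mux_copy : 1 / 6 < q 2 → q 0 < 1 / 2 → ∀ z w, FollowAt q z → Codes (!z) w → Codes z w
  mux_step : 1 / 6 < q 2 → 1 / 2 < q 0 → ∀ z w, FollowAt q z →
    (∀ᶠ n in (U : Filter ℕ), Val n (w n)) → Codes (!z) w → Codes z (fun n => step n (!z) (w n))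
  mux_both : 1 / 6 < q 2 → q 0 < 1 / 2 → ∀ w, Nr false w → Nr true w →
    Codes false w ∧ Codes true w
  mux_link : 1 / 6 < q 2 → 1 / 2 < q 0 → ∀ w w', (∀ᶠ n in (U : Filter ℕ), Val n (w n)) →
    (∀ᶠ n in (U : Filter ℕ), Val n (w' n)) →
    (∀ᶠ n in (U : Filter ℕ), step n false (w n) = w' n) →
    (∀ᶠ n in (U : Filter ℕ), step n true (w' n) = w n) →
    Nr false w → Nr true w' → Codes false w ∧ Codes true w'
  nosol_false : ∀ w, (∀ᶠ n in (U : Filter ℕ), Val n (w n)) → Nr false w →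
    ∀ᶠ n in (U : Filter ℕ), Val n (step n false (w n))
  nosol_true : ∀ w, (∀ᶠ n in (U : Filter ℕ), Val n (w n)) →
    (∀ᶠ n in (U : Filter ℕ), w n ≠ w0 n) → Nr true w →
    ∀ᶠ n in (U : Filter ℕ), Val n (step n true (w n))
  ctl : ∀ (i : Fin 3) (b : Bool), (∀ y : Ctl, ThOK q y.th → TfOK τ T y.tf →
    target y.th y.v (y.sg false) (y.sg true) i = b) → q i = if b then 1 else 0

namespace SeqCore

variable (D : SeqCore)

/-- Equality for almost all `n`. -/
def setoid : Setoid (∀ n, D.Cf n) where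
  r w w' := ∀ᶠ n in (D.U : Filter ℕ), w n = w' n
  iseqv :=
    { refl := fun _ => Eventually.of_forall fun _ => rfl
      symm := fun h => h.mono fun _ h => h.symm
      trans := fun h h' => (h.and h').mono fun _ h => h.1.trans h.2 }

/-- Germs of configurations. -/
def G : Type := Quotient D.setoid

/-- The germ of a sequence. -/
def cl (w : ∀ n, D.Cf n) : D.G := Quotient.mk D.setoid w

/-- A representative. -/
noncomputable def out (w : D.G) : ∀ n, D.Cf n := Quotient.out w

variable {D}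

theorem out_cl (w : ∀ n, D.Cf n) : ∀ᶠ n in (D.U : Filter ℕ), D.out (D.cl w) n = w n :=
  Quotient.exact (s := D.setoid) (Quotient.out_eq (D.cl w))

theorem cl_eq {w w' : ∀ n, D.Cf n} (h : ∀ᶠ n in (D.U : Filter ℕ), w n = w' n) :
    D.cl w = D.cl w' := Quotient.sound (s := D.setoid) h

theorem cl_out (w : D.G) : D.cl (D.out w) = w := Quotient.out_eq w

theorem eq_of {w w' : D.G} (h : ∀ᶠ n in (D.U : Filter ℕ), D.out w n = D.out w' n) :
    w = w' := by
  rw [← cl_out w, ← cl_out w']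
  exact cl_eq h

theorem ev_of_eq {w w' : ∀ n, D.Cf n} (h : D.cl w = D.cl w') :
    ∀ᶠ n in (D.U : Filter ℕ), w n = w' n := Quotient.exact (s := D.setoid) h

variable (D) in
/-- The abstract core of a `SeqCore`. -/
noncomputable def toCore : Core where
  W := D.G
  Valid w := ∀ᶠ n in (D.U : Filter ℕ), D.Val n (D.out w n)
  w0 := D.cl D.w0
  step z w := D.cl fun n => D.step n z (D.out w n)
  τ := D.τ
  τ_pos := D.τ_pos
  q := D.q
  q_mem := D.q_mem
  T := D.T
  Codes z w := D.Codes z (D.out w)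
  Nr z w := D.Nr z (D.out w)
  valid0 := (out_cl D.w0).mono fun n h => by rw [h]; exact D.valid0 n
  inv z w h1 h2 := by
    refine eq_of ?_
    have e1 := out_cl (D := D) fun n => D.step n z (D.out w n)
    have e2 := out_cl (D := D) fun n => D.step n (!z) (D.out (D.cl fun n => D.step n z
      (D.out w n)) n)
    refine ((e2.and e1).and (h1.and h2)).mono fun n h => ?_
    obtain ⟨⟨a1, a2⟩, a3, a4⟩ := h
    rw [a1, a2]
    rw [a2] at a4
    exact D.inv n z _ a3 a4
  start h := by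
    have e1 := out_cl (D := D) fun n => D.step n true (D.out (D.cl D.w0) n)
    obtain ⟨n, ⟨a1, a2⟩, a3⟩ := ((e1.and (out_cl D.w0)).and h).exists
    rw [a1, a2] at a3
    exact D.start n a3
  codes_near z w h := D.codes_near z _ h
  T_sound z h := by
    obtain ⟨w, h1, h2⟩ := D.T_sound z h
    refine ⟨D.cl w, ((out_cl w).and h1).mono fun n h => by rw [h.1]; exact h.2,
      D.nr_congr z _ _ ((out_cl w).mono fun _ h => h.symm) h2⟩
  T_complete z w h1 h2 := D.T_complete z _ h1 h2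
  E0_sound w w' h h1 h2 := eq_of (D.E0_sound _ _ h h1 h2)
  E0_complete w h1 h2 := D.E0_complete _ h1 h2
  E1_sound w w' h h1 h2 h3 := by
    refine eq_of ?_
    refine ((D.E1_sound _ _ h h1 h2 h3).and (out_cl fun n => D.step n false (D.out w n))).mono
      fun n h => ?_
    rw [h.1, h.2]
  E1_complete w h1 h2 h3 :=
    D.E1_complete _ h1 h2 (D.codes_congr true _ _ (out_cl _) h3)
  D_sound z w h h1 := by
    refine eq_of ?_
    refine ((D.D_sound z _ h h1).and (out_cl D.w0)).mono fun n h => ?_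
    rw [h.1, h.2]
  D_complete z h := D.D_complete z (D.codes_congr z _ _ (out_cl _) h)
  mux_start h z := D.codes_congr z _ _ ((out_cl _).mono fun _ h => h.symm) (D.mux_start h z)
  mux_hold0 z h h1 := D.codes_congr z _ _ ((out_cl _).mono fun _ h => h.symm)
    (D.mux_hold0 z h (D.nr_congr z _ _ (out_cl _) h1))
  mux_hold h z w h1 h2 := D.mux_hold h z _ h1 h2
  mux_copy h h1 z w h2 h3 := D.mux_copy h h1 z _ h2 h3
  mux_step h h1 z w h2 h3 h4 := D.codes_congr z _ _ ((out_cl _).mono fun _ h => h.symm)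
    (D.mux_step h h1 z _ h2 h3 h4)
  mux_both h h1 w h2 h3 := D.mux_both h h1 _ h2 h3
  mux_link h h1 w w' h2 h3 h4 h5 h6 h7 := by
    refine D.mux_link h h1 _ _ h2 h3 ?_ ?_ h6 h7
    · have : D.cl (fun n => D.step n false (D.out w n)) = D.cl (D.out w') := by
        rw [cl_out]; exact h4
      exact ev_of_eq this
    · have : D.cl (fun n => D.step n true (D.out w' n)) = D.cl (D.out w) := by
        rw [cl_out]; exact h5
      exact ev_of_eq this
  nosol_false w h1 h2 :=
    ((D.nosol_false _ h1 h2).and (out_cl _)).mono fun n h => by rw [h.2]; exact h.1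
  nosol_true w h1 h2 h3 := by
    have hne : ∀ᶠ n in (D.U : Filter ℕ), D.out w n ≠ D.w0 n := by
      refine Ultrafilter.eventually_not.2 fun h => ?_
      apply h2
      rw [← cl_out w]
      exact cl_eq h
    exact ((D.nosol_true _ h1 hne h3).and (out_cl _)).mono fun n h => by rw [h.2]; exact h.1
  ctl i b h := D.ctl i b h

end SeqCore

end Vale.Agent.P330.S
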