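import Vale.Agent.P330.S.Prop1

/-!
# The contraction lemma, finite form

If every bad table argument is wrong on a quarter of its pads, and a wrong site has a bad read or is
exceptional, then the bad set is as small as the exceptional set, or large.
-/

namespace Vale.Agent.P330.S

open Finset PCP.AR

variable {S : Spec} {r : ℕ}

theorem pr_exists_le {Ω κ : Type*} [Fintype Ω] [Fintype κ] (E : κ → Ω → Prop) (c : ℝ)
    (h : ∀ k, pr (E k) ≤ c) : pr (fun t => ∃ k, E k t) ≤ Fintype.card κ * c := by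
  classical
  have h1 := MLT.pr_union (univ : Finset κ) E c (fun k _ => h k)
  rw [Finset.card_univ] at h1
  refine le_trans (pr_mono ?_) h1
  rintro t ⟨k, hk⟩
  exact ⟨k, mem_univ _, hk⟩

/-- For a fixed table argument the argument read is uniformly distributed. -/
theorem Inst.pr_cube_fst (I : Inst S r) (A : Finset (Fin r)) (φ : Phi S) (M : I.V)
    (B : I.V → Prop) : pr (fun y : I.V => B (I.rd (.cube A φ) (M, y)).1) = pr B := by
  have h : ∀ y : I.V, (I.rd (.cube A φ) (M, y)).1 =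
      (fun j => if j ∈ A then I.phi φ M j else 0) + y := by
    intro y
    exact cp_eq_add A (I.phi φ M) y
  simp only [h]
  exact pr_translate _ B

/-- Union bound over the reads `(A, φ k)`. -/
theorem Inst.pr_reads_fst (I : Inst S r) {κ : Type*} [Fintype κ] (φ : κ → Phi S) (M : I.V)
    (B : I.V → Prop) :
    pr (fun y : I.V => ∃ p : Finset (Fin r) × κ, B (I.rd (.cube p.1 (φ p.2)) (M, y)).1) ≤
      (2 ^ r * Fintype.card κ) * pr B := by
  classical
  have h := pr_exists_le (Ω := I.V) (fun (p : Finset (Fin r) × κ) y =>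
    B (I.rd (.cube p.1 (φ p.2)) (M, y)).1) (pr B) (fun p => (I.pr_cube_fst p.1 (φ p.2) M B).le)
  refine le_trans h (le_of_eq ?_)
  simp

/-- Union bound over the reads `(A, φ k)`, for all sites. -/
theorem Inst.pr_reads (I : Inst S r) {κ : Type*} [Fintype κ] (φ : κ → Phi S)
    (G : I.Site → Prop) :
    pr (fun ω : I.Site => ∃ p : Finset (Fin r) × κ, G (I.rd (.cube p.1 (φ p.2)) ω)) ≤
      (2 ^ r * Fintype.card κ) * pr G := by
  classical
  have h := pr_exists_le (Ω := I.Site) (fun (p : Finset (Fin r) × κ) ω =>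
    G (I.rd (.cube p.1 (φ p.2)) ω)) (pr G) (fun p => (I.pr_rd _ G).le)
  refine le_trans h (le_of_eq ?_)
  simp

/-- **Contraction.** -/
theorem Inst.contraction (I : Inst S r) {κ : Type*} [Fintype κ] (φ : κ → Phi S)
    (B : I.V → Prop) (W N : I.Site → Prop)
    (h1 : ∀ M, B M → 1 / 4 ≤ pr (fun y : I.V => W (M, y)))
    (h2 : ∀ ω, W ω → N ω ∨ ∃ p : Finset (Fin r) × κ, B (I.rd (.cube p.1 (φ p.2)) ω).1)
    (h3 : (2 ^ r * Fintype.card κ : ℝ) * pr B ≤ 1 / 8) : pr B ≤ 8 * pr N := by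
  have key : pr B * (1 / 8) ≤ pr N := by
    apply mul_le_pr_prod
    intro M hM
    have h4 := h1 M hM
    have h5 : pr (fun y : I.V => W (M, y)) ≤ pr (fun y : I.V => N (M, y) ∨
        ∃ p : Finset (Fin r) × κ, B (I.rd (.cube p.1 (φ p.2)) (M, y)).1) :=
      pr_mono fun y hy => h2 (M, y) hy
    have h6 := pr_or (fun y : I.V => N (M, y))
      (fun y => ∃ p : Finset (Fin r) × κ, B (I.rd (.cube p.1 (φ p.2)) (M, y)).1)
    have h7 := I.pr_reads_fst φ M B
    linarith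
  linarith

/-- The first bound on the bad set. -/
theorem Inst.contraction0 (I : Inst S r) {κ : Type*} [Fintype κ] (φ : κ → Phi S)
    (B : I.V → Prop) (W N G : I.Site → Prop)
    (h1 : ∀ M, B M → 1 / 4 ≤ pr (fun y : I.V => W (M, y)))
    (h2 : ∀ ω, W ω → N ω ∨ ∃ p : Finset (Fin r) × κ, G (I.rd (.cube p.1 (φ p.2)) ω)) :
    pr B ≤ 4 * (pr N + (2 ^ r * Fintype.card κ) * pr G) := by
  have key : pr B * (1 / 4) ≤ pr W := by
    apply mul_le_pr_prod
    intro M hM
    exact h1 M hM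
  have h5 : pr W ≤ pr (fun ω : I.Site => N ω ∨
      ∃ p : Finset (Fin r) × κ, G (I.rd (.cube p.1 (φ p.2)) ω)) := pr_mono h2
  have h6 := pr_or N
    (fun ω => ∃ p : Finset (Fin r) × κ, G (I.rd (.cube p.1 (φ p.2)) ω))
  have h7 := I.pr_reads φ G
  linarith

/-! ### Means -/

/-- A function that is a bit up to `1/4` has a mean near the bit. -/
theorem mean_of_pr {Ω : Type*} [Fintype Ω] [Nonempty Ω] {f : Ω → ℝ} {ε δ : ℝ} (hε : 0 ≤ ε)
    (h0 : ∀ ω, 0 ≤ f ω) (h1 : ∀ ω, f ω ≤ 1) {b : Bool} (h : pr (fun ω => ¬ IsB ε b (f ω)) ≤ δ) :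
    (b = true → 1 - δ - ε ≤ (∑ ω, f ω) / Fintype.card Ω) ∧
      (b = false → (∑ ω, f ω) / Fintype.card Ω ≤ δ + ε) := by
  classical
  have hc : (0 : ℝ) < Fintype.card Ω := by exact_mod_cast Fintype.card_pos
  constructor
  · rintro rfl
    rw [le_div_iff₀ hc]
    have h2 : ∀ ω, (1 - ε) - (if ¬ IsB ε true (f ω) then (1 : ℝ) else 0) ≤ f ω := by
      intro ω
      by_cases hb : IsB ε true (f ω)
      · rw [if_neg (by simpa using hb)]
        simp only [IsB, if_true] at hb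
        linarith
      · rw [if_pos hb]
        have := h0 ω
        linarith
    have h3 := Finset.sum_le_sum fun ω (_ : ω ∈ univ) => h2 ω
    rw [Finset.sum_sub_distrib] at h3
    unfold pr at h
    rw [div_le_iff₀ hc] at h
    simp only [Finset.sum_const, Finset.card_univ, nsmul_eq_mul] at h3
    have h4 : (∑ ω, if ¬ IsB ε true (f ω) then (1 : ℝ) else 0) =
        ∑ ω, @ite ℝ (¬ IsB ε true (f ω)) (Classical.propDecidable _) 1 0 :=
      Finset.sum_congr rfl fun ω _ => by split_ifs <;> rfl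
    rw [h4] at h3
    nlinarith
  · rintro rfl
    rw [div_le_iff₀ hc]
    have h2 : ∀ ω, f ω ≤ ε + (if ¬ IsB ε false (f ω) then (1 : ℝ) else 0) := by
      intro ω
      by_cases hb : IsB ε false (f ω)
      · rw [if_neg (by simpa using hb)]
        simp only [IsB, Bool.false_eq_true, if_false] at hb
        linarith
      · rw [if_pos hb]
        have := h1 ω
        linarith
    have h3 := Finset.sum_le_sum fun ω (_ : ω ∈ univ) => h2 ω
    rw [Finset.sum_add_distrib] at h3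
    unfold pr at h
    rw [div_le_iff₀ hc] at h
    simp only [Finset.sum_const, Finset.card_univ, nsmul_eq_mul] at h3
    have h4 : (∑ ω, if ¬ IsB ε false (f ω) then (1 : ℝ) else 0) =
        ∑ ω, @ite ℝ (¬ IsB ε false (f ω)) (Classical.propDecidable _) 1 0 :=
      Finset.sum_congr rfl fun ω _ => by split_ifs <;> rfl
    rw [h4] at h3
    nlinarith

/-- Bad table arguments: for some register in `Z` and some component, what is written is wrong on a
quarter of the pads. -/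
def BadM (I : Inst S r) (ε : ℝ) (x : Reg S → I.Site → ℝ) (Z : Finset Bool)
    (w : Bool → I.J → S.Cell) (M : I.V) : Prop :=
  1 / 4 ≤ pr (fun y : I.V => ∃ z ∈ Z, ∃ c : S.Comp,
    ¬ IsB ε (decide (I.enc (w z) c M = 1)) (x (.m z c) (M, y)))

/-- The register `z` is right at `σ` if its table argument is not bad. -/
theorem rt_of_not_bad {I : Inst S r} {X : Exp I} {τ : ℚ} {ε lam : ℝ} {x : Reg S → I.Site → ℝ}
    {Z : Finset Bool} {w : Bool → I.J → S.Cell} (hε : 0 ≤ ε) (hε' : ε < 1 / 100)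
    (h01 : ∀ ρ ω, 0 ≤ x ρ ω ∧ x ρ ω ≤ 1) {z : Bool} (hz : z ∈ Z) {σ : I.Site}
    (hrel : ∀ c, (net S r τ (.x z c)).Rel (I.sem X) ε lam x (.x z c) σ)
    (hp : ∀ c, |x (.p z c) σ - (∑ y : I.V, x (.m z c) (σ.1, y)) / Fintype.card I.V| ≤ 1 / 16)
    (hB : ¬ BadM I ε x Z w σ.1) :
    I.Rt ε x z (w z) σ := by
  intro c
  obtain ⟨r1, r2⟩ := hrel c
  have h2 := abs_le.1 (hp c)
  have h3 : pr (fun y : I.V => ¬ IsB ε (decide (I.enc (w z) c σ.1 = 1)) (x (.m z c) (σ.1, y))) ≤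
      1 / 4 := le_trans (pr_mono fun y hy => ⟨z, hz, c, hy⟩) (not_le.1 hB).le
  have h4 := mean_of_pr hε (fun y => (h01 (.m z c) (σ.1, y)).1)
    (fun y => (h01 (.m z c) (σ.1, y)).2) h3
  by_cases hb : I.enc (w z) c σ.1 = 1
  · have h5 := h4.1 (decide_eq_true hb)
    rw [decide_eq_true hb]
    apply r1
    push_cast
    linarith
  · have h5 := h4.2 (decide_eq_false hb)
    rw [decide_eq_false hb]
    apply r2
    push_cast
    linarith

/-! ### Sequences -/

section seq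

variable {I : ℕ → Inst S r} {ε : ℕ → ℝ} {x : ∀ n, Reg S → (I n).Site → ℝ} {Z : Finset Bool}
  {w : Bool → ∀ n, (I n).J → S.Cell}

open Filter in
/-- **Joint contraction**, for sequences. -/
theorem contraction_seq (U : Filter ℕ) {κ : Type*} [Fintype κ] (φ : κ → Phi S) (ρ' : ℝ)
    (hρ : 0 ≤ ρ') (hρ' : 64 * (2 ^ r * Fintype.card κ : ℝ) ^ 2 * ρ' ≤ 1 / 2)
    (hN : ∀ z ∈ Z, ∀ᶠ n in U, pr (fun σ => ¬ (I n).Rt (ε n) (x n) z (w z n) σ) ≤ ρ')
    (H : ∀ η > (0 : ℝ), ∀ᶠ n in U, pr (fun ω : (I n).Site =>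
      ¬ ((∀ z ∈ Z, ∀ p : Finset (Fin r) × κ,
        (I n).Rt (ε n) (x n) z (w z n) ((I n).rd (.cube p.1 (φ p.2)) ω)) →
      ∀ z ∈ Z, ∀ c, IsB (ε n) (decide ((I n).enc (w z n) c ω.1 = 1)) (x n (.m z c) ω))) < η)
    (hx : ∀ η > (0 : ℝ), ∀ᶠ n in U, pr (fun σ : (I n).Site =>
      ¬ BadM (I n) (ε n) (x n) Z (fun z => w z n) σ.1 ∧
        ∃ z ∈ Z, ¬ (I n).Rt (ε n) (x n) z (w z n) σ) < η) :
    ∀ η > (0 : ℝ), ∀ᶠ n in U, pr (fun M : (I n).V =>
      BadM (I n) (ε n) (x n) Z (fun z => w z n) M) < η := by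
  classical
  intro η hη
  set K : ℝ := 2 ^ r * Fintype.card κ with hK
  have hK0 : 0 ≤ K := by positivity
  -- all the sets are small
  have hη1 : (0 : ℝ) < 1 / (64 * (K + 1) ^ 2) := by positivity
  have hη2 : (0 : ℝ) < η / (16 * (K + 1)) := by positivity
  have h1 := H _ (lt_min hη1 hη2)
  have h2 := hx _ (lt_min hη1 hη2)
  have hN' : ∀ᶠ n in U, ∀ z ∈ Z, pr (fun σ => ¬ (I n).Rt (ε n) (x n) z (w z n) σ) ≤ ρ' := by
    rw [Filter.eventually_all_finset]
    exact hN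
  filter_upwards [h1, h2, hN'] with n h1 h2 h3
  set N1 : (I n).Site → Prop := fun ω => ¬ ((∀ z ∈ Z, ∀ p : Finset (Fin r) × κ,
        (I n).Rt (ε n) (x n) z (w z n) ((I n).rd (.cube p.1 (φ p.2)) ω)) →
      ∀ z ∈ Z, ∀ c, IsB (ε n) (decide ((I n).enc (w z n) c ω.1 = 1)) (x n (.m z c) ω)) with hN1
  set N2 : (I n).Site → Prop := fun σ =>
      ¬ BadM (I n) (ε n) (x n) Z (fun z => w z n) σ.1 ∧
        ∃ z ∈ Z, ¬ (I n).Rt (ε n) (x n) z (w z n) σ with hN2
  set B : (I n).V → Prop := BadM (I n) (ε n) (x n) Z (fun z => w z n) with hB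
  set W : (I n).Site → Prop := fun ω => ∃ z ∈ Z, ∃ c : S.Comp,
    ¬ IsB (ε n) (decide ((I n).enc (w z n) c ω.1 = 1)) (x n (.m z c) ω) with hW
  have e1 : pr N1 < 1 / (64 * (K + 1) ^ 2) := lt_of_lt_of_le h1 (min_le_left _ _)
  have e1' : pr N1 < η / (16 * (K + 1)) := lt_of_lt_of_le h1 (min_le_right _ _)
  have e2' : pr N2 < η / (16 * (K + 1)) := lt_of_lt_of_le h2 (min_le_right _ _)
  have f1 : ∀ M, B M → 1 / 4 ≤ pr (fun y : (I n).V => W (M, y)) := fun M hM => hM
  have f2 : ∀ ω, W ω → N1 ω ∨ ∃ p : Finset (Fin r) × κ,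
      ∃ z ∈ Z, ¬ (I n).Rt (ε n) (x n) z (w z n) ((I n).rd (.cube p.1 (φ p.2)) ω) := by
    intro ω hω
    by_cases g1 : N1 ω
    · exact Or.inl g1
    right
    by_contra g2
    have g4 := not_not.1 g1
    obtain ⟨z, hz, c, hc⟩ := hω
    refine hc (g4 (fun z hz p => ?_) z hz c)
    by_contra h
    exact g2 ⟨p, z, hz, h⟩
  -- first bound
  set G : (I n).Site → Prop := fun σ => ∃ z ∈ Z, ¬ (I n).Rt (ε n) (x n) z (w z n) σ with hG
  have g0 : pr G ≤ 2 * ρ' := by
    have := MLT.pr_union Z (fun z σ => ¬ (I n).Rt (ε n) (x n) z (w z n) σ) ρ' h3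
    refine le_trans this ?_
    have : (Z.card : ℝ) ≤ 2 := by
      have := Finset.card_le_univ Z
      simp at this
      exact_mod_cast this
    exact mul_le_mul_of_nonneg_right this hρ
  have g1 := (I n).contraction0 φ B W N1 G f1 f2
  rw [← hK] at g1
  have g2 : K * pr B ≤ 1 / 8 := by
    have a1 : pr B ≤ 4 * (1 / (64 * (K + 1) ^ 2) + K * (2 * ρ')) := by
      have : K * pr G ≤ K * (2 * ρ') := mul_le_mul_of_nonneg_left g0 hK0
      linarith
    have a2 : K * pr B ≤ K * (4 * (1 / (64 * (K + 1) ^ 2) + K * (2 * ρ'))) :=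
      mul_le_mul_of_nonneg_left a1 hK0
    have a3 : K * (1 / (64 * (K + 1) ^ 2)) ≤ 1 / 64 := by
      rw [mul_one_div, div_le_div_iff₀ (by positivity) (by norm_num)]
      nlinarith
    nlinarith
  -- second bound
  have f3 : ∀ ω, W ω → (N1 ω ∨ ∃ p : Finset (Fin r) × κ, N2 ((I n).rd (.cube p.1 (φ p.2)) ω)) ∨
      ∃ p : Finset (Fin r) × κ, B ((I n).rd (.cube p.1 (φ p.2)) ω).1 := by
    intro ω hω
    rcases f2 ω hω with h | ⟨p, h⟩
    · exact Or.inl (Or.inl h)
    · by_cases hb : B ((I n).rd (.cube p.1 (φ p.2)) ω).1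
      · exact Or.inr ⟨p, hb⟩
      · exact Or.inl (Or.inr ⟨p, hb, h⟩)
  have g3 := (I n).contraction φ B W _ f1 f3 (by rw [← hK]; exact g2)
  have g4 := pr_or N1 (fun ω => ∃ p : Finset (Fin r) × κ, N2 ((I n).rd (.cube p.1 (φ p.2)) ω))
  have g5 := (I n).pr_reads φ N2
  rw [← hK] at g5
  have g6 : pr N1 + K * pr N2 < η / 8 := by
    have a1 : K * pr N2 ≤ K * (η / (16 * (K + 1))) := mul_le_mul_of_nonneg_left e2'.le hK0
    have a2 : η / (16 * (K + 1)) + K * (η / (16 * (K + 1))) = η / 16 := by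
      field_simp
      ring
    linarith
  linarith

end seq

end Vale.Agent.P330.S
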