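import Vale.Agent.P330.S.Defs

/-!
# Almost all sites

Calculus of almost every site for a sequence of finite spaces `Ω n`, along an ultrafilter `U`
on `ℕ`.
-/

namespace Vale.Agent.P330.S

open Finset PCP.AR Filter Topology
open H855 (mean)

/-! ### The filter -/

section Gen

variable {U : Filter ℕ} {Ω Ω' : ℕ → Type} [∀ n, Fintype (Ω n)] [∀ n, Fintype (Ω' n)]

/-- Along `U`, almost every site: the probability of the complement tends to `0`. -/
def aef (U : Filter ℕ) (Ω : ℕ → Type) [∀ n, Fintype (Ω n)] : Filter (Σ n, Ω n) where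
  sets := {s | Tendsto (fun n => pr fun ω : Ω n => (⟨n, ω⟩ : Σ n, Ω n) ∉ s) U (𝓝 0)}
  univ_sets := by
    have h : (fun n => pr fun ω : Ω n => (⟨n, ω⟩ : Σ n, Ω n) ∉ (Set.univ : Set (Σ n, Ω n))) =
        fun _ => (0 : ℝ) := by
      funext n
      simp only [Set.mem_univ, not_true_eq_false]
      exact pr_false
    change Tendsto (fun n => pr fun ω : Ω n => (⟨n, ω⟩ : Σ n, Ω n) ∉
      (Set.univ : Set (Σ n, Ω n))) U (𝓝 0)
    rw [h]
    exact tendsto_const_nhds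
  sets_of_superset := by
    intro s t hs hst
    exact squeeze_zero (fun _ => pr_nonneg _) (fun _ => pr_mono fun _ hω h => hω (hst h)) hs
  inter_sets := by
    intro s t hs ht
    have h : Tendsto (fun n => pr (fun ω : Ω n => (⟨n, ω⟩ : Σ n, Ω n) ∉ s) +
        pr (fun ω : Ω n => (⟨n, ω⟩ : Σ n, Ω n) ∉ t)) U (𝓝 0) := by
      simpa using Tendsto.add hs ht
    refine squeeze_zero (fun n => pr_nonneg _) (fun n => ?_) h
    refine le_trans (pr_mono fun ω hω => ?_) (pr_or _ _)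
    by_contra hc
    push Not at hc
    exact hω hc

theorem ae_iff {P : (Σ n, Ω n) → Prop} :
    (∀ᶠ ω in aef U Ω, P ω) ↔ Tendsto (fun n => pr fun ω : Ω n => ¬ P ⟨n, ω⟩) U (𝓝 0) :=
  Iff.rfl

theorem ae_of_le {P : (Σ n, Ω n) → Prop} {b : ℕ → ℝ} (hb : Tendsto b U (𝓝 0))
    (h : ∀ᶠ n in U, pr (fun ω : Ω n => ¬ P ⟨n, ω⟩) ≤ b n) : ∀ᶠ ω in aef U Ω, P ω :=
  ae_iff.2 (squeeze_zero' (Eventually.of_forall fun n => pr_nonneg _) h hb)

theorem ae_of_small {P : (Σ n, Ω n) → Prop}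
    (h : ∀ η : ℝ, 0 < η → ∀ᶠ n in U, pr (fun ω : Ω n => ¬ P ⟨n, ω⟩) ≤ η) :
    ∀ᶠ ω in aef U Ω, P ω := by
  rw [ae_iff, Metric.tendsto_nhds]
  intro η hη
  filter_upwards [h (η / 2) (by linarith)] with n hn
  rw [Real.dist_eq, sub_zero, abs_of_nonneg (pr_nonneg _)]
  linarith

theorem ae_pr_lt {P : (Σ n, Ω n) → Prop} (h : ∀ᶠ ω in aef U Ω, P ω) {η : ℝ} (hη : 0 < η) :
    ∀ᶠ n in U, pr (fun ω : Ω n => ¬ P ⟨n, ω⟩) < η := by
  have h1 := Metric.tendsto_nhds.1 (ae_iff.1 h) η hη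
  filter_upwards [h1] with n hn
  rw [Real.dist_eq, sub_zero, abs_of_nonneg (pr_nonneg _)] at hn
  exact hn

theorem ae_of_base {P : (Σ n, Ω n) → Prop} (h : ∀ᶠ n in U, ∀ ω : Ω n, P ⟨n, ω⟩) :
    ∀ᶠ ω in aef U Ω, P ω := by
  refine ae_of_le (b := fun _ => 0) tendsto_const_nhds ?_
  filter_upwards [h] with n hn
  have : (fun ω : Ω n => ¬ P ⟨n, ω⟩) = fun _ => False := by
    funext ω
    simp [hn ω]
  rw [this, pr_false]

theorem ae_fst {Q : ℕ → Prop} (h : ∀ᶠ n in U, Q n) : ∀ᶠ ω in aef U Ω, Q ω.1 :=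
  ae_of_base (h.mono fun _ hn _ => hn)

theorem tendsto_fst : Tendsto (fun ω : Σ n, Ω n => ω.1) (aef U Ω) U :=
  fun _ h => ae_fst h

theorem base_of_ae [∀ n, Nonempty (Ω n)] {Q : ℕ → Prop} (h : ∀ᶠ ω in aef U Ω, Q ω.1) :
    ∀ᶠ n in U, Q n := by
  filter_upwards [ae_pr_lt h one_pos] with n hn
  by_contra hc
  have : (fun _ : Ω n => ¬ Q n) = fun _ => True := by
    funext ω
    simp [hc]
  rw [this, pr_true] at hn
  exact lt_irrefl _ hn

/-- A good site exists for `U`-almost all `n`. -/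
theorem exists_of_ae [∀ n, Nonempty (Ω n)] {P : (Σ n, Ω n) → Prop} (h : ∀ᶠ ω in aef U Ω, P ω) :
    ∀ᶠ n in U, ∃ ω : Ω n, P ⟨n, ω⟩ := by
  filter_upwards [ae_pr_lt h one_pos] with n hn
  obtain ⟨ω, hω⟩ := exists_of_pr_lt_one hn
  exact ⟨ω, not_not.1 hω⟩

instance aef_neBot [∀ n, Nonempty (Ω n)] [U.NeBot] : (aef U Ω).NeBot := by
  rw [← Filter.map_neBot_iff (fun ω : Σ n, Ω n => ω.1)]
  refine ⟨fun h => ?_⟩
  have h1 : ∀ᶠ ω in aef U Ω, (fun _ => False) ω.1 := by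
    have : (∅ : Set ℕ) ∈ map (fun ω : Σ n, Ω n => ω.1) (aef U Ω) := by rw [h]; trivial
    exact this
  have h2 := base_of_ae (Q := fun _ => False) h1
  exact (Filter.NeBot.ne ‹U.NeBot›) (Filter.empty_mem_iff_bot.1 h2)

/-- Maps that do not increase probabilities by more than a factor. -/
theorem ae_map {φ : ∀ n, Ω n → Ω' n} (C : ℝ)
    (hφ : ∀ n (p : Ω' n → Prop), pr (fun ω => p (φ n ω)) ≤ C * pr p) :
    Tendsto (fun ω : Σ n, Ω n => (⟨ω.1, φ ω.1 ω.2⟩ : Σ n, Ω' n)) (aef U Ω) (aef U Ω') := by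
  intro s hs
  have hs' : Tendsto (fun n => pr fun ω : Ω' n => (⟨n, ω⟩ : Σ n, Ω' n) ∉ s) U (𝓝 0) := hs
  have h : Tendsto (fun n => C * pr fun ω : Ω' n => (⟨n, ω⟩ : Σ n, Ω' n) ∉ s) U (𝓝 0) := by
    simpa using hs'.const_mul C
  exact squeeze_zero (fun n => pr_nonneg _)
    (fun n => hφ n fun ω' => (⟨n, ω'⟩ : Σ n, Ω' n) ∉ s) h

theorem ae_map_bij {φ : ∀ n, Ω n → Ω' n} (hφ : ∀ n, Function.Bijective (φ n)) :
    Tendsto (fun ω : Σ n, Ω n => (⟨ω.1, φ ω.1 ω.2⟩ : Σ n, Ω' n)) (aef U Ω) (aef U Ω') :=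
  ae_map 1 fun n p => by
    rw [one_mul]
    exact le_of_eq (pr_equiv (Equiv.ofBijective (φ n) (hφ n)) p)

end Gen

/-! ### Averages -/

section Mean

variable {V W : Type*} [Fintype V] [Fintype W]

theorem mean_nonneg {f : V → ℝ} (h : ∀ v, 0 ≤ f v) : 0 ≤ mean f :=
  div_nonneg (Finset.sum_nonneg fun v _ => h v) (Nat.cast_nonneg _)

theorem mean_mono {f g : V → ℝ} (h : ∀ v, f v ≤ g v) : mean f ≤ mean g :=
  div_le_div_of_nonneg_right (Finset.sum_le_sum fun v _ => h v) (Nat.cast_nonneg _)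

theorem mean_const [Nonempty V] (c : ℝ) : mean (fun _ : V => c) = c := by
  unfold mean
  rw [Finset.sum_const, card_univ, nsmul_eq_mul]
  field_simp

theorem mean_le_one [Nonempty V] {f : V → ℝ} (h : ∀ v, f v ≤ 1) : mean f ≤ 1 :=
  (mean_mono h).trans (mean_const 1).le

theorem mean_add (f g : V → ℝ) : mean (fun v => f v + g v) = mean f + mean g := by
  unfold mean
  rw [Finset.sum_add_distrib, add_div]

theorem mean_mul_left (c : ℝ) (f : V → ℝ) : mean (fun v => c * f v) = c * mean f := by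
  unfold mean
  rw [← Finset.mul_sum, mul_div_assoc]

open Classical in
theorem pr_eq_mean (p : V → Prop) : pr p = mean fun v => if p v then (1 : ℝ) else 0 := by
  unfold pr mean
  rfl

/-- The mean of the means over the fibres. -/
theorem mean_prod [Nonempty W] (f : V × W → ℝ) : mean f = mean fun v => mean fun w => f (v, w) := by
  unfold mean
  rw [Fintype.sum_prod_type, Fintype.card_prod, ← Finset.sum_div, div_div]
  congr 1
  push_cast
  ring

/-- A function that is within `η` of `g` off an event of probability `b` has nearly the same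
mean. -/
theorem abs_mean_sub_le [Nonempty V] {f g : V → ℝ} {η : ℝ} (hη : 0 ≤ η)
    (hf : ∀ v, 0 ≤ f v ∧ f v ≤ 1) (hg : ∀ v, 0 ≤ g v ∧ g v ≤ 1) :
    |mean f - mean g| ≤ η + pr fun v => ¬ |f v - g v| ≤ η := by
  classical
  obtain ⟨q, hq⟩ : ∃ q : V → Prop, ∀ v, (¬ |f v - g v| ≤ η) ↔ q v := ⟨_, fun _ => Iff.rfl⟩
  rw [pr_congr hq, pr_eq_mean, ← H855.mean_sub]
  have h1 : ∀ v, |f v - g v| ≤ η + (if q v then (1 : ℝ) else 0) := by
    intro v
    split_ifs with h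
    · have h2 := hf v
      have h3 := hg v
      have : |f v - g v| ≤ 1 := abs_le.2 ⟨by linarith, by linarith⟩
      linarith
    · rw [← hq, not_not] at h
      linarith
  have h2 : |mean fun v => f v - g v| ≤ mean fun v => |f v - g v| := by
    unfold mean
    rw [abs_div, abs_of_nonneg (Nat.cast_nonneg (Fintype.card V) : (0 : ℝ) ≤ _)]
    exact div_le_div_of_nonneg_right (Finset.abs_sum_le_sum_abs _ _) (Nat.cast_nonneg _)
  refine h2.trans ((mean_mono h1).trans ?_)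
  rw [mean_add, mean_const]

/-- Markov: a function with values in `[0, 1]` which is at least `c` on `p`. -/
theorem mul_pr_le_mean {f : V → ℝ} {p : V → Prop} {c : ℝ} (hf : ∀ v, 0 ≤ f v)
    (h : ∀ v, p v → c ≤ f v) : c * pr p ≤ mean f := by
  classical
  rw [pr_eq_mean, ← mean_mul_left]
  refine mean_mono fun v => ?_
  split_ifs with hv
  · simpa using h v hv
  · simpa using hf v

/-- Markov on the fibres of a product. -/
theorem pr_fiber [Nonempty W] (P : V × W → Prop) (c : ℝ) :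
    c * pr (fun v => c ≤ pr fun w => P (v, w)) ≤ pr P := by
  classical
  rw [PCP.AR.pr_prod]
  exact mul_pr_le_mean (f := fun v => pr fun w => P (v, w)) (fun v => pr_nonneg _) fun v hv => hv

theorem mean_equiv (e : V ≃ W) (f : W → ℝ) : mean (fun v => f (e v)) = mean f := by
  unfold mean
  rw [Fintype.card_congr e, Equiv.sum_comp e f]

end Mean

section MeanLim

variable {U : Filter ℕ} {Ω : ℕ → Type} [∀ n, Fintype (Ω n)] [∀ n, Nonempty (Ω n)]

/-- Functions that are close at almost all sites have the same limits of means. -/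
theorem tendsto_mean_sub {f g : (Σ n, Ω n) → ℝ} (hf : ∀ ω, 0 ≤ f ω ∧ f ω ≤ 1)
    (hg : ∀ ω, 0 ≤ g ω ∧ g ω ≤ 1) (h : ∀ η : ℝ, 0 < η → ∀ᶠ ω in aef U Ω, |f ω - g ω| ≤ η) :
    Tendsto (fun n => mean (fun ω : Ω n => f ⟨n, ω⟩) - mean (fun ω : Ω n => g ⟨n, ω⟩)) U (𝓝 0) := by
  rw [Metric.tendsto_nhds]
  intro η hη
  filter_upwards [ae_pr_lt (h (η / 2) (by linarith)) (half_pos hη)] with n hn
  rw [Real.dist_eq, sub_zero]
  have h1 := abs_mean_sub_le (f := fun ω : Ω n => f ⟨n, ω⟩) (g := fun ω : Ω n => g ⟨n, ω⟩)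
    (η := η / 2) (by linarith) (fun ω => hf _) (fun ω => hg _)
  linarith

/-- Almost all fibres of an almost sure event are almost sure. -/
theorem ae_fiber {A B : ℕ → Type} [∀ n, Fintype (A n)] [∀ n, Fintype (B n)]
    [∀ n, Nonempty (B n)] {P : (Σ n, A n × B n) → Prop}
    (h : ∀ᶠ ω in aef U fun n => A n × B n, P ω) {c : ℝ} (hc : 0 < c) :
    ∀ᶠ a in aef U A, pr (fun b : B a.1 => ¬ P ⟨a.1, (a.2, b)⟩) < c := by
  refine ae_of_small fun η hη => ?_
  filter_upwards [ae_pr_lt h (mul_pos hc hη)] with n hn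
  have h1 := pr_fiber (fun p : A n × B n => ¬ P ⟨n, p⟩) c
  have h2 : pr (fun a : A n => ¬ pr (fun b : B n => ¬ P ⟨n, (a, b)⟩) < c) =
      pr (fun a : A n => c ≤ pr fun b : B n => ¬ P ⟨n, (a, b)⟩) :=
    pr_congr fun a => not_lt
  rw [h2]
  by_contra hcon
  push Not at hcon
  have := mul_lt_mul_of_pos_left hcon hc
  linarith

theorem ae_prod_fst {A B : ℕ → Type} [∀ n, Fintype (A n)] [∀ n, Fintype (B n)]
    [∀ n, Nonempty (A n)] [∀ n, Nonempty (B n)] {P : (Σ n, A n) → Prop} :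
    (∀ᶠ ω in aef U fun n => A n × B n, P ⟨ω.1, ω.2.1⟩) ↔ ∀ᶠ a in aef U A, P a := by
  rw [ae_iff, ae_iff]
  have h : ∀ n, pr (fun ω : A n × B n => ¬ P ⟨n, ω.1⟩) = pr (fun a : A n => ¬ P ⟨n, a⟩) :=
    fun n => pr_fst fun a : A n => ¬ P ⟨n, a⟩
  simp only [h]

theorem ae_prod_snd {A B : ℕ → Type} [∀ n, Fintype (A n)] [∀ n, Fintype (B n)]
    [∀ n, Nonempty (A n)] [∀ n, Nonempty (B n)] {P : (Σ n, B n) → Prop} :
    (∀ᶠ ω in aef U fun n => A n × B n, P ⟨ω.1, ω.2.2⟩) ↔ ∀ᶠ a in aef U B, P a := by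
  rw [ae_iff, ae_iff]
  have h : ∀ n, pr (fun ω : A n × B n => ¬ P ⟨n, ω.2⟩) = pr (fun a : B n => ¬ P ⟨n, a⟩) :=
    fun n => pr_snd fun a : B n => ¬ P ⟨n, a⟩
  simp only [h]

end MeanLim

/-! ### Reads are bijections -/

theorem Inst.rd_bij {S : Spec} {r : ℕ} (I : Inst S r) (R : Rd S r) :
    Function.Bijective (I.rd R) := by
  refine Finite.injective_iff_bijective.1 ?_
  cases R with
  | self => exact fun _ _ h => h
  | cube A φ =>
    rintro ⟨M, z⟩ ⟨M', z'⟩ h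
    have h2 : M = M' := (Prod.ext_iff.1 h).2
    subst h2
    have h1 : MLT.cp A (I.phi φ M) z = MLT.cp A (I.phi φ M) z' := (Prod.ext_iff.1 h).1
    refine Prod.ext rfl (funext fun i => ?_)
    have h3 := congrFun h1 i
    unfold MLT.cp at h3
    split_ifs at h3 with hi
    · exact add_left_cancel h3
    · exact h3
  | b1 i =>
    rintro ⟨M, z⟩ ⟨M', z'⟩ h
    have h1 : Function.update M i (z i) = Function.update M' i (z' i) := (Prod.ext_iff.1 h).1
    have h2 : Function.update z i (M i) = Function.update z' i (M' i) := (Prod.ext_iff.1 h).2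
    refine Prod.ext (funext fun j => ?_) (funext fun j => ?_)
    · by_cases hj : j = i
      · subst hj
        have := congrFun h2 j
        rwa [Function.update_self, Function.update_self] at this
      · have := congrFun h1 j
        rwa [Function.update_of_ne hj, Function.update_of_ne hj] at this
    · by_cases hj : j = i
      · subst hj
        have := congrFun h1 j
        rwa [Function.update_self, Function.update_self] at this
      · have := congrFun h2 j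
        rwa [Function.update_of_ne hj, Function.update_of_ne hj] at this
  | b2 i =>
    rintro ⟨M, z⟩ ⟨M', z'⟩ h
    have h1 : Function.update M i (M i + z i) = Function.update M' i (M' i + z' i) :=
      (Prod.ext_iff.1 h).1
    have h2 : z = z' := (Prod.ext_iff.1 h).2
    subst h2
    refine Prod.ext (funext fun j => ?_) rfl
    have h3 := congrFun h1 j
    by_cases hj : j = i
    · subst hj
      rw [Function.update_self, Function.update_self] at h3
      exact add_right_cancel h3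
    · rwa [Function.update_of_ne hj, Function.update_of_ne hj] at h3

/-! ### Limits of bounded sequences -/

theorem exists_lim (U : Ultrafilter ℕ) {f : ℕ → ℝ} (h : ∀ n, 0 ≤ f n ∧ f n ≤ 1) :
    ∃ a, (0 ≤ a ∧ a ≤ 1) ∧ Tendsto f U (𝓝 a) := by
  have h1 : (↑(U.map f) : Filter ℝ) ≤ 𝓟 (Set.Icc 0 1) := by
    rw [Filter.le_principal_iff]
    exact Filter.mem_map.2 (Filter.univ_mem' fun n => ⟨(h n).1, (h n).2⟩)
  obtain ⟨a, ha, ha'⟩ := (isCompact_Icc (a := (0 : ℝ)) (b := 1)).ultrafilter_le_nhds _ h1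
  exact ⟨a, ⟨ha.1, ha.2⟩, ha'⟩

open Classical in
theorem pr_eq_card {V : Type*} [Fintype V] (p : V → Prop) :
    pr p = ((univ.filter p).card : ℝ) / Fintype.card V := by
  unfold pr
  rw [Finset.sum_boole]

/-! ### The resolvent averages -/

section RA

variable {V : Type} [Fintype V] [Nonempty V]

/-- Averaging over all sites `(M, z)`. -/
theorem ra_glob_pr {s : Fin 4 → V ≃ V} (hs : H855.Gap s (73 / 80)) {nb : Fin 8 → V × V → V × V}
    (hnb : ∀ k ω, nb k ω = if h : (k : ℕ) < 4 then (ω.1, s ⟨k, h⟩ ω.2)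
      else (s ⟨k - 4, by omega⟩ ω.1, ω.2))
    {w b : V × V → ℝ} (hw : ∀ ω, 0 ≤ w ω ∧ w ω ≤ 1) (hb : ∀ ω, 0 ≤ b ω ∧ b ω ≤ 1)
    {l ε β η : ℝ} (hl : 0 < l) (hl1 : l ≤ 1) (hε : 0 ≤ ε) (hη0 : 0 < η)
    (h : pr (fun ω => ¬ |w ω - ((1 - l) * ((∑ k : Fin 8, w (nb k ω)) / 8) + l * b ω)| ≤ ε) ≤ β)
    (hη : 2 * (β + ε) ≤ η * l) :
    pr (fun ω => η < |w ω - mean b|) ≤
      8 / (1 - (1 + 73 / 80) / 2) ^ 2 * ((l ^ 2 + β + ε ^ 2) / η ^ 2) := by
  classical
  have hN : (0 : ℝ) < Fintype.card (V × V) := by exact_mod_cast Fintype.card_pos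
  have havg : ∀ ω, H855.avg (H855.prodPerm s s) w ω = (∑ k : Fin 8, w (nb k ω)) / 8 := by
    intro ω
    unfold H855.avg
    rw [Fintype.card_sum, Fintype.card_fin, Fintype.sum_sum_type, Fin.sum_univ_eight,
      Fin.sum_univ_four, Fin.sum_univ_four]
    have e : ∀ k : Fin 8, w (nb k ω) = w (if h : (k : ℕ) < 4 then (ω.1, s ⟨k, h⟩ ω.2)
      else (s ⟨k - 4, by omega⟩ ω.1, ω.2)) := fun k => by rw [hnb]
    simp only [e]
    have e2 : ((4 + 4 : ℕ) : ℝ) = 8 := by norm_num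
    rw [e2]
    congr 1
    have f0 : ∀ j, H855.prodPerm s s (Sum.inl j) ω = (s j ω.1, ω.2) := fun j => rfl
    have f1 : ∀ j, H855.prodPerm s s (Sum.inr j) ω = (ω.1, s j ω.2) := fun j => rfl
    simp only [f0, f1]
    simp
    ring
  set B : Finset (V × V) := univ.filter fun ω =>
    ¬ |w ω - ((1 - l) * ((∑ k : Fin 8, w (nb k ω)) / 8) + l * b ω)| ≤ ε with hB
  have hBc : (B.card : ℝ) ≤ β * Fintype.card (V × V) := by
    have h1 := h
    rw [pr_eq_card, div_le_iff₀ hN] at h1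
    refine le_trans (le_of_eq ?_) h1
    rw [hB]
    congr!
  have h2 := H855.resolvent (w := w) (b := b) (H855.gap_prod hs hs) (by norm_num) (by norm_num)
    hl hl1 hε hw hb B hBc (fun z hz => by
      rw [hB, mem_filter] at hz
      rw [havg]
      by_contra hc
      exact hz ⟨mem_univ _, hc⟩) hη hη0
  rw [pr_eq_card, div_le_iff₀ hN]
  refine le_trans (le_of_eq ?_) h2
  congr!

/-- Averaging over the pads `z`, for every `M`. -/
theorem ra_pad_pr {s : Fin 4 → V ≃ V} (hs : H855.Gap s (73 / 80))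
    {w b : V × V → ℝ} (hw : ∀ ω, 0 ≤ w ω ∧ w ω ≤ 1) (hb : ∀ ω, 0 ≤ b ω ∧ b ω ≤ 1)
    {l ε β δ η : ℝ} (hl : 0 < l) (hl1 : l ≤ 1) (hε : 0 ≤ ε) (hη0 : 0 < η) (hδ : 0 < δ)
    (h : pr (fun ω : V × V => ¬ |w ω - ((1 - l) * ((w (ω.1, s 0 ω.2) + w (ω.1, s 1 ω.2) +
      w (ω.1, s 2 ω.2) + w (ω.1, s 3 ω.2)) / 4) + l * b ω)| ≤ ε) ≤ β)
    (hη : 2 * (δ + ε) ≤ η * l) :
    pr (fun ω : V × V => η < |w ω - mean fun z => b (ω.1, z)|) ≤
      8 / (1 - 73 / 80) ^ 2 * ((l ^ 2 + δ + ε ^ 2) / η ^ 2) + β / δ := by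
  classical
  have hN : (0 : ℝ) < Fintype.card V := by exact_mod_cast Fintype.card_pos
  have hN2 : (0 : ℝ) < Fintype.card (V × V) := by exact_mod_cast Fintype.card_pos
  have hcard : ((Fintype.card (V × V) : ℕ) : ℝ) = Fintype.card V * Fintype.card V := by
    rw [Fintype.card_prod]; push_cast; ring
  have havg : ∀ z y, H855.avg s (fun z' => w (y, z')) z = (w (y, s 0 z) + w (y, s 1 z) +
      w (y, s 2 z) + w (y, s 3 z)) / 4 := by
    intro z y
    unfold H855.avg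
    rw [Fintype.card_fin, Fin.sum_univ_four]
    norm_num
  have hsw := pr_equiv (Equiv.prodComm V V) (fun ω : V × V => ¬ |w ω - ((1 - l) *
    ((w (ω.1, s 0 ω.2) + w (ω.1, s 1 ω.2) + w (ω.1, s 2 ω.2) + w (ω.1, s 3 ω.2)) / 4) +
      l * b ω)| ≤ ε)
  rw [← hsw] at h
  simp only [Equiv.prodComm_apply, Prod.fst_swap, Prod.snd_swap] at h
  set B : Finset (V × V) := univ.filter fun p => ¬ |w p.swap - ((1 - l) *
    ((w (p.2, s 0 p.1) + w (p.2, s 1 p.1) + w (p.2, s 2 p.1) + w (p.2, s 3 p.1)) / 4) +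
      l * b p.swap)| ≤ ε with hB
  have hBc : (B.card : ℝ) ≤ β * (Fintype.card V * Fintype.card V) := by
    have h1 := h
    rw [pr_eq_card, div_le_iff₀ hN2, hcard] at h1
    refine le_trans (le_of_eq ?_) h1
    rw [hB]
    congr!
  have h2 := H855.resolvent_prod (w := fun z y => w (y, z)) (b := fun z y => b (y, z)) hs
    (by norm_num) (by norm_num) hl hl1 hε hδ (fun z y => hw _) (fun z y => hb _) B hBc
    (fun z y hz => by
      rw [hB, mem_filter] at hz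
      rw [havg]
      by_contra hc
      exact hz ⟨mem_univ _, hc⟩) hη hη0
  have hsw2 := pr_equiv (Equiv.prodComm V V) (fun ω : V × V => η < |w ω - mean fun z => b (ω.1, z)|)
  rw [← hsw2, pr_eq_card, div_le_iff₀ hN2, hcard]
  refine le_trans (le_of_eq ?_) h2
  simp only [Equiv.prodComm_apply, Prod.fst_swap]
  congr!

end RA

/-! ### Sequences of networks -/

section Lim

variable {S : Spec} {r : ℕ}

/-- A sequence of networks with smaller and smaller errors, and an ultrafilter. -/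
structure Lim (S : Spec) (r : ℕ) where
  U : Ultrafilter ℕ
  I : ℕ → Inst S r
  X : ∀ n, Exp (I n)
  τ : ℚ
  ε : ℕ → ℝ
  lam : ℕ → ℝ
  β : ℕ → ℝ
  x : ∀ n, Reg S → (I n).Site → ℝ
  facts : ∀ n, Facts (I n)
  obeys : ∀ n, Obeys (I n) (X n) τ (ε n) (lam n) (β n) (x n)
  ε_pos : ∀ n, 0 < ε n
  ε_lt : ∀ n, ε n < 1 / 100
  ε_lim : Tendsto ε U (𝓝 0)
  β_lim : Tendsto β U (𝓝 0)
  lam_pos : ∀ n, 0 < lam n
  lam_lt : ∀ n, lam n < 1
  lam_lim : Tendsto lam U (𝓝 0)
  ε_lam : Tendsto (fun n => ε n / lam n) U (𝓝 0)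
  β_lam : Tendsto (fun n => β n / lam n) U (𝓝 0)

namespace Lim

variable (A : Lim S r)

/-- sites of all networks -/
abbrev Pt : Type := Σ n, (A.I n).Site

/-- almost all sites -/
abbrev F : Filter A.Pt := aef A.U fun n => (A.I n).Site

/-- almost all table arguments -/
abbrev FV : Filter (Σ n, (A.I n).V) := aef A.U fun n => (A.I n).V

/-- the value of a register at a site -/
abbrev v (ρ : Reg S) (ω : A.Pt) : ℝ := A.x ω.1 ρ ω.2

/-- the site read -/
def rd (R : Rd S r) (ω : A.Pt) : A.Pt := ⟨ω.1, (A.I ω.1).rd R ω.2⟩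

/-- At almost all sites the register `ρ` has the pure value `b`. -/
def Is (b : A.Pt → Bool) (ρ : Reg S) : Prop := ∀ᶠ ω in A.F, IsB (A.ε ω.1) (b ω) (A.v ρ ω)

/-- the pad mean of a register -/
noncomputable def pm (ρ : Reg S) (ω : A.Pt) : ℝ := mean fun z => A.x ω.1 ρ (ω.2.1, z)

variable {A}

theorem v_mem (ρ : Reg S) (ω : A.Pt) : 0 ≤ A.v ρ ω ∧ A.v ρ ω ≤ 1 := (A.obeys ω.1).1 ρ ω.2

theorem ae_rd {P : A.Pt → Prop} (h : ∀ᶠ ω in A.F, P ω) (R : Rd S r) :
    ∀ᶠ ω in A.F, P (A.rd R ω) :=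
  (ae_map_bij fun n => (A.I n).rd_bij R).eventually h

/-- Almost all sites obey the network. -/
theorem rel (ρ : Reg S) : ∀ᶠ ω in A.F,
    (net S r A.τ ρ).Rel ((A.I ω.1).sem (A.X ω.1)) (A.ε ω.1) (A.lam ω.1) (A.x ω.1) ρ ω.2 :=
  ae_of_le A.β_lim (Eventually.of_forall fun n => (A.obeys n).2 ρ)

/-- what is known of an input of a bit -/
def Known (K : A.Pt → Option Bool) : (Rd S r × Reg S) ⊕ CB S → Prop
  | .inl p => ∀ᶠ ω in A.F, ∀ b, K ω = some b → IsB (A.ε ω.1) b (A.v p.2 (A.rd p.1 ω))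
  | .inr κ => ∀ᶠ ω in A.F, ∀ b, K ω = some b → (A.I ω.1).cb κ ω.2 = b

/-- **Bits**: the register has the pure value `b` if this is forced by what is known of the
inputs. -/
theorem is_bit {ρ : Reg S} {B : BitDef (Reg S) (Rd S r) (CB S)}
    (hB : net S r A.τ ρ = .bit B) {b : A.Pt → Bool} (K : B.ι → A.Pt → Option Bool)
    (hK : ∀ i, Known (K i) (B.inp i))
    (hf : ∀ᶠ ω in A.F, ∀ y : B.ι → Bool, (∀ i c, K i ω = some c → y i = c) → B.f y = b ω) :
    A.Is b ρ := by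
  have h1 := A.rel ρ
  have := B.fι
  have h2 : ∀ᶠ ω in A.F, ∀ i : B.ι, ∀ y : B.ι → Bool,
      (Sum.elim (fun p => ∀ b', IsB (A.ε ω.1) b' (A.x ω.1 p.2 (((A.I ω.1).sem (A.X ω.1)).rd p.1 ω.2)) →
        y i = b') (fun κ => y i = ((A.I ω.1).sem (A.X ω.1)).cb κ ω.2) (B.inp i)) →
      ∀ c, K i ω = some c → y i = c := by
    rw [eventually_all]
    intro i
    have h3 := hK i
    rcases hi : B.inp i with p | κ
    · rw [hi] at h3
      filter_upwards [h3] with ω hω y hy c hc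
      exact hy c (hω c hc)
    · rw [hi] at h3
      filter_upwards [h3] with ω hω y hy c hc
      exact Eq.trans hy (hω c hc)
  filter_upwards [h1, h2, hf] with ω g1 g2 g3
  rw [hB] at g1
  exact g1 (b ω) fun y hy => g3 y fun i c hc => g2 i y (hy i) c hc

variable (A)

theorem exists_av (ρ : Reg S) : ∃ a, (0 ≤ a ∧ a ≤ 1) ∧
    Tendsto (fun n => mean (A.x n ρ)) A.U (𝓝 a) :=
  exists_lim A.U fun n => ⟨mean_nonneg fun ω => ((A.obeys n).1 ρ ω).1,
    mean_le_one fun ω => ((A.obeys n).1 ρ ω).2⟩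

/-- the limit of the averages of a register -/
noncomputable def av (ρ : Reg S) : ℝ := (A.exists_av ρ).choose

theorem av_mem (ρ : Reg S) : 0 ≤ A.av ρ ∧ A.av ρ ≤ 1 := (A.exists_av ρ).choose_spec.1

theorem tendsto_av (ρ : Reg S) : Tendsto (fun n => mean (A.x n ρ)) A.U (𝓝 (A.av ρ)) :=
  (A.exists_av ρ).choose_spec.2

variable {A}

theorem pm_mem (ρ : Reg S) (ω : A.Pt) : 0 ≤ A.pm ρ ω ∧ A.pm ρ ω ≤ 1 :=
  ⟨mean_nonneg fun _ => ((A.obeys ω.1).1 ρ _).1, mean_le_one fun _ => ((A.obeys ω.1).1 ρ _).2⟩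

theorem glob_eq {ρ ρ' : Reg S} (h : net S r A.τ ρ = .ra true ρ') (n : ℕ) :
    pr (fun ω : (A.I n).Site => ¬ |A.x n ρ ω - ((1 - A.lam n) *
      ((∑ k : Fin 8, A.x n ρ (((A.I n).sem (A.X n)).nb k ω)) / 8) + A.lam n * A.x n ρ' ω)| ≤
        20 * A.ε n) ≤ A.β n := by
  have h1 := (A.obeys n).2 ρ
  rw [h] at h1
  exact h1

theorem pad_eq {ρ ρ' : Reg S} (h : net S r A.τ ρ = .ra false ρ') (n : ℕ) :
    pr (fun ω : (A.I n).Site => ¬ |A.x n ρ ω - ((1 - A.lam n) *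
      ((A.x n ρ (ω.1, (A.X n).s 0 ω.2) + A.x n ρ (ω.1, (A.X n).s 1 ω.2) +
        A.x n ρ (ω.1, (A.X n).s 2 ω.2) + A.x n ρ (ω.1, (A.X n).s 3 ω.2)) / 4) +
        A.lam n * A.x n ρ' ω)| ≤ 20 * A.ε n) ≤ A.β n := by
  have h1 := (A.obeys n).2 ρ
  rw [h] at h1
  exact h1

/-- the error terms tend to `0` -/
theorem tendsto_err (C η : ℝ) : Tendsto (fun n => C * ((A.lam n ^ 2 + A.β n + (20 * A.ε n) ^ 2) /
    η ^ 2)) A.U (𝓝 0) := by
  have h : Tendsto (fun n => C * ((A.lam n ^ 2 + A.β n + (20 * A.ε n) ^ 2) / η ^ 2)) A.U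
      (𝓝 (C * ((0 ^ 2 + 0 + (20 * 0) ^ 2) / η ^ 2))) :=
    ((((A.lam_lim.pow 2).add A.β_lim).add ((A.ε_lim.const_mul 20).pow 2)).div_const _).const_mul C
  simpa using h

/-- **Global averages**: at almost all sites the register is close to the limit of the averages. -/
theorem ra_true {ρ ρ' : Reg S} (h : net S r A.τ ρ = .ra true ρ') {η : ℝ} (hη : 0 < η) :
    ∀ᶠ ω in A.F, |A.v ρ ω - A.av ρ'| < η := by
  have h1 : ∀ᶠ ω in A.F, ¬ η / 2 < |A.v ρ ω - mean (A.x ω.1 ρ')| := by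
    refine ae_of_le (tendsto_err (A := A) (8 / (1 - (1 + 73 / 80) / 2) ^ 2) (η / 2)) ?_
    have e1 : ∀ᶠ n in A.U, A.β n / A.lam n < η / 80 :=
      (A.β_lam.eventually (gt_mem_nhds (by positivity : (0 : ℝ) < η / 80)))
    have e2 : ∀ᶠ n in A.U, A.ε n / A.lam n < η / 400 :=
      (A.ε_lam.eventually (gt_mem_nhds (by positivity : (0 : ℝ) < η / 400)))
    filter_upwards [e1, e2] with n hn1 hn2
    rw [div_lt_iff₀ (A.lam_pos n)] at hn1 hn2
    have := ra_glob_pr (A.X n).gap (nb := ((A.I n).sem (A.X n)).nb) (fun k ω => rfl)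
      (w := A.x n ρ) (b := A.x n ρ') ((A.obeys n).1 ρ) ((A.obeys n).1 ρ') (A.lam_pos n)
      (A.lam_lt n).le (ε := 20 * A.ε n) (by have := A.ε_pos n; linarith) (half_pos hη)
      (glob_eq h n) (by nlinarith [A.lam_pos n])
    refine le_trans (le_of_eq (pr_congr fun ω => ?_)) this
    exact not_not
  have h2 : ∀ᶠ ω in A.F, |mean (A.x ω.1 ρ') - A.av ρ'| < η / 2 := by
    have h3 : ∀ᶠ n in (A.U : Filter ℕ), |mean (A.x n ρ') - A.av ρ'| < η / 2 := by
      filter_upwards [Metric.tendsto_nhds.1 (A.tendsto_av ρ') (η / 2) (by linarith)] with n hn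
      rwa [Real.dist_eq] at hn
    exact ae_fst (Ω := fun n => (A.I n).Site)
      (Q := fun n => |mean (A.x n ρ') - A.av ρ'| < η / 2) h3
  filter_upwards [h1, h2] with ω g1 g2
  push Not at g1
  have := abs_sub_le (A.v ρ ω) (mean (A.x ω.1 ρ')) (A.av ρ')
  linarith

/-- **Averages over the pads.** -/
theorem ra_false {ρ ρ' : Reg S} (h : net S r A.τ ρ = .ra false ρ') {η : ℝ} (hη : 0 < η) :
    ∀ᶠ ω in A.F, |A.v ρ ω - A.pm ρ' ω| < η := by
  have h1 : ∀ᶠ ω in A.F, ¬ η / 2 < |A.v ρ ω - A.pm ρ' ω| := by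
    have e0 : Tendsto (fun n => 8 / (1 - 73 / 80) ^ 2 * ((A.lam n ^ 2 + A.lam n * (η / 16) +
        (20 * A.ε n) ^ 2) / (η / 2) ^ 2) + A.β n / (A.lam n * (η / 16))) A.U (𝓝 0) := by
      have a1 : Tendsto (fun n => A.β n / A.lam n / (η / 16)) A.U (𝓝 (0 / (η / 16))) :=
        A.β_lam.div_const _
      have a2 : Tendsto (fun n => 8 / (1 - 73 / 80) ^ 2 * ((A.lam n ^ 2 + A.lam n * (η / 16) +
        (20 * A.ε n) ^ 2) / (η / 2) ^ 2) + A.β n / A.lam n / (η / 16)) A.U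
        (𝓝 (8 / (1 - 73 / 80) ^ 2 * ((0 ^ 2 + 0 * (η / 16) + (20 * 0) ^ 2) / (η / 2) ^ 2) +
          0 / (η / 16))) :=
        (((((A.lam_lim.pow 2).add (A.lam_lim.mul_const _)).add
          ((A.ε_lim.const_mul 20).pow 2)).div_const _).const_mul _).add a1
      have a3 : (8 / (1 - 73 / 80) ^ 2 * ((0 ^ 2 + 0 * (η / 16) + (20 * 0) ^ 2) / (η / 2) ^ 2) +
          0 / (η / 16) : ℝ) = 0 := by ring
      rw [a3] at a2
      refine a2.congr fun n => ?_
      rw [div_div]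
    refine ae_of_le e0 ?_
    have e2 : ∀ᶠ n in A.U, A.ε n / A.lam n < η / 400 :=
      (A.ε_lam.eventually (gt_mem_nhds (by positivity : (0 : ℝ) < η / 400)))
    filter_upwards [e2] with n hn2
    rw [div_lt_iff₀ (A.lam_pos n)] at hn2
    have := ra_pad_pr (A.X n).gap
      (w := A.x n ρ) (b := A.x n ρ') ((A.obeys n).1 ρ) ((A.obeys n).1 ρ') (A.lam_pos n)
      (A.lam_lt n).le (ε := 20 * A.ε n) (δ := A.lam n * (η / 16))
      (by have := A.ε_pos n; linarith) (half_pos hη)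
      (mul_pos (A.lam_pos n) (by positivity)) (pad_eq h n) (by nlinarith [A.lam_pos n])
    refine le_trans (le_of_eq (pr_congr fun ω => ?_)) this
    exact not_not
  filter_upwards [h1] with ω g1
  push Not at g1
  linarith

/-- **Thresholds.** -/
theorem thr {σ ρ : Reg S} {α : ℚ} (h : net S r A.τ σ = .thr α ρ) {η : ℝ} (hη : 0 < η) :
    ∀ᶠ ω in A.F, ((α : ℝ) + η < A.v ρ ω → IsB (A.ε ω.1) true (A.v σ ω)) ∧
      (A.v ρ ω < (α : ℝ) - η → IsB (A.ε ω.1) false (A.v σ ω)) := by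
  have e2 : ∀ᶠ n in A.U, A.ε n < η / 2 := A.ε_lim.eventually (gt_mem_nhds (half_pos hη))
  filter_upwards [A.rel σ, ae_fst (Ω := fun n => (A.I n).Site) e2] with ω g1 g2
  rw [h] at g1
  exact ⟨fun hc => g1.1 (by linarith), fun hc => g1.2 (by linarith)⟩

/-- thresholds of global averages -/
theorem thr_av_true {σ ρ ρ' : Reg S} {α : ℚ} (h : net S r A.τ σ = .thr α ρ)
    (h' : net S r A.τ ρ = .ra true ρ') (hα : (α : ℝ) < A.av ρ') : A.Is (fun _ => true) σ := by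
  have hη : 0 < (A.av ρ' - α) / 2 := by linarith
  filter_upwards [A.thr h hη, A.ra_true h' hη] with ω g1 g2
  exact g1.1 (by have := (abs_lt.1 g2).1; linarith)

theorem thr_av_false {σ ρ ρ' : Reg S} {α : ℚ} (h : net S r A.τ σ = .thr α ρ)
    (h' : net S r A.τ ρ = .ra true ρ') (hα : A.av ρ' < (α : ℝ)) : A.Is (fun _ => false) σ := by
  have hη : 0 < (α - A.av ρ') / 2 := by linarith
  filter_upwards [A.thr h hη, A.ra_true h' hη] with ω g1 g2
  exact g1.2 (by have := (abs_lt.1 g2).2; linarith)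

/-- thresholds of averages over the pads -/
theorem thr_pm {σ ρ ρ' : Reg S} {α : ℚ} (h : net S r A.τ σ = .thr α ρ)
    (h' : net S r A.τ ρ = .ra false ρ') {η : ℝ} (hη : 0 < η) :
    ∀ᶠ ω in A.F, ((α : ℝ) + η < A.pm ρ' ω → IsB (A.ε ω.1) true (A.v σ ω)) ∧
      (A.pm ρ' ω < (α : ℝ) - η → IsB (A.ε ω.1) false (A.v σ ω)) := by
  filter_upwards [A.thr h (half_pos hη), A.ra_false h' (half_pos hη)] with ω g1 g2
  exact ⟨fun hc => g1.1 (by have := (abs_lt.1 g2).1; linarith),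
    fun hc => g1.2 (by have := (abs_lt.1 g2).2; linarith)⟩

theorem th_true {i : Fin 3} {l : Fin 5} (h : (((l : ℕ) + 1 : ℝ)) / 6 < A.av (.q i)) :
    A.Is (fun _ => true) (.th i l) :=
  thr_av_true (α := ((l : ℕ) + 1 : ℚ) / 6) (ρ := .qa i) rfl rfl (by push_cast; exact h)

theorem th_false {i : Fin 3} {l : Fin 5} (h : A.av (.q i) < (((l : ℕ) + 1 : ℝ)) / 6) :
    A.Is (fun _ => false) (.th i l) :=
  thr_av_false (α := ((l : ℕ) + 1 : ℚ) / 6) (ρ := .qa i) rfl rfl (by push_cast; exact h)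

theorem tf_true {k : Tst} (h : (A.τ : ℝ) < A.av (.t k)) : A.Is (fun _ => true) (.tf k) :=
  thr_av_true (ρ := .ta k) rfl rfl h

theorem tf_false {k : Tst} (h : A.av (.t k) < (A.τ : ℝ)) : A.Is (fun _ => false) (.tf k) :=
  thr_av_false (ρ := .ta k) rfl rfl h

theorem yb_true {z : Bool} {o : S.Off} {e : S.Cell} (h : 1 / 2 < A.av (.y z o e)) :
    A.Is (fun _ => true) (.yb z o e) :=
  thr_av_true (α := 1 / 2) (ρ := .ya z o e) rfl rfl (by push_cast; exact h)

theorem yb_false {z : Bool} {o : S.Off} {e : S.Cell} (h : A.av (.y z o e) < 1 / 2) :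
    A.Is (fun _ => false) (.yb z o e) :=
  thr_av_false (α := 1 / 2) (ρ := .ya z o e) rfl rfl (by push_cast; exact h)

/-- the registers `x`, `lo`, `hi` from the pad mean of `m` -/
theorem x_pm (z : Bool) (c : S.Comp) {η : ℝ} (hη : 0 < η) :
    ∀ᶠ ω in A.F, (1 / 2 + η < A.pm (.m z c) ω → IsB (A.ε ω.1) true (A.v (.x z c) ω)) ∧
      (A.pm (.m z c) ω < 1 / 2 - η → IsB (A.ε ω.1) false (A.v (.x z c) ω)) := by
  have h := A.thr_pm (σ := .x z c) (ρ := .p z c) (ρ' := .m z c) (α := 1 / 2) rfl rfl hη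
  push_cast at h
  exact h

theorem lo_pm (z : Bool) (c : S.Comp) {η : ℝ} (hη : 0 < η) :
    ∀ᶠ ω in A.F, (1 / 4 + η < A.pm (.m z c) ω → IsB (A.ε ω.1) true (A.v (.lo z c) ω)) ∧
      (A.pm (.m z c) ω < 1 / 4 - η → IsB (A.ε ω.1) false (A.v (.lo z c) ω)) := by
  have h := A.thr_pm (σ := .lo z c) (ρ := .p z c) (ρ' := .m z c) (α := 1 / 4) rfl rfl hη
  push_cast at h
  exact h

theorem hi_pm (z : Bool) (c : S.Comp) {η : ℝ} (hη : 0 < η) :
    ∀ᶠ ω in A.F, (3 / 4 + η < A.pm (.m z c) ω → IsB (A.ε ω.1) true (A.v (.hi z c) ω)) ∧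
      (A.pm (.m z c) ω < 3 / 4 - η → IsB (A.ε ω.1) false (A.v (.hi z c) ω)) := by
  have h := A.thr_pm (σ := .hi z c) (ρ := .p z c) (ρ' := .m z c) (α := 3 / 4) rfl rfl hη
  push_cast at h
  exact h

/-- distance of a pure value from the bit -/
theorem abs_sub_le_of_isB {ε t : ℝ} {b : Bool} (hε : 0 ≤ ε) (ht : 0 ≤ t ∧ t ≤ 1)
    (h : IsB ε b t) : |t - (if b then 1 else 0)| ≤ ε := by
  cases b with
  | false =>
    have h1 : t ≤ ε := h
    rw [abs_le]
    simp only [Bool.false_eq_true, if_false]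
    constructor <;> linarith [ht.1]
  | true =>
    have h1 : 1 - ε ≤ t := h
    rw [abs_le]
    simp only [if_true]
    constructor <;> linarith [ht.2]

/-- a pure register: the mean is the mean of the bits -/
theorem mean_of_is {ρ : Reg S} {b : A.Pt → Bool} (h : A.Is b ρ) :
    Tendsto (fun n => mean (A.x n ρ) -
      mean (fun ω : (A.I n).Site => if b ⟨n, ω⟩ then (1 : ℝ) else 0)) A.U (𝓝 0) := by
  refine tendsto_mean_sub (f := A.v ρ) (g := fun ω => if b ω then (1 : ℝ) else 0)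
    (v_mem ρ) (fun ω => by split_ifs <;> norm_num) fun η hη => ?_
  have e2 : ∀ᶠ n in A.U, A.ε n < η := A.ε_lim.eventually (gt_mem_nhds hη)
  filter_upwards [h, ae_fst (Ω := fun n => (A.I n).Site) e2] with ω g1 g2
  exact (abs_sub_le_of_isB (A.ε_pos _).le (v_mem ρ ω) g1).trans g2.le

theorem av_of_is_true {ρ : Reg S} (h : A.Is (fun _ => true) ρ) : A.av ρ = 1 := by
  have h1 := mean_of_is h
  simp only [if_true] at h1
  have h2 := (A.tendsto_av ρ).sub h1
  have h3 : Tendsto (fun n => mean (A.x n ρ) - (mean (A.x n ρ) -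
      mean (fun _ : (A.I n).Site => (1 : ℝ)))) A.U (𝓝 1) := by
    refine tendsto_const_nhds.congr fun n => ?_
    rw [mean_const]
    ring
  rw [sub_zero] at h2
  exact tendsto_nhds_unique h2 h3

theorem av_of_is_false {ρ : Reg S} (h : A.Is (fun _ => false) ρ) : A.av ρ = 0 := by
  have h1 := mean_of_is h
  simp only [Bool.false_eq_true, if_false] at h1
  have h2 := (A.tendsto_av ρ).sub h1
  have h3 : Tendsto (fun n => mean (A.x n ρ) - (mean (A.x n ρ) -
      mean (fun _ : (A.I n).Site => (0 : ℝ)))) A.U (𝓝 0) := by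
    refine tendsto_const_nhds.congr fun n => ?_
    rw [mean_const]
    ring
  rw [sub_zero] at h2
  exact tendsto_nhds_unique h2 h3

/-- The pad mean of a pure register whose bit depends on the table argument only. -/
theorem pm_of_is {ρ : Reg S} {g : (Σ n, (A.I n).V) → Bool}
    (h : A.Is (fun ω => g ⟨ω.1, ω.2.1⟩) ρ) {η : ℝ} (hη : 0 < η) :
    ∀ᶠ ω in A.F, |A.pm ρ ω - (if g ⟨ω.1, ω.2.1⟩ then 1 else 0)| < η := by
  have h1 := ae_fiber (A := fun n => (A.I n).V) (B := fun n => (A.I n).V) h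
    (c := η / 2) (half_pos hη)
  have e2 : ∀ᶠ n in A.U, A.ε n < η / 2 := A.ε_lim.eventually (gt_mem_nhds (half_pos hη))
  have h2 := (ae_prod_fst (U := (A.U : Filter ℕ)) (A := fun n => (A.I n).V)
    (B := fun n => (A.I n).V)).2 h1
  filter_upwards [h2, ae_fst (Ω := fun n => (A.I n).Site) e2] with ω g1 g2
  have h3 := abs_mean_sub_le (f := fun z => A.x ω.1 ρ (ω.2.1, z))
    (g := fun _ => if g ⟨ω.1, ω.2.1⟩ then (1 : ℝ) else 0) (η := A.ε ω.1) (A.ε_pos _).le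
    (fun z => (A.obeys ω.1).1 ρ _) (fun z => by split_ifs <;> norm_num)
  rw [mean_const] at h3
  have h4 : pr (fun z => ¬ |A.x ω.1 ρ (ω.2.1, z) - (if g ⟨ω.1, ω.2.1⟩ then (1 : ℝ) else 0)| ≤
      A.ε ω.1) ≤ pr (fun z => ¬ IsB (A.ε ω.1) (g ⟨ω.1, ω.2.1⟩) (A.x ω.1 ρ (ω.2.1, z))) :=
    pr_mono fun z hz hc => hz (abs_sub_le_of_isB (A.ε_pos _).le ((A.obeys ω.1).1 ρ _) hc)
  calc |A.pm ρ ω - (if g ⟨ω.1, ω.2.1⟩ then 1 else 0)| ≤ _ := h3
    _ < η := by linarith

/-- **Codes from the multiplexers** -/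
theorem codes_of_m {z : Bool} {c : S.Comp} {g : (Σ n, (A.I n).V) → Bool}
    (h : A.Is (fun ω => g ⟨ω.1, ω.2.1⟩) (.m z c)) :
    A.Is (fun ω => g ⟨ω.1, ω.2.1⟩) (.x z c) ∧ A.Is (fun ω => g ⟨ω.1, ω.2.1⟩) (.lo z c) ∧
      A.Is (fun ω => g ⟨ω.1, ω.2.1⟩) (.hi z c) := by
  have h0 := A.pm_of_is h (η := 1 / 10) (by norm_num)
  refine ⟨?_, ?_, ?_⟩
  · filter_upwards [h0, A.x_pm z c (η := 1 / 10) (by norm_num)] with ω g1 g2
    rcases hg : g ⟨ω.1, ω.2.1⟩ with _ | _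
    · rw [hg] at g1
      simp only [Bool.false_eq_true, if_false] at g1
      exact g2.2 (by have := (abs_lt.1 g1).2; linarith)
    · rw [hg] at g1
      simp only [if_true] at g1
      exact g2.1 (by have := (abs_lt.1 g1).1; linarith)
  · filter_upwards [h0, A.lo_pm z c (η := 1 / 10) (by norm_num)] with ω g1 g2
    rcases hg : g ⟨ω.1, ω.2.1⟩ with _ | _
    · rw [hg] at g1
      simp only [Bool.false_eq_true, if_false] at g1
      exact g2.2 (by have := (abs_lt.1 g1).2; linarith)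
    · rw [hg] at g1
      simp only [if_true] at g1
      exact g2.1 (by have := (abs_lt.1 g1).1; linarith)
  · filter_upwards [h0, A.hi_pm z c (η := 1 / 10) (by norm_num)] with ω g1 g2
    rcases hg : g ⟨ω.1, ω.2.1⟩ with _ | _
    · rw [hg] at g1
      simp only [Bool.false_eq_true, if_false] at g1
      exact g2.2 (by have := (abs_lt.1 g1).2; linarith)
    · rw [hg] at g1
      simp only [if_true] at g1
      exact g2.1 (by have := (abs_lt.1 g1).1; linarith)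

/-- the fraction of the sites with the pure value `1` is at most the average -/
theorem pr_true_le (ρ : Reg S) {η : ℝ} (hη : 0 < η) :
    ∀ᶠ n in A.U, pr (fun ω => IsB (A.ε n) true (A.x n ρ ω)) ≤ A.av ρ + η := by
  have e1 : ∀ᶠ n in A.U, A.ε n < η / 2 := A.ε_lim.eventually (gt_mem_nhds (half_pos hη))
  have e2 : ∀ᶠ n in A.U, mean (A.x n ρ) < A.av ρ + η / 2 :=
    (A.tendsto_av ρ).eventually (gt_mem_nhds (by linarith))
  filter_upwards [e1, e2] with n h1 h2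
  have h3 := mul_pr_le_mean (f := A.x n ρ) (p := fun ω => IsB (A.ε n) true (A.x n ρ ω))
    (c := 1 - A.ε n) (fun ω => ((A.obeys n).1 ρ ω).1) fun ω hω => hω
  have h4 := pr_le_one (fun ω => IsB (A.ε n) true (A.x n ρ ω))
  have h5 := A.ε_pos n
  have h6 := pr_nonneg (fun ω => IsB (A.ε n) true (A.x n ρ ω))
  nlinarith

/-- the average is at most the fraction of the sites which do not have the pure value `0` -/
theorem av_le_pr (ρ : Reg S) {η : ℝ} (hη : 0 < η) :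
    ∀ᶠ n in A.U, A.av ρ - η ≤ pr (fun ω => ¬ IsB (A.ε n) false (A.x n ρ ω)) := by
  have e1 : ∀ᶠ n in A.U, A.ε n < η / 2 := A.ε_lim.eventually (gt_mem_nhds (half_pos hη))
  have e2 : ∀ᶠ n in A.U, A.av ρ - η / 2 < mean (A.x n ρ) :=
    (A.tendsto_av ρ).eventually (lt_mem_nhds (by linarith))
  filter_upwards [e1, e2] with n h1 h2
  have h3 := abs_mean_sub_le (f := A.x n ρ) (g := fun _ => (0 : ℝ)) (η := A.ε n) (A.ε_pos n).le
    ((A.obeys n).1 ρ) (fun _ => by norm_num)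
  rw [mean_const, sub_zero, abs_of_nonneg (mean_nonneg fun ω => ((A.obeys n).1 ρ ω).1)] at h3
  have h4 : pr (fun ω => ¬ |A.x n ρ ω - 0| ≤ A.ε n) ≤
      pr (fun ω => ¬ IsB (A.ε n) false (A.x n ρ ω)) :=
    pr_mono fun ω hω hc => hω (by
      rw [sub_zero, abs_of_nonneg ((A.obeys n).1 ρ ω).1]
      exact hc)
  linarith

/-- the average is `0` if almost no site fails to have the pure value `0`; the converse bound: the
average is at least the fraction of the sites with the pure value `1` -/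
theorem le_av_of_pr {ρ : Reg S} {c : ℝ}
    (h : ∀ᶠ n in A.U, c ≤ pr (fun ω => IsB (A.ε n) true (A.x n ρ ω))) : c ≤ A.av ρ := by
  refine le_of_forall_pos_le_add fun η hη => ?_
  obtain ⟨n, h1, h2⟩ := (h.and (A.pr_true_le ρ hη)).exists
  exact h1.trans h2

theorem av_le_of_pr {ρ : Reg S} {c : ℝ}
    (h : ∀ᶠ n in A.U, pr (fun ω => ¬ IsB (A.ε n) false (A.x n ρ ω)) ≤ c) : A.av ρ ≤ c := by
  refine le_of_forall_pos_le_add fun η hη => ?_
  obtain ⟨n, h1, h2⟩ := (h.and (A.av_le_pr ρ hη)).exists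
  linarith

end Lim

end Lim

end Vale.Agent.P330.S
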