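import Vale.Agent.P330.S.Code

/-!
# Pointwise lemmas: corrected reads are right when all raw reads are right
-/

namespace Vale.Agent.P330.S

open Finset PCP.AR

variable {S : Spec} {r : ℕ}

theorem isB_unique {ε t : ℝ} (hε : ε < 1 / 2) {b b' : Bool} (h : IsB ε b t) (h' : IsB ε b' t) :
    b = b' := by
  by_contra hne
  have hb : b' = !b := by
    revert hne
    cases b <;> cases b' <;> simp
  subst hb
  cases b <;> simp only [IsB, Bool.not_false, Bool.not_true, Bool.false_eq_true, if_false,
    if_true] at h h' <;> linarith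

/-- If all inputs are pure then the value is the Boolean function of the inputs. -/
theorem bit_of_inputs {Reg Rd CB Ω : Type} (E : Sem Rd CB Ω) {ε lam : ℝ}
    {x : Reg → Ω → ℝ} {ρ : Reg} {ω : Ω} {B : BitDef Reg Rd CB}
    (h : MDef.Rel E ε lam x ρ ω (.bit B)) (v : B.ι → Bool)
    (hv : ∀ i, Sum.elim (fun p => IsB ε (v i) (x p.2 (E.rd p.1 ω)))
      (fun κ => v i = E.cb κ ω) (B.inp i)) : IsB ε (B.f v) (x ρ ω) := by
  apply h (B.f v)
  intro y hy
  have hyv : y = v := by
    funext i
    have h1 := hy i
    have h2 := hv i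
    revert h1 h2
    cases B.inp i with
    | inl p =>
      intro h1 h2
      exact h1 _ h2
    | inr κ =>
      intro h1 h2
      simp only [Sum.elim_inr] at h1 h2
      rw [h1, h2]
  rw [hyv]

/-- The same when only the relevant inputs are known. -/
theorem bit_of_forall {Reg Rd CB Ω : Type} (E : Sem Rd CB Ω) {ε lam : ℝ}
    {x : Reg → Ω → ℝ} {ρ : Reg} {ω : Ω} {B : BitDef Reg Rd CB}
    (h : MDef.Rel E ε lam x ρ ω (.bit B)) (b : Bool)
    (hb : ∀ y : B.ι → Bool, (∀ i, Sum.elim (fun p => ∀ b', IsB ε b' (x p.2 (E.rd p.1 ω)) → y i = b')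
        (fun κ => y i = E.cb κ ω) (B.inp i)) → B.f y = b) : IsB ε b (x ρ ω) := h b hb

theorem b2_dec (a : ZMod 2) : b2 (decide (a = 1)) = a := by
  revert a
  decide

theorem decide_b2 (b : Bool) : decide (b2 b = 1) = b := by
  revert b
  decide

section cube

variable {ι : Type*} [Fintype ι] [DecidableEq ι] {A : ι → Type*} [∀ i, AddCommGroup (A i)]
  [∀ i, Fintype (A i)]

omit [Fintype ι] [∀ i, Fintype (A i)] in
theorem cp_eq_add (T : Finset ι) (x y : ∀ i, A i) :
    MLT.cp T x y = (fun j => if j ∈ T then x j else 0) + y := by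
  funext j
  by_cases hj : j ∈ T
  · simp [MLT.cp, hj]
  · simp [MLT.cp, hj]

end cube

/-! ### Reads are bijections -/

theorem zmod2_fun_add_self {X : Type*} (u : X → ZMod 2) : u + u = 0 := by
  funext a
  exact zmod2_add_self (u a)

/-- The read of a site as a bijection. -/
def Inst.rdEquiv (I : Inst S r) : Rd S r → I.Site ≃ I.Site
  | .self => Equiv.refl _
  | .cube A φ =>
    { toFun := fun ω => (MLT.cp A (I.phi φ ω.1) ω.2, ω.1)
      invFun := fun ω => (ω.2, (fun j => if j ∈ A then - I.phi φ ω.2 j else 0) + ω.1)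
      left_inv := by
        intro ω
        refine Prod.ext rfl ?_
        funext j
        by_cases hj : j ∈ A <;> simp [MLT.cp, hj]
      right_inv := by
        intro ω
        refine Prod.ext ?_ rfl
        funext j
        by_cases hj : j ∈ A <;> simp [MLT.cp, hj] }
  | .b1 i =>
    { toFun := fun ω => (Function.update ω.1 i (ω.2 i), Function.update ω.2 i (ω.1 i))
      invFun := fun ω => (Function.update ω.1 i (ω.2 i), Function.update ω.2 i (ω.1 i))
      left_inv := by intro ω; simp
      right_inv := by intro ω; simp }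
  | .b2 i =>
    { toFun := fun ω => (Function.update ω.1 i (ω.1 i + ω.2 i), ω.2)
      invFun := fun ω => (Function.update ω.1 i (ω.1 i + ω.2 i), ω.2)
      left_inv := by
        intro ω
        refine Prod.ext ?_ rfl
        simp only [Function.update_self, Function.update_idem, add_assoc, zmod2_fun_add_self,
          add_zero, Function.update_eq_self]
      right_inv := by
        intro ω
        refine Prod.ext ?_ rfl
        simp only [Function.update_self, Function.update_idem, add_assoc, zmod2_fun_add_self,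
          add_zero, Function.update_eq_self] }

theorem Inst.rdEquiv_apply (I : Inst S r) (k : Rd S r) (ω : I.Site) : I.rdEquiv k ω = I.rd k ω := by
  cases k <;> rfl

theorem Inst.rd_bijective (I : Inst S r) (k : Rd S r) : Function.Bijective (I.rd k) := by
  have : I.rd k = I.rdEquiv k := by
    funext ω
    exact (I.rdEquiv_apply k ω).symm
  rw [this]
  exact (I.rdEquiv k).bijective

theorem Inst.pr_rd (I : Inst S r) (k : Rd S r) (p : I.Site → Prop) :
    pr (fun ω => p (I.rd k ω)) = pr p := by
  have h := pr_equiv (I.rdEquiv k) p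
  rw [← h]
  apply pr_congr
  intro ω
  rw [I.rdEquiv_apply]

/-! ### Right reads -/

/-- The register `z` has the right values at the site `σ`. -/
def Inst.Rt (I : Inst S r) (ε : ℝ) (x : Reg S → I.Site → ℝ) (z : Bool) (w : I.J → S.Cell)
    (σ : I.Site) : Prop :=
  ∀ c : S.Comp, IsB ε (decide (I.enc w c σ.1 = 1)) (x (.x z c) σ)

theorem near_iff (I : Inst S r) (ε ρ₀ : ℝ) (x : Reg S → I.Site → ℝ) (z : Bool)
    (w : I.J → S.Cell) : Near I ε ρ₀ x z w ↔ pr (fun ω => ¬ I.Rt ε x z w ω) ≤ ρ₀ := by
  unfold Near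
  rw [pr_congr (p := fun ω : I.Site => ∃ c : S.Comp,
    ¬ IsB ε (decide (I.enc w c ω.1 = 1)) (x (.x z c) ω)) (r := fun ω => ¬ I.Rt ε x z w ω)]
  intro ω
  simp [Inst.Rt]

section pointwise

variable (I : Inst S r) (X : Exp I) {ε lam : ℝ} {τ : ℚ} {x : Reg S → I.Site → ℝ}
  {z : Bool} {w : I.J → S.Cell}

/-- (A), pointwise: the corrected read is right if all raw reads are right. -/
theorem h_right {ω : I.Site} {c : S.Comp}
    (hrel : (net S r τ (.h z c)).Rel (I.sem X) ε lam x (.h z c) ω)
    (hr : ∀ A, I.Rt ε x z w (I.rd (.cube A .id) ω)) :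
    IsB ε (decide (I.enc w c ω.1 = 1)) (x (.h z c) ω) := by
  classical
  have key := bit_of_inputs (I.sem X) (B := hDef r z c) hrel
    (fun A => decide (I.enc w c (MLT.cp A (I.phi .id ω.1) ω.2) = 1)) (fun A => hr A c)
  have e : (hDef r z c : BitDef (Reg S) (Rd S r) (CB S)).f
      (fun A => decide (I.enc w c (MLT.cp A (I.phi .id ω.1) ω.2) = 1)) =
      decide (I.enc w c ω.1 = 1) := by
    simp only [hDef, b2_dec]
    have h1 := cs_exact (I.enc_multiAdd w c) (I.phi .id ω.1) ω.2
    unfold MLT.cs at h1
    rw [h1]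
    rfl
  rw [e] at key
  exact key

/-- (B), pointwise: the bit the cell at offset `o` from the head is `e` is right if all raw reads
are right. -/
theorem y_right {hd : I.J} (hh : I.IsHead w hd) {ω : I.Site} {o : S.Off} {e : S.Cell}
    (hrel : (net S r τ (.y z o e)).Rel (I.sem X) ε lam x (.y z o e) ω)
    (hr : ∀ A, I.Rt ε x z w (I.rd (.cube A (.ones (offs S o))) ω)) :
    IsB ε (decide (w (hd + I.off o) = e)) (x (.y z o e) ω) := by
  classical
  have key := bit_of_inputs (I.sem X) (B := yDef r z o e) hrel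
    (fun p => decide (I.enc w p.1 (MLT.cp p.2 (I.phi (.ones (offs S o)) ω.1) ω.2) = 1))
    (fun p => hr p.2 p.1)
  have e1 : (yDef r z o e : BitDef (Reg S) (Rd S r) (CB S)).f
      (fun p => decide (I.enc w p.1 (MLT.cp p.2 (I.phi (.ones (offs S o)) ω.1) ω.2) = 1)) =
      decide (w (hd + I.off o) = e) := by
    simp only [yDef, b2_dec]
    have e2 : ∀ c : S.Comp, (∑ A : Finset (Fin r), if S.hd (c 0) = true ∧ c 1 = e then
        I.enc w c (MLT.cp A (I.phi (.ones (offs S o)) ω.1) ω.2) else 0) =
        if S.hd (c 0) = true ∧ c 1 = e then I.enc w c (I.phi (.ones (offs S o)) ω.1) else 0 := by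
      intro c
      by_cases hP : S.hd (c 0) = true ∧ c 1 = e
      · simp only [if_pos hP]
        exact cs_exact (I.enc_multiAdd w c) _ _
      · simp only [if_neg hP, Finset.sum_const_zero]
    rw [Finset.sum_congr rfl fun c _ => e2 c, I.enc_head hh]
    by_cases hw : w (hd + I.off o) = e <;> simp [hw]
  rw [e1] at key
  exact key

/-- (C), pointwise: the corrected read of the next configuration is right if all raw reads and the
contents around the head are right. -/
theorem a_right {hd : I.J} (hh : I.IsHead w hd) {ω : I.Site} {c : S.Comp}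
    (hrel : (net S r τ (.a z c)).Rel (I.sem X) ε lam x (.a z c) ω)
    (hr : ∀ A o, I.Rt ε x z w (I.rd (.cube A (.shift o)) ω))
    (hy : ∀ o e, IsB ε (decide (w (hd + I.off o) = e)) (x (.yb z o e) ω)) :
    IsB ε (decide (I.enc (I.step z w) c ω.1 = 1)) (x (.a z c) ω) := by
  classical
  have key := bit_of_inputs (I.sem X) (B := aDef r z c) hrel
    (Sum.elim (fun p => decide (w (hd + I.off p.1) = p.2))
      (fun p => decide (I.enc w p.2.1 (MLT.cp p.2.2 (I.phi (.shift p.1) ω.1) ω.2) = 1)))
    (by
      rintro (p | p)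
      · exact hy p.1 p.2
      · exact hr p.2.2 p.1 p.2.1)
  have e1 : (aDef r z c : BitDef (Reg S) (Rd S r) (CB S)).f
      (Sum.elim (fun p => decide (w (hd + I.off p.1) = p.2))
      (fun p => decide (I.enc w p.2.1 (MLT.cp p.2.2 (I.phi (.shift p.1) ω.1) ω.2) = 1))) =
      decide (I.enc (I.step z w) c ω.1 = 1) := by
    simp only [aDef, Sum.elim_inl, Sum.elim_inr, b2_dec]
    have e0 : (winOf fun (o : S.Off) (e : S.Cell) => decide (w (hd + I.off o) = e)) =
        fun o => w (hd + I.off o) := winOf_eq _ _ fun _ _ => rfl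
    rw [e0, I.enc_step z hh c ω.1]
    congr 2
    refine Finset.sum_congr rfl fun o _ => Finset.sum_congr rfl fun c' _ => ?_
    congr 1
    exact cs_exact (I.enc_multiAdd w c') _ _
  rw [e1] at key
  exact key

end pointwise

end Vale.Agent.P330.S
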