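import Vale.Agent.P330.S.TS

/-!
# Completeness of the test: identities for the code of a configuration
-/

set_option linter.unusedSectionVars false

namespace Vale.Agent.P330.MLT

open Finset PCP.AR

/-- multiadditive maps that agree at the tuples of basis vectors are equal -/
theorem multiAdd_ext {ι : Type*} [Fintype ι] [DecidableEq ι] {B : ι → Type*} [∀ i, Fintype (B i)]
    [∀ i, DecidableEq (B i)] {g g' : (∀ i, B i → ZMod 2) → ZMod 2}
    (hg : MultiAdd (A := fun i => B i → ZMod 2) g) (hg' : MultiAdd (A := fun i => B i → ZMod 2) g')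
    (h : ∀ t : ∀ i, B i, g (fun i => Pi.single (t i) 1) = g' (fun i => Pi.single (t i) 1))
    (M : ∀ i, B i → ZMod 2) : g M = g' M := by
  rw [multiAdd_rep hg M, multiAdd_rep hg' M]
  congr 1
  exact funext h

end Vale.Agent.P330.MLT

namespace Vale.Agent.P330.S.TS

open Finset PCP.AR MLT

variable {S : Spec} {r : ℕ}

/-- the code at a tuple of basis vectors -/
theorem enc_single (I : Inst S r) (w : I.J → S.Cell) (c : S.Comp) (k : ∀ i, I.X i) :
    I.enc w c (fun i => Pi.single (k i) 1) =
      if ∀ t, w (fun i => k i t) = c t then 1 else 0 := by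
  rw [enc_eq_ev, ev_single (B := fun i => I.X i)]

theorem enc_MA (I : Inst S r) (w : I.J → S.Cell) : MA I (I.enc w) := enc_multiAdd' I w

/-- `emb` of a basis vector -/
theorem emb_single (I : Inst S r) (j : I.J) :
    emb I (fun i => Pi.single (j i) 1) =
      fun i => Pi.single (fun s => if s = 0 then j i else 0) 1 := by
  classical
  funext i k
  show (if _ then _ else _) = _
  by_cases hk : k = fun s => if s = 0 then j i else 0
  · subst hk
    simp
  · rw [Pi.single_eq_of_ne hk]
    split_ifs with h
    · apply Pi.single_eq_of_ne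
      intro h0
      apply hk
      funext s
      by_cases hs : s = 0
      · subst hs; simp [h0]
      · rw [if_neg hs]; exact h s hs
    · rfl

/-- `wemb` of a basis vector -/
theorem wemb_single (I : Inst S r) (j : I.J) :
    wemb I (fun i => Pi.single (j i) 1) =
      fun i => Pi.single (fun t => j i + I.off (S.win t) i) 1 := by
  classical
  funext i k
  show (if _ then _ else _) = _
  by_cases hk : k = fun t => j i + I.off (S.win t) i
  · subst hk
    simp
  · rw [Pi.single_eq_of_ne hk]
    split_ifs with h
    · apply Pi.single_eq_of_ne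
      intro h0
      apply hk
      funext t
      have := h t
      rw [h0] at this
      rw [← this]
      ring
    · rfl

/-- `tens` of basis vectors -/
theorem tens_single (I : Inst S r) (j : ∀ p : S.Slot × Fin r, ZMod (I.L p.2)) :
    tens I (fun p => Pi.single (j p) 1) = fun i => Pi.single (fun t => j (t, i)) 1 := by
  classical
  funext i x
  show ∏ t, (Pi.single (j (t, i)) (1 : ZMod 2) : ZMod (I.L i) → ZMod 2) (x t) = _
  by_cases hx : x = fun t => j (t, i)
  · subst hx
    simp
  · rw [Pi.single_eq_of_ne hx]
    obtain ⟨t, ht⟩ := Function.ne_iff.1 hx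
    exact Finset.prod_eq_zero (Finset.mem_univ t) (Pi.single_eq_of_ne ht 1)

/-- `T_e` of the code of `w` -/
theorem enc_Te (I : Inst S r) (w : I.J → S.Cell) (e : S.Cell)
    (u : ∀ i, ZMod (I.L i) → ZMod 2) :
    Te I (I.enc w) e u = ∑ j : I.J, if w j = e then ∏ i, u i (j i) else 0 := by
  classical
  have h1 : MultiAdd (A := fun i => ZMod (I.L i) → ZMod 2)
      (fun u => ∑ j : I.J, if w j = e then ∏ i, u i (j i) else 0) := by
    have : (fun u : ∀ i, ZMod (I.L i) → ZMod 2 =>
        ∑ j : I.J, if w j = e then ∏ i, u i (j i) else 0) =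
        ev (B := fun i => ZMod (I.L i)) (fun j => if w j = e then 1 else 0) := by
      funext u
      unfold ev
      refine Finset.sum_congr rfl fun j _ => ?_
      by_cases h : w j = e
      · simp [h]
      · simp [h]
    rw [this]
    exact ev_multiAdd (B := fun i => ZMod (I.L i)) _
  refine multiAdd_ext (B := fun i => ZMod (I.L i)) (Te_multiAdd I (enc_MA I w) e) h1 ?_ u
  intro j
  unfold Te
  simp only [emb_single, enc_single]
  rw [Finset.sum_eq_single (fun t : S.Slot => w (if t = 0 then j else 0))]
  · have e1 : ∀ t : S.Slot, (fun i => if t = 0 then j i else 0) =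
        (if t = 0 then j else (0 : I.J)) := by
      intro t
      by_cases ht : t = 0
      · simp [ht]
      · simp [ht]; rfl
    simp only [if_true]
    rw [if_pos (fun t => by rw [e1 t])]
    rw [Finset.sum_eq_single j]
    · by_cases h : w j = e
      · simp [h]
      · simp [h]
    · intro j' _ hj'
      obtain ⟨i, hi⟩ := Function.ne_iff.1 hj'
      rw [Finset.prod_eq_zero (Finset.mem_univ i) (Pi.single_eq_of_ne hi 1)]
      simp
    · intro h
      exact absurd (Finset.mem_univ j) h
  · intro c _ hc
    by_cases h0 : c 0 = e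
    · rw [if_pos h0, if_neg]
      intro h
      apply hc
      funext t
      rw [← h t]
      congr 1
      funext i
      by_cases ht : t = 0
      · simp [ht]
      · simp [ht]
    · rw [if_neg h0]
  · intro h
    exact absurd (Finset.mem_univ _) h

/-- the product identity -/
theorem enc_tens (I : Inst S r) (w : I.J → S.Cell) (c : S.Comp) (x : I.W) :
    I.enc w c (tens I x) = ∏ t, Te I (I.enc w) (c t) (getv I t x) := by
  classical
  refine multiAdd_ext (B := fun p : S.Slot × Fin r => ZMod (I.L p.2))
    (tens_multiAdd I (enc_MA I w) c) (prodTe_multiAdd I (enc_MA I w) c) ?_ x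
  intro j
  rw [tens_single, enc_single]
  have h : ∀ t, Te I (I.enc w) (c t) (getv I t fun p => Pi.single (j p) 1) =
      if w (fun i => j (t, i)) = c t then 1 else 0 := by
    intro t
    rw [enc_Te]
    rw [Finset.sum_eq_single (fun i => j (t, i))]
    · by_cases h : w (fun i => j (t, i)) = c t
      · simp [h, getv]
      · simp [h]
    · intro j' _ hj'
      obtain ⟨i, hi⟩ := Function.ne_iff.1 hj'
      rw [Finset.prod_eq_zero (Finset.mem_univ i) (Pi.single_eq_of_ne hi 1)]
      simp
    · intro h
      exact absurd (Finset.mem_univ _) h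
  simp only [h]
  by_cases h' : ∀ t, w (fun i => j (t, i)) = c t
  · rw [if_pos h']
    exact (Finset.prod_eq_one fun t _ => if_pos (h' t)).symm
  · rw [if_neg h']
    push Not at h'
    obtain ⟨t, ht⟩ := h'
    exact (Finset.prod_eq_zero (Finset.mem_univ t) (if_neg ht)).symm

/-- static contents -/
theorem enc_stat (I : Inst S r) {w : I.J → S.Cell} (hw : I.Valid w) (q : S.Stat)
    (u : ∀ i, ZMod (I.L i) → ZMod 2) :
    (∑ e : S.Cell, if S.statOf e = q then Te I (I.enc w) e u else 0) =
      ∑ j : I.J, if I.stat j = q then ∏ i, u i (j i) else 0 := by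
  classical
  have h1 : ∀ e : S.Cell, (if S.statOf e = q then Te I (I.enc w) e u else 0) =
      ∑ j : I.J, if w j = e then (if I.stat j = q then ∏ i, u i (j i) else 0) else 0 := by
    intro e
    by_cases he : S.statOf e = q
    · rw [if_pos he, enc_Te]
      refine Finset.sum_congr rfl fun j _ => ?_
      by_cases hj : w j = e
      · rw [if_pos hj, if_pos hj, if_pos]
        rw [← hw.1 j, hj, he]
      · rw [if_neg hj, if_neg hj]
    · rw [if_neg he]
      symm
      apply Finset.sum_eq_zero
      intro j _
      by_cases hj : w j = e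
      · rw [if_pos hj, if_neg]
        rw [← hw.1 j, hj]
        exact he
      · rw [if_neg hj]
  simp only [h1]
  rw [Finset.sum_comm]
  refine Finset.sum_congr rfl fun j _ => ?_
  rw [Finset.sum_ite_eq]
  simp

/-- windows -/
theorem enc_win (I : Inst S r) {w : I.J → S.Cell} (hw : I.Valid w) {c : S.Comp}
    (hc : S.allowed c = false) (u : ∀ i, ZMod (I.L i) → ZMod 2) :
    I.enc w c (wemb I u) = 0 := by
  classical
  refine multiAdd_ext (B := fun i => ZMod (I.L i)) (g' := fun _ => 0)
    (wemb_multiAdd I (enc_MA I w) c) MultiAdd.zero ?_ u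
  intro j
  show I.enc w c (wemb I fun i => Pi.single (j i) 1) = 0
  rw [wemb_single, enc_single, if_neg]
  intro h
  have h1 : (fun t => w (j + I.off (S.win t))) = c := funext h
  have := hw.2 j
  rw [h1, hc] at this
  exact Bool.false_ne_true this

/-- cube sums of the code are exact -/
theorem enc_cs (I : Inst S r) (w : I.J → S.Cell) (c : S.Comp) (M z : I.V) :
    MLT.cs (I.enc w c) M z = I.enc w c M := by
  classical
  have hf : pr (fun x : I.V => I.enc w c x ≠ I.enc w c x) ≤ (0 : ℝ) := by
    rw [show pr (fun x : I.V => I.enc w c x ≠ I.enc w c x) = pr (fun _ : I.V => False) from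
      pr_congr (by simp), pr_false]
  have h := cs_of_close (A := fun i => I.X i → ZMod 2) (zmod2_self I) (I.enc w c) (I.enc w c)
    (enc_multiAdd' I w c) 0 hf M
  rw [mul_zero] at h
  by_contra hne
  have h2 : pr (fun y : I.V => MLT.cs (I.enc w c) M y ≠ I.enc w c M) = 0 :=
    le_antisymm h (pr_nonneg _)
  unfold pr at h2
  rw [div_eq_zero_iff] at h2
  rcases h2 with h2 | h2
  · rw [Finset.sum_eq_zero_iff_of_nonneg (fun _ _ => by split_ifs <;> norm_num)] at h2
    have := h2 z (Finset.mem_univ z)
    rw [if_pos hne] at this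
    exact one_ne_zero this
  · exact Nat.cast_ne_zero.2 Fintype.card_ne_zero h2

/-- the code of a valid configuration passes all tests at every site -/
theorem enc_tests (I : Inst S r) {w : I.J → S.Cell} (hw : I.Valid w) (ω : I.Site) :
    (∀ c i, I.enc w c ω.1 + I.enc w c (Function.update ω.1 i (ω.2 i)) +
      I.enc w c (Function.update ω.1 i (ω.1 i + ω.2 i)) = 0) ∧
    (∀ c, MLT.cs (I.enc w c) (I.phi .prod ω.1) ω.2 = ∏ t, rdT I (I.enc w) (c t) t ω) ∧
    (∀ q, (∑ e : S.Cell, if S.statOf e = q then rdT I (I.enc w) e 0 ω else 0) =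
      ∑ j : I.J, if I.stat j = q then ∏ i, I.vec 0 i (ω.1 i) (j i) else 0) ∧
    (∀ c, S.allowed c = false → MLT.cs (I.enc w c) (I.phi .win ω.1) ω.2 = 0) := by
  have hrd : ∀ e t, rdT I (I.enc w) e t ω = Te I (I.enc w) e (getv I t (vecs I ω.1)) := by
    intro e t
    exact rdT_eq I (I.enc w) (I.enc w) ω (fun p => enc_cs I w _ _ _) e t
  refine ⟨?_, ?_, ?_, ?_⟩
  · intro c i
    have h := enc_multiAdd' I w c i ω.1 (ω.1 i) (ω.2 i)
    rw [Function.update_eq_self] at h
    rw [h]
    have s1 := zmod2_add_self (I.enc w c ω.1)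
    have s2 := zmod2_add_self (I.enc w c (Function.update ω.1 i (ω.2 i)))
    linear_combination s1 + s2
  · intro c
    rw [enc_cs, phi_prod, enc_tens]
    exact Finset.prod_congr rfl fun t _ => (hrd (c t) t).symm
  · intro q
    rw [Finset.sum_congr rfl fun e _ => by rw [hrd e 0], enc_stat I hw]
    rfl
  · intro c hc
    rw [enc_cs, phi_win, enc_win I hw hc]

end Vale.Agent.P330.S.TS
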