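import Vale.Agent.P330.S.Mux
import Vale.Agent.P330.S.Prop1
import Vale.Agent.P330.S.TSC

/-!
# Comparison tests, finite form
-/

namespace Vale.Agent.P330.S

open Finset PCP.AR

/-- A lower bound for the mean. -/
theorem mean_ge_pr {Ω : Type*} [Fintype Ω] [Nonempty Ω] (f : Ω → ℝ) (hf : ∀ ω, 0 ≤ f ω) (ε : ℝ) :
    (1 - ε) * pr (fun ω => IsB ε true (f ω)) ≤ H855.mean f := by
  classical
  have hN : (0 : ℝ) < Fintype.card Ω := by exact_mod_cast Fintype.card_pos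
  unfold H855.mean pr
  rw [← mul_div_assoc]
  refine div_le_div_of_nonneg_right ?_ hN.le
  rw [Finset.mul_sum]
  refine Finset.sum_le_sum fun ω _ => ?_
  by_cases h : IsB ε true (f ω)
  · simp only [h, if_true, mul_one]
    simpa [IsB] using h
  · simp only [h, if_false, mul_zero]
    exact hf ω

variable {S : Spec} {r : ℕ} {I : Inst S r} {X : Exp I} {ε lam : ℝ} {x : Reg S → I.Site → ℝ}

/-- **Comparison**, finite: if the two families are different at a fraction `θ` of the sites then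
the test is 1 at a large fraction of the sites. -/
theorem cmp_lower {ρ : Reg S} {u v : S.Comp → (Rd S r × Reg S) ⊕ CB S}
    {g g' : S.Comp → I.Site → Bool} {β ρ₁ ρ₂ θ : ℝ}
    (hR : pr (fun ω => ¬ (MDef.bit (cmpDef r u v)).Rel (I.sem X) ε lam x ρ ω) ≤ β)
    (h1 : pr (fun ω => ∃ c, ¬ InpIs (I.sem X) ε x ω (u c) (g c ω)) ≤ ρ₁)
    (h2 : pr (fun ω => ∃ c, ¬ InpIs (I.sem X) ε x ω (v c) (g' c ω)) ≤ ρ₂)
    {c : S.Comp} (h3 : θ ≤ pr (fun ω => g c ω ≠ g' c ω)) :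
    θ - ρ₁ - ρ₂ - β ≤ pr (fun ω => IsB ε true (x ρ ω)) := by
  have key : pr (fun ω => g c ω ≠ g' c ω) ≤
      pr (fun ω => IsB ε true (x ρ ω)) + (pr (fun ω =>
        ¬ (MDef.bit (cmpDef r u v)).Rel (I.sem X) ε lam x ρ ω) +
        (pr (fun ω => ∃ c, ¬ InpIs (I.sem X) ε x ω (u c) (g c ω)) +
        pr (fun ω => ∃ c, ¬ InpIs (I.sem X) ε x ω (v c) (g' c ω)))) := by
    refine le_trans (pr_mono (r := fun ω => IsB ε true (x ρ ω) ∨
      (¬ (MDef.bit (cmpDef r u v)).Rel (I.sem X) ε lam x ρ ω ∨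
      ((∃ c, ¬ InpIs (I.sem X) ε x ω (u c) (g c ω)) ∨
      (∃ c, ¬ InpIs (I.sem X) ε x ω (v c) (g' c ω))))) ?_) ?_
    · intro ω hω
      by_contra hcon
      push Not at hcon
      obtain ⟨a1, a2, a3, a4⟩ := hcon
      exact a1 (cmp_true a2 (a3 c) (a4 c) hω)
    · refine (pr_or _ _).trans (add_le_add le_rfl ((pr_or _ _).trans (add_le_add le_rfl ?_)))
      exact pr_or _ _
  linarith

theorem dec_ne {a b : ZMod 2} (h : a ≠ b) : decide (a = 1) ≠ decide (b = 1) := by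
  revert a b
  decide

theorem dec_ne_iff {a b : ZMod 2} : decide (a = 1) ≠ decide (b = 1) ↔ a ≠ b := by
  revert a b
  decide

/-- Different configurations have codes at a distance. -/
theorem exists_comp (I : Inst S r) {w w' : I.J → S.Cell} (h : w ≠ w') :
    ∃ c, (1 / 2 : ℝ) ^ r ≤ pr (fun ω : I.Site =>
      decide (I.enc w c ω.1 = 1) ≠ decide (I.enc w' c ω.1 = 1)) := by
  by_contra hcon
  push Not at hcon
  refine h (TS.enc_inj I fun c => ?_)
  by_contra hc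
  have h1 := TS.enc_dist I hc
  have h2 := hcon c
  have h3 : pr (fun ω : I.Site => decide (I.enc w c ω.1 = 1) ≠ decide (I.enc w' c ω.1 = 1)) =
      pr (fun M : I.V => I.enc w c M ≠ I.enc w' c M) := by
    rw [← TS.pr_arg I fun M : I.V => I.enc w c M ≠ I.enc w' c M]
    exact pr_congr fun ω => dec_ne_iff
  rw [h3] at h2
  exact absurd h1 (not_le.2 h2)

/-- Near codes of the same register are equal. -/
theorem near_unique {z : Bool} {w w' : I.J → S.Cell} {ρ₁ ρ₂ : ℝ} (hε : ε < 1 / 2)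
    (h : Near I ε ρ₁ x z w) (h' : Near I ε ρ₂ x z w') (hρ : ρ₁ + ρ₂ < (1 / 2 : ℝ) ^ r) :
    w = w' := by
  by_contra hne
  obtain ⟨c, hc⟩ := exists_comp I hne
  rw [near_iff] at h h'
  have key : pr (fun ω : I.Site => decide (I.enc w c ω.1 = 1) ≠ decide (I.enc w' c ω.1 = 1)) ≤
      pr (fun ω => ¬ I.Rt ε x z w ω) + pr (fun ω => ¬ I.Rt ε x z w' ω) := by
    refine le_trans (pr_mono (r := fun ω => ¬ I.Rt ε x z w ω ∨ ¬ I.Rt ε x z w' ω) ?_) (pr_or _ _)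
    intro ω hω
    by_contra hcon
    push Not at hcon
    exact hω (isB_unique hε (hcon.1 c) (hcon.2 c))
  linarith

variable {τ : ℚ}

/-- The corrected reads of the next configuration are right, up to `ρ₀`. -/
def NearA (I : Inst S r) (ε ρ₀ : ℝ) (x : Reg S → I.Site → ℝ) (z : Bool) (w : I.J → S.Cell) :
    Prop :=
  pr (fun ω : I.Site => ∃ c : S.Comp, ¬ IsB ε (decide (I.enc w c ω.1 = 1)) (x (.a z c) ω)) ≤ ρ₀

theorem E0_lower {w w' : I.J → S.Cell} {β ρ₁ ρ₂ : ℝ}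
    (hR : pr (fun ω => ¬ (net S r τ (.t .E0)).Rel (I.sem X) ε lam x (.t .E0) ω) ≤ β)
    (h1 : Near I ε ρ₁ x false w) (h2 : Near I ε ρ₂ x true w') (hne : w ≠ w') :
    (1 / 2 : ℝ) ^ r - ρ₁ - ρ₂ - β ≤ pr (fun ω => IsB ε true (x (.t .E0) ω)) := by
  obtain ⟨c, hc⟩ := exists_comp I hne
  exact cmp_lower (g := fun c ω => decide (I.enc w c ω.1 = 1))
    (g' := fun c ω => decide (I.enc w' c ω.1 = 1)) hR h1 h2 hc

theorem E1_lower {w w' : I.J → S.Cell} {β ρ₁ ρ₂ : ℝ}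
    (hR : pr (fun ω => ¬ (net S r τ (.t .E1)).Rel (I.sem X) ε lam x (.t .E1) ω) ≤ β)
    (h1 : NearA I ε ρ₁ x false w) (h2 : Near I ε ρ₂ x true w') (hne : w' ≠ w) :
    (1 / 2 : ℝ) ^ r - ρ₂ - ρ₁ - β ≤ pr (fun ω => IsB ε true (x (.t .E1) ω)) := by
  obtain ⟨c, hc⟩ := exists_comp I hne
  exact cmp_lower (g := fun c ω => decide (I.enc w' c ω.1 = 1))
    (g' := fun c ω => decide (I.enc w c ω.1 = 1)) hR h2 h1 hc

theorem D_lower {z : Bool} {w : I.J → S.Cell} {β ρ₁ : ℝ}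
    (hR : pr (fun ω => ¬ (net S r τ (.t (.D z))).Rel (I.sem X) ε lam x (.t (.D z)) ω) ≤ β)
    (h1 : Near I ε ρ₁ x z w) (hne : w ≠ I.w0) :
    (1 / 2 : ℝ) ^ r - ρ₁ - β ≤ pr (fun ω => IsB ε true (x (.t (.D z)) ω)) := by
  obtain ⟨c, hc⟩ := exists_comp I hne
  have h0 : pr (fun ω : I.Site => ∃ c : S.Comp, ¬ InpIs (I.sem X) ε x ω
      (.inr (.start c)) (decide (I.enc I.w0 c ω.1 = 1))) ≤ 0 := by
    refine le_of_eq ?_
    rw [← pr_false (Ω := I.Site)]
    refine pr_congr fun ω => ⟨fun ⟨c, hc⟩ => hc ?_, fun h => h.elim⟩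
    show I.cb (.start c) ω = _
    rfl
  have := cmp_lower (g := fun c ω => decide (I.enc w c ω.1 = 1))
    (g' := fun c ω => decide (I.enc I.w0 c ω.1 = 1)) hR h1 h0 hc
  linarith

/-- Comparisons are right if both families are right. -/
theorem E0_pt {w : I.J → S.Cell} {ω : I.Site}
    (hR : (net S r τ (.t .E0)).Rel (I.sem X) ε lam x (.t .E0) ω)
    (h1 : I.Rt ε x false w ω) (h2 : I.Rt ε x true w ω) : IsB ε false (x (.t .E0) ω) :=
  cmp_false (b := fun c => decide (I.enc w c ω.1 = 1)) hR h1 h2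

theorem E1_pt {w : I.J → S.Cell} {ω : I.Site}
    (hR : (net S r τ (.t .E1)).Rel (I.sem X) ε lam x (.t .E1) ω)
    (h1 : ∀ c : S.Comp, IsB ε (decide (I.enc w c ω.1 = 1)) (x (.a false c) ω))
    (h2 : I.Rt ε x true w ω) : IsB ε false (x (.t .E1) ω) :=
  cmp_false (b := fun c => decide (I.enc w c ω.1 = 1)) hR h2 h1

theorem D_pt {z : Bool} {ω : I.Site}
    (hR : (net S r τ (.t (.D z))).Rel (I.sem X) ε lam x (.t (.D z)) ω)
    (h1 : I.Rt ε x z I.w0 ω) : IsB ε false (x (.t (.D z)) ω) :=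
  cmp_false (b := fun c => decide (I.enc I.w0 c ω.1 = 1)) hR h1 fun _ => rfl

end Vale.Agent.P330.S
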