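import Vale.Agent.P330.S.Defs

/-!
# Algebra of the code `Inst.enc`

* `cs_exact`: the cube sum of a multiadditive map is its value;
* `Inst.enc_multiAdd`, `Inst.enc_prod`, `Inst.enc_lin`, `Inst.enc_win`, `Inst.enc_ones`,
  `Inst.enc_apply`: values of the code at the arguments read by the network;
* `Inst.code_sound`: exact soundness of the test;
* `Inst.enc_dist`, `Inst.stat_dist`, `Inst.win_dist`: distances.
-/

namespace Vale.Agent.P330.S

open Finset PCP.AR

variable {S : Spec} {r : ℕ} (I : Inst S r)

/-- The functional of a rank one argument. -/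
def Inst.T (w : I.J → S.Cell) (e : S.Cell) (u : ∀ i, ZMod (I.L i) → ZMod 2) : ZMod 2 :=
  ∑ j : I.J, if w j = e then ∏ i, u i (j i) else 0

/-- The vectors hidden in a table argument, for the slot `t`. -/
def Inst.vecs (t : S.Slot) (M : I.V) : ∀ i, ZMod (I.L i) → ZMod 2 := fun i => I.vec t i (M i)

/-- tensor product of vectors -/
def Inst.tens (v : S.Slot → ∀ i, ZMod (I.L i) → ZMod 2) : I.V := fun i x => ∏ t, v t i (x t)

/-- the argument of the linear functional -/
def Inst.linT (u : ∀ i, ZMod (I.L i) → ZMod 2) : I.V := fun i x =>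
  if ∀ t, t ≠ 0 → x t = 0 then u i (x 0) else 0

/-- the argument of the window functional -/
def Inst.winT (u : ∀ i, ZMod (I.L i) → ZMod 2) : I.V := fun i x =>
  if ∀ t, x t - I.off (S.win t) i = x 0 - I.off (S.win 0) i then
    u i (x 0 - I.off (S.win 0) i) else 0

theorem Inst.phi_prod (M : I.V) : I.phi .prod M = I.tens (fun t => I.vecs t M) := rfl

theorem Inst.phi_lin (t : S.Slot) (M : I.V) : I.phi (.lin t) M = I.linT (I.vecs t M) := rfl

theorem Inst.phi_win (M : I.V) : I.phi .win M = I.winT (I.vecs 0 M) := rfl

set_option linter.unusedSectionVars false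

section cube

variable {ι : Type*} [Fintype ι] [DecidableEq ι] {A : ι → Type*} [∀ i, AddCommGroup (A i)]
  [∀ i, Fintype (A i)]

/-- The cube sum of a multiadditive map is its value. -/
theorem cs_exact {g : (∀ i, A i) → ZMod 2} (hg : MLT.MultiAdd g) (x y : ∀ i, A i) :
    MLT.cs g x y = g x := by
  classical
  have key : ∀ T : Finset ι, ∑ U ∈ T.powerset, g (MLT.zp T U x y) = g x := by
    intro T
    induction T using Finset.induction_on with
    | empty =>
      simp only [Finset.powerset_empty, Finset.sum_singleton]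
      congr 1
    | insert i T hi ih =>
      rw [Finset.sum_powerset_insert hi, ← Finset.sum_add_distrib, ← ih]
      refine Finset.sum_congr rfl fun U hU => ?_
      have hUT := Finset.mem_powerset.1 hU
      have hiU : i ∉ U := fun h => hi (hUT h)
      have z1 : Function.update (MLT.zp T U x y) i (x i) = MLT.zp T U x y := by
        have : MLT.zp T U x y i = x i := by simp [MLT.zp, hiU, hi]
        rw [← this, Function.update_eq_self]
      have z2 : MLT.zp (insert i T) U x y = Function.update (MLT.zp T U x y) i (y i) := by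
        funext j
        by_cases hj : j = i
        · subst hj; simp [MLT.zp, hiU]
        · rw [Function.update_of_ne hj]; simp [MLT.zp, hj]
      have z3 : MLT.zp (insert i T) (insert i U) x y =
          Function.update (MLT.zp T U x y) i (x i + y i) := by
        funext j
        by_cases hj : j = i
        · subst hj; simp [MLT.zp]
        · rw [Function.update_of_ne hj]; simp [MLT.zp, hj]
      rw [z2, z3, hg i (MLT.zp T U x y) (x i) (y i), z1]
      have s := zmod2_add_self (g (Function.update (MLT.zp T U x y) i (y i)))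
      linear_combination s
  have := key univ
  rw [← this]
  unfold MLT.cs
  rw [Finset.powerset_univ]
  refine Finset.sum_congr rfl fun U _ => ?_
  congr 1
  funext j
  simp [MLT.cp, MLT.zp]

end cube


section multi

variable {ι : Type*} [Fintype ι] [dι : DecidableEq ι]

theorem multiAdd_zero' {A : ι → Type*} [∀ i, AddCommGroup (A i)]
    {g : (∀ i, A i) → ZMod 2} (hg : MLT.MultiAdd g) (i : ι) (x : ∀ i, A i) :
    g (Function.update x i 0) = 0 := by
  have h := hg i x 0 0
  rw [add_zero] at h
  have s := zmod2_add_self (g (Function.update x i 0))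
  rw [← h] at s
  exact s

/-- a multiadditive map as a multilinear map -/
def toMulti {X : ι → Type*} (g : (∀ i, X i → ZMod 2) → ZMod 2)
    (hg : MLT.MultiAdd (A := fun i => X i → ZMod 2) g) :
    MultilinearMap (ZMod 2) (fun i => X i → ZMod 2) (ZMod 2) where
  toFun := g
  map_update_add' := by
    intro dec m i x y
    obtain rfl : dec = dι := Subsingleton.elim _ _
    exact hg i m x y
  map_update_smul' := by
    intro dec m i c x
    obtain rfl : dec = dι := Subsingleton.elim _ _
    have h0' : g (Function.update m i 0) = 0 := multiAdd_zero' hg i m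
    have hc : c = 0 ∨ c = 1 := by
      revert c; decide
    rcases hc with rfl | rfl
    · rw [zero_smul, zero_smul, h0']
    · rw [one_smul, one_smul]

/-- expansion of a multiadditive map -/
theorem multi_expand {X : ι → Type*} [∀ i, Fintype (X i)] [∀ i, DecidableEq (X i)]
    (g : (∀ i, X i → ZMod 2) → ZMod 2)
    (hg : MLT.MultiAdd (A := fun i => X i → ZMod 2) g) (M : ∀ i, X i → ZMod 2) :
    g M = ∑ x : ∀ i, X i, (∏ i, M i (x i)) * g (fun i => Pi.single (x i) 1) := by
  have h1 : M = fun i => ∑ a : X i, M i a • (Pi.single a 1 : X i → ZMod 2) := by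
    funext i x
    simp [Finset.sum_apply, Pi.single_apply]
  have h2 := (toMulti g hg).map_sum (fun i (a : X i) => M i a • (Pi.single a 1 : X i → ZMod 2))
  rw [← h1] at h2
  have h3 : (toMulti g hg) M = g M := rfl
  rw [h3] at h2
  rw [h2]
  refine Finset.sum_congr rfl fun x _ => ?_
  rw [(toMulti g hg).map_smul_univ]
  rfl

/-- blockwise additive substitutions -/
theorem multiAdd_comp {A B : ι → Type*} [∀ i, AddCommGroup (A i)] [∀ i, AddCommGroup (B i)]
    {g : (∀ i, A i) → ZMod 2} (hg : MLT.MultiAdd g) (f : ∀ i, B i → A i)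
    (hf : ∀ i x y, f i (x + y) = f i x + f i y) :
    MLT.MultiAdd (fun u : ∀ i, B i => g (fun i => f i (u i))) := by
  intro i x u v
  have h : ∀ w : B i, (fun j => f j (Function.update x i w j)) =
      Function.update (fun j => f j (x j)) i (f i w) := by
    intro w
    funext j
    by_cases hj : j = i
    · subst hj; simp
    · simp [Function.update_of_ne hj]
  simp only [h, hf, hg i]

/-- surjective homomorphisms preserve the uniform probability -/
theorem pr_surj {A B : Type*} [AddCommGroup A] [AddCommGroup B] [Fintype A] [Fintype B]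
    (φ : A →+ B) (hφ : Function.Surjective φ) (P : B → Prop) :
    pr (fun a => P (φ a)) = pr P := by
  classical
  choose s hs using hφ
  have h1 : pr (fun t : A × B => P (φ t.1 + t.2)) = pr (fun a => P (φ a)) := by
    rw [← pr_fst (Ω := A) (Ω' := B) (fun a => P (φ a))]
    let E : A × B ≃ A × B :=
      { toFun := fun t => (t.1 + s t.2, t.2)
        invFun := fun t => (t.1 - s t.2, t.2)
        left_inv := fun t => by simp
        right_inv := fun t => by simp }
    rw [← pr_equiv E (fun t => P (φ t.1))]
    apply pr_congr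
    intro t
    simp only [E, Equiv.coe_fn_mk, map_add, hs]
  have h2 : pr (fun t : A × B => P (φ t.1 + t.2)) = pr P := by
    rw [← pr_snd (Ω := A) (Ω' := B) P]
    let E : A × B ≃ A × B :=
      { toFun := fun t => (t.1, φ t.1 + t.2)
        invFun := fun t => (t.1, t.2 - φ t.1)
        left_inv := fun t => by simp
        right_inv := fun t => by simp }
    rw [← pr_equiv E (fun t => P t.2)]
    rfl
  rw [← h1, h2]

end multi

/-! ### The code is multiadditive -/

theorem Inst.enc_multiAdd (w : I.J → S.Cell) (c : S.Comp) :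
    MLT.MultiAdd (A := fun i => I.X i → ZMod 2) (I.enc w c) := by
  intro i M u v
  unfold Inst.enc
  rw [← Finset.sum_add_distrib]
  refine Finset.sum_congr rfl fun j _ => ?_
  split_ifs
  · rw [← Finset.mul_prod_erase univ _ (Finset.mem_univ i),
      ← Finset.mul_prod_erase univ _ (Finset.mem_univ i),
      ← Finset.mul_prod_erase univ _ (Finset.mem_univ i)]
    simp only [Function.update_self, Pi.add_apply]
    have h : ∀ w' : I.X i → ZMod 2,
        (∏ x ∈ univ.erase i, Function.update M i w' x (fun t => j t x)) =
        ∏ x ∈ univ.erase i, M x (fun t => j t x) := by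
      intro w'
      refine Finset.prod_congr rfl fun x hx => ?_
      rw [Function.update_of_ne (Finset.ne_of_mem_erase hx)]
    rw [h, h, h]
    ring
  · simp

theorem Inst.T_multiAdd (w : I.J → S.Cell) (e : S.Cell) :
    MLT.MultiAdd (A := fun i => ZMod (I.L i) → ZMod 2) (I.T w e) := by
  intro i M u v
  unfold Inst.T
  rw [← Finset.sum_add_distrib]
  refine Finset.sum_congr rfl fun j _ => ?_
  split_ifs
  · rw [← Finset.mul_prod_erase univ _ (Finset.mem_univ i),
      ← Finset.mul_prod_erase univ _ (Finset.mem_univ i),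
      ← Finset.mul_prod_erase univ _ (Finset.mem_univ i)]
    simp only [Function.update_self, Pi.add_apply]
    have h : ∀ w' : ZMod (I.L i) → ZMod 2,
        (∏ x ∈ univ.erase i, Function.update M i w' x (j x)) =
        ∏ x ∈ univ.erase i, M x (j x) := by
      intro w'
      refine Finset.prod_congr rfl fun x hx => ?_
      rw [Function.update_of_ne (Finset.ne_of_mem_erase hx)]
    rw [h, h, h]
    ring
  · simp

/-! ### Values at special arguments -/

theorem Inst.enc_tens (w : I.J → S.Cell) (c : S.Comp)
    (v : S.Slot → ∀ i, ZMod (I.L i) → ZMod 2) :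
    I.enc w c (I.tens v) = ∏ t, I.T w (c t) (v t) := by
  unfold Inst.enc Inst.T Inst.tens
  rw [Finset.prod_univ_sum, Fintype.piFinset_univ]
  refine Finset.sum_congr rfl fun j _ => ?_
  by_cases h : ∀ t, w (j t) = c t
  · rw [if_pos h]
    rw [Finset.prod_comm]
    refine Finset.prod_congr rfl fun t _ => ?_
    rw [if_pos (h t)]
  · rw [if_neg h]
    push Not at h
    obtain ⟨t, ht⟩ := h
    symm
    apply Finset.prod_eq_zero (Finset.mem_univ t)
    rw [if_neg ht]

theorem Inst.enc_prod (w : I.J → S.Cell) (c : S.Comp) (M : I.V) :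
    I.enc w c (I.phi .prod M) = ∏ t, I.T w (c t) (I.vecs t M) := by
  rw [I.phi_prod, I.enc_tens]

/-- the argument supported on the windows `j + off (o t)` -/
def Inst.diagT (o : S.Slot → S.Off) (u : ∀ i, ZMod (I.L i) → ZMod 2) : I.V := fun i x =>
  if ∀ t, x t - I.off (o t) i = x 0 - I.off (o 0) i then u i (x 0 - I.off (o 0) i) else 0

theorem Inst.winT_eq (u : ∀ i, ZMod (I.L i) → ZMod 2) : I.winT u = I.diagT S.win u := rfl

theorem Inst.phi_ones (o : S.Slot → S.Off) (M : I.V) :
    I.phi (.ones o) M = I.diagT o (fun _ _ => 1) := rfl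

theorem Inst.enc_sum (w : I.J → S.Cell) (P : S.Comp → Prop) [DecidablePred P] (M : I.V) :
    (∑ c : S.Comp, if P c then I.enc w c M else 0) =
      ∑ j : S.Slot → I.J, if P (fun t => w (j t)) then ∏ i, M i (fun t => j t i) else 0 := by
  have h1 : ∀ c : S.Comp, (if P c then I.enc w c M else 0) =
      ∑ j : S.Slot → I.J, if c = (fun t => w (j t)) then
        (if P (fun t => w (j t)) then ∏ i, M i (fun t => j t i) else 0) else 0 := by
    intro c
    split_ifs with hP
    · unfold Inst.enc
      refine Finset.sum_congr rfl fun j _ => ?_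
      by_cases h : ∀ t, w (j t) = c t
      · have : c = fun t => w (j t) := by funext t; exact (h t).symm
        rw [if_pos h, if_pos this, if_pos (this ▸ hP)]
      · have : ¬ c = fun t => w (j t) := by
          intro h'; apply h; intro t; rw [h']
        rw [if_neg h, if_neg this]
    · symm
      apply Finset.sum_eq_zero
      intro j _
      by_cases h : c = fun t => w (j t)
      · rw [if_pos h, if_neg (h ▸ hP)]
      · rw [if_neg h]
  rw [Finset.sum_congr rfl fun c _ => h1 c, Finset.sum_comm]
  refine Finset.sum_congr rfl fun j _ => ?_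
  rw [Finset.sum_ite_eq' univ (fun t => w (j t))]
  simp

theorem sum_inj {α β : Type*} [Fintype α] [Fintype β] (ψ : α → β) (hψ : Function.Injective ψ)
    (F : β → ZMod 2) (h0 : ∀ b, (¬ ∃ a, ψ a = b) → F b = 0) : ∑ b, F b = ∑ a, F (ψ a) := by
  classical
  rw [← Finset.sum_image (s := univ) (f := F) (g := ψ) (fun a _ b _ h => hψ h)]
  symm
  apply Finset.sum_subset (Finset.subset_univ _)
  intro b _ hb
  apply h0
  rintro ⟨a, ha⟩
  exact hb (Finset.mem_image.2 ⟨a, Finset.mem_univ a, ha⟩)

theorem Inst.enc_sum_diag (w : I.J → S.Cell) (P : S.Comp → Prop) [DecidablePred P]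
    (o : S.Slot → S.Off) (u : ∀ i, ZMod (I.L i) → ZMod 2) :
    (∑ c : S.Comp, if P c then I.enc w c (I.diagT o u) else 0) =
      ∑ j : I.J, if P (fun t => w (j + I.off (o t))) then ∏ i, u i (j i) else 0 := by
  rw [I.enc_sum]
  rw [sum_inj (fun (j : I.J) (t : S.Slot) => j + I.off (o t))]
  · refine Finset.sum_congr rfl fun j _ => ?_
    split_ifs with h
    · refine Finset.prod_congr rfl fun i _ => ?_
      simp [Inst.diagT]
    · rfl
  · intro j j' h
    have := congrFun h 0
    simpa using this
  · intro b hb
    split_ifs with h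
    · have h2 : ¬ ∀ i t, b t i - I.off (o t) i = b 0 i - I.off (o 0) i := by
        intro h2
        apply hb
        refine ⟨b 0 - I.off (o 0), ?_⟩
        funext t i
        have := h2 i t
        simp only [Pi.add_apply, Pi.sub_apply]
        rw [← this]; ring
      push Not at h2
      obtain ⟨i, t, hit⟩ := h2
      apply Finset.prod_eq_zero (Finset.mem_univ i)
      unfold Inst.diagT
      rw [if_neg]
      intro h3
      exact hit (h3 t)
    · rfl

theorem Inst.enc_sum_lin (w : I.J → S.Cell) (e : S.Cell) (u : ∀ i, ZMod (I.L i) → ZMod 2) :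
    (∑ c : S.Comp, if c 0 = e then I.enc w c (I.linT u) else 0) = I.T w e u := by
  rw [I.enc_sum]
  rw [sum_inj (fun (j : I.J) (t : S.Slot) => if t = 0 then j else 0)]
  · unfold Inst.T
    refine Finset.sum_congr rfl fun j _ => ?_
    simp only [if_true]
    split_ifs with h
    · refine Finset.prod_congr rfl fun i _ => ?_
      unfold Inst.linT
      rw [if_pos]
      · simp
      · intro t ht
        simp [ht]
    · rfl
  · intro j j' h
    have := congrFun h 0
    simpa using this
  · intro b hb
    split_ifs with h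
    · have h2 : ¬ ∀ i, ∀ t, t ≠ 0 → b t i = 0 := by
        intro h2
        apply hb
        refine ⟨b 0, ?_⟩
        funext t
        by_cases ht : t = 0
        · subst ht; simp
        · funext i
          simp [ht, h2 i t ht]
      push Not at h2
      obtain ⟨i, t, ht, hit⟩ := h2
      apply Finset.prod_eq_zero (Finset.mem_univ i)
      unfold Inst.linT
      rw [if_neg]
      intro h3
      exact hit (h3 t ht)
    · rfl

/-- The linear functional. -/
theorem Inst.enc_lin (w : I.J → S.Cell) (t : S.Slot) (e : S.Cell) (M : I.V) :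
    (∑ c : S.Comp, if c 0 = e then I.enc w c (I.phi (.lin t) M) else 0) =
      I.T w e (I.vecs t M) := by
  rw [I.phi_lin, I.enc_sum_lin]

theorem Inst.enc_diag (w : I.J → S.Cell) (c : S.Comp) (o : S.Slot → S.Off)
    (u : ∀ i, ZMod (I.L i) → ZMod 2) :
    I.enc w c (I.diagT o u) =
      ∑ j : I.J, if ∀ t, w (j + I.off (o t)) = c t then ∏ i, u i (j i) else 0 := by
  have h := I.enc_sum_diag w (fun c' => c' = c) o u
  simp only [Finset.sum_ite_eq', Finset.mem_univ, if_true] at h
  rw [h]
  refine Finset.sum_congr rfl fun j _ => ?_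
  simp only [funext_iff]

/-- The window functional. -/
theorem Inst.enc_win (w : I.J → S.Cell) (c : S.Comp) (M : I.V) :
    I.enc w c (I.phi .win M) =
      ∑ j : I.J, if ∀ t, w (j + I.off (S.win t)) = c t then ∏ i, I.vecs 0 M i (j i) else 0 := by
  rw [I.phi_win, I.winT_eq, I.enc_diag]

theorem Inst.enc_win_of_valid {w : I.J → S.Cell} (hw : I.Valid w) {c : S.Comp}
    (hc : S.allowed c = false) (M : I.V) : I.enc w c (I.phi .win M) = 0 := by
  rw [I.enc_win]
  apply Finset.sum_eq_zero
  intro j _
  rw [if_neg]
  intro h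
  have h2 : (fun t => w (j + I.off (S.win t))) = c := funext h
  have h3 := hw.2 j
  rw [h2, hc] at h3
  exact Bool.false_ne_true h3

/-- The static functional. -/
theorem Inst.T_stat (w : I.J → S.Cell) (q : S.Stat) (u : ∀ i, ZMod (I.L i) → ZMod 2) :
    (∑ e : S.Cell, if S.statOf e = q then I.T w e u else 0) =
      ∑ j : I.J, if S.statOf (w j) = q then ∏ i, u i (j i) else 0 := by
  have h1 : ∀ e : S.Cell, (if S.statOf e = q then I.T w e u else 0) =
      ∑ j : I.J, if e = w j then (if S.statOf (w j) = q then ∏ i, u i (j i) else 0) else 0 := by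
    intro e
    split_ifs with h
    · unfold Inst.T
      refine Finset.sum_congr rfl fun j _ => ?_
      by_cases hj : w j = e
      · rw [if_pos hj, if_pos hj.symm, if_pos (hj ▸ h)]
      · rw [if_neg hj, if_neg (fun h' => hj h'.symm)]
    · symm
      apply Finset.sum_eq_zero
      intro j _
      by_cases hj : e = w j
      · rw [if_pos hj, if_neg (hj ▸ h)]
      · rw [if_neg hj]
  rw [Finset.sum_congr rfl fun e _ => h1 e, Finset.sum_comm]
  refine Finset.sum_congr rfl fun j _ => ?_
  rw [Finset.sum_ite_eq' univ (w j)]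
  simp

theorem Inst.enc_ones (w : I.J → S.Cell) (c : S.Comp) (o : S.Slot → S.Off) (M : I.V) :
    I.enc w c (I.phi (.ones o) M) =
      ∑ b : I.J, if ∀ t, w (b + I.off (o t)) = c t then 1 else 0 := by
  rw [I.phi_ones, I.enc_diag]
  simp

/-- Reading the cell at the offset `o` from the head. -/
theorem Inst.enc_head {w : I.J → S.Cell} {h : I.J} (hh : I.IsHead w h) (o : S.Off) (e : S.Cell)
    (M : I.V) :
    (∑ c : S.Comp, if S.hd (c 0) = true ∧ c 1 = e then I.enc w c (I.phi (.ones (offs S o)) M)
      else 0) = if w (h + I.off o) = e then 1 else 0 := by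
  rw [I.phi_ones, I.enc_sum_diag w (fun c => S.hd (c 0) = true ∧ c 1 = e)]
  have h01 : (0 : S.Slot) ≠ 1 := by
    intro h
    have := congrArg Fin.val h
    simp at this
  simp only [offs, h01, if_true, if_false, I.off_zero, add_zero, Finset.prod_const_one]
  rw [Finset.sum_eq_single h]
  · simp [hh.1]
  · intro j _ hj
    rw [if_neg]
    rintro ⟨h1, -⟩
    exact hj (hh.2 j h1)
  · intro h'
    exact absurd (Finset.mem_univ h) h'

/-! ### The step identity -/

theorem winOf_eq (g : S.Off → S.Cell → Bool) (win : S.Off → S.Cell)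
    (hg : ∀ o e, g o e = decide (win o = e)) : winOf g = win := by
  funext o
  unfold winOf
  have h : ∃ e, g o e = true := ⟨win o, by simp [hg]⟩
  rw [dif_pos h]
  have := h.choose_spec
  rw [hg] at this
  exact (of_decide_eq_true this).symm

theorem Inst.head_unique {w : I.J → S.Cell} {h h' : I.J} (hh : I.IsHead w h)
    (hh' : I.IsHead w h') : h = h' := hh'.2 h hh.1

/-- The cell `j` of the next configuration. -/
theorem Inst.apply_ind (z : Bool) {w : I.J → S.Cell} {h : I.J} (hh : I.IsHead w h) (j : I.J)
    (e : S.Cell) :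
    (if I.apply z w h j = e then (1 : ZMod 2) else 0) =
      ∑ o : S.Off, ∑ e' : S.Cell, coef S z (fun o => w (h + I.off o)) e e' o *
        (if w (j - I.off o) = e' then 1 else 0) := by
  classical
  set win : S.Off → S.Cell := fun o => w (h + I.off o) with hwin
  -- sum over `e'`
  have h1 : ∀ o : S.Off, (∑ e' : S.Cell, coef S z win e e' o *
      (if w (j - I.off o) = e' then 1 else 0)) = coef S z win e (w (j - I.off o)) o := by
    intro o
    simp
  simp only [h1]
  unfold coef
  rw [Finset.sum_add_distrib]
  -- the first part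
  have h2 : (∑ o : S.Off, if o = S.zero ∧ (S.rule z win).1 (w (j - I.off o)) = e
      then (1 : ZMod 2) else 0) = if (S.rule z win).1 (w j) = e then 1 else 0 := by
    rw [Finset.sum_eq_single S.zero]
    · simp [I.off_zero]
    · intro o _ ho
      rw [if_neg]
      rintro ⟨h, -⟩
      exact ho h
    · intro h'
      exact absurd (Finset.mem_univ _) h'
  rw [h2]
  by_cases hj : ∃ o, S.upd o = true ∧ j = h + I.off o
  · have ha : I.apply z w h j = (S.rule z win).2 hj.choose := by
      unfold Inst.apply
      rw [dif_pos hj]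
    obtain ⟨ho1, ho2⟩ := hj.choose_spec
    set o₀ := hj.choose with ho₀
    rw [Finset.sum_eq_single o₀]
    · have h3 : j - I.off o₀ = h := by rw [ho2]; simp
      have h5 : win o₀ = w j := by rw [hwin]; simp only; rw [← ho2]
      rw [h3, ha, if_pos (show S.upd o₀ = true ∧ S.hd (w h) = true from ⟨ho1, hh.1⟩), h5]
      have s := zmod2_add_self (if (S.rule z win).1 (w j) = e then (1 : ZMod 2) else 0)
      linear_combination -s
    · intro o _ ho
      rw [if_neg]
      rintro ⟨h3, h4⟩
      apply ho
      have h5 := hh.2 _ h4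
      apply I.off_inj o o₀ h3 ho1
      have h6 : j = h + I.off o := by rw [← h5]; simp
      rw [ho2] at h6
      exact (add_left_cancel h6).symm
    · intro h'
      exact absurd (Finset.mem_univ _) h'
  · have ha : I.apply z w h j = (S.rule z win).1 (w j) := by
      unfold Inst.apply
      rw [dif_neg hj]
    rw [ha]
    rw [Finset.sum_eq_zero, add_zero]
    intro o _
    rw [if_neg]
    rintro ⟨h3, h4⟩
    apply hj
    refine ⟨o, h3, ?_⟩
    have h5 := hh.2 _ h4
    rw [← h5]; simp

/-- **Step identity.** -/
theorem Inst.enc_apply (z : Bool) {w : I.J → S.Cell} {h : I.J} (hh : I.IsHead w h) (c : S.Comp)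
    (M : I.V) :
    I.enc (I.apply z w h) c M = ∑ o : S.Slot → S.Off, ∑ c' : S.Comp,
      (∏ t, coef S z (fun o => w (h + I.off o)) (c t) (c' t) (o t)) *
        I.enc w c' (I.phi (.shift o) M) := by
  classical
  set win : S.Off → S.Cell := fun o => w (h + I.off o) with hwin
  have hind : ∀ (w' : I.J → S.Cell) (c : S.Comp) (j : S.Slot → I.J) (p : ZMod 2),
      (if ∀ t, w' (j t) = c t then p else 0) =
        (∏ t, if w' (j t) = c t then (1 : ZMod 2) else 0) * p := by
    intro w' c j p
    by_cases h : ∀ t, w' (j t) = c t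
    · rw [if_pos h, Finset.prod_eq_one, one_mul]
      intro t _
      rw [if_pos (h t)]
    · rw [if_neg h]
      push Not at h
      obtain ⟨t, ht⟩ := h
      rw [Finset.prod_eq_zero (Finset.mem_univ t) (by rw [if_neg ht]), zero_mul]
  -- the right side, after the shift
  have h1 : ∀ (o : S.Slot → S.Off) (c' : S.Comp), I.enc w c' (I.phi (.shift o) M) =
      ∑ j : S.Slot → I.J, (∏ t, if w (j t - I.off (o t)) = c' t then (1 : ZMod 2) else 0) *
        ∏ i, M i (fun t => j t i) := by
    intro o c'
    unfold Inst.enc
    rw [← Equiv.sum_comp (Equiv.piCongrRight fun t => Equiv.subRight (I.off (o t)))]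
    refine Finset.sum_congr rfl fun j _ => ?_
    rw [hind]
    simp only [Equiv.piCongrRight_apply, Pi.map_apply, Equiv.subRight_apply]
    congr 1
    refine Finset.prod_congr rfl fun i _ => ?_
    simp only [Inst.phi, Inst.phiB, Pi.sub_apply, sub_add_cancel]
  have h2 : I.enc (I.apply z w h) c M = ∑ j : S.Slot → I.J,
      (∏ t, if I.apply z w h (j t) = c t then (1 : ZMod 2) else 0) *
        ∏ i, M i (fun t => j t i) := by
    unfold Inst.enc
    refine Finset.sum_congr rfl fun j _ => hind _ _ _ _
  rw [h2]
  simp only [h1, Finset.mul_sum]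
  have h3 : ∀ j : S.Slot → I.J, (∏ t, if I.apply z w h (j t) = c t then (1 : ZMod 2) else 0) =
      ∑ o : S.Slot → S.Off, ∑ c' : S.Comp, (∏ t, coef S z win (c t) (c' t) (o t)) *
        ∏ t, if w (j t - I.off (o t)) = c' t then (1 : ZMod 2) else 0 := by
    intro j
    simp only [I.apply_ind z hh]
    rw [← hwin]
    rw [Finset.prod_univ_sum, Fintype.piFinset_univ]
    refine Finset.sum_congr rfl fun o _ => ?_
    rw [Finset.prod_univ_sum, Fintype.piFinset_univ]
    refine Finset.sum_congr rfl fun c' _ => ?_
    rw [← Finset.prod_mul_distrib]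
  calc (∑ j : S.Slot → I.J, (∏ t, if I.apply z w h (j t) = c t then (1 : ZMod 2) else 0) *
        ∏ i, M i (fun t => j t i))
      = ∑ j : S.Slot → I.J, ∑ o : S.Slot → S.Off, ∑ c' : S.Comp,
          (∏ t, coef S z win (c t) (c' t) (o t)) *
          ((∏ t, if w (j t - I.off (o t)) = c' t then (1 : ZMod 2) else 0) *
          ∏ i, M i (fun t => j t i)) := by
        refine Finset.sum_congr rfl fun j _ => ?_
        rw [h3, Finset.sum_mul]
        refine Finset.sum_congr rfl fun o _ => ?_
        rw [Finset.sum_mul]
        refine Finset.sum_congr rfl fun c' _ => ?_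
        ring
    _ = _ := by
        rw [Finset.sum_comm]
        refine Finset.sum_congr rfl fun o _ => ?_
        rw [Finset.sum_comm]

theorem Inst.step_eq (z : Bool) {w : I.J → S.Cell} {h : I.J} (hh : I.IsHead w h) :
    I.step z w = I.apply z w h := by
  unfold Inst.step
  have h1 : ∃ h, I.IsHead w h := ⟨h, hh⟩
  rw [dif_pos h1, I.head_unique h1.choose_spec hh]

theorem Inst.enc_step (z : Bool) {w : I.J → S.Cell} {h : I.J} (hh : I.IsHead w h) (c : S.Comp)
    (M : I.V) :
    I.enc (I.step z w) c M = ∑ o : S.Slot → S.Off, ∑ c' : S.Comp,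
      (∏ t, coef S z (fun o => w (h + I.off o)) (c t) (c' t) (o t)) *
        I.enc w c' (I.phi (.shift o) M) := by
  rw [I.step_eq z hh, I.enc_apply z hh]

end Vale.Agent.P330.S
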