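import Vale.Agent.P330.S.Code

/-!
# The code, part 2: distances and exact soundness of the test
-/

namespace Vale.Agent.P330.S

open Finset PCP.AR

set_option linter.unusedSectionVars false

variable {S : Spec} {r : ℕ} (I : Inst S r)

/-! ### The hidden vectors are uniform -/

theorem Inst.cast_slot_inj (i : Fin r) (t t' : S.Slot)
    (h : ((t : ℕ) : ZMod (I.L i)) = ((t' : ℕ) : ZMod (I.L i))) : t = t' := by
  rw [ZMod.natCast_eq_natCast_iff'] at h
  have h1 := I.hL i
  rw [Nat.mod_eq_of_lt (by omega), Nat.mod_eq_of_lt (by omega)] at h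
  exact Fin.ext h

/-- indices of all hidden vectors -/
abbrev Inst.K (_I : Inst S r) : Type := S.Slot × Fin r

/-- families of all hidden vectors -/
abbrev Inst.B (I : Inst S r) : Type := ∀ p : I.K, ZMod (I.L p.2) → ZMod 2

/-- all hidden vectors -/
def Inst.allVecs : I.V →+ I.B where
  toFun M p := I.vec p.1 p.2 (M p.2)
  map_zero' := rfl
  map_add' _ _ := rfl

theorem Inst.allVecs_surj : Function.Surjective I.allVecs := by
  classical
  intro v
  refine ⟨fun i x => if h : ∃ t : S.Slot, x 1 = ((t : ℕ) : ZMod (I.L i)) then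
    v (h.choose, i) (x 0) else 0, ?_⟩
  funext p a
  obtain ⟨t, i⟩ := p
  show (if h : ∃ t' : S.Slot, _ = ((t' : ℕ) : ZMod (I.L i)) then v (h.choose, i) _ else 0) = _
  have h10 : (1 : S.Slot) ≠ 0 := by
    intro h
    have := congrArg Fin.val h
    simp at this
  simp only [h10, if_false, if_true]
  have hex : ∃ t' : S.Slot, ((t : ℕ) : ZMod (I.L i)) = ((t' : ℕ) : ZMod (I.L i)) := ⟨t, rfl⟩
  have key : ∀ t' : S.Slot, t = t' → v (t', i) a = v (t, i) a := fun t' h => by rw [h]
  rw [dif_pos hex]
  exact key _ (I.cast_slot_inj i _ _ hex.choose_spec)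

theorem Inst.pr_allVecs (P : I.B → Prop) : pr (fun M : I.V => P (I.allVecs M)) = pr P :=
  pr_surj I.allVecs I.allVecs_surj P

/-- the hidden vectors of the slot `t` -/
def Inst.vecsHom (t : S.Slot) : I.V →+ (∀ i, ZMod (I.L i) → ZMod 2) where
  toFun M := I.vecs t M
  map_zero' := rfl
  map_add' _ _ := rfl

theorem Inst.vecsHom_surj (t : S.Slot) : Function.Surjective (I.vecsHom t) := by
  intro u
  obtain ⟨M, hM⟩ := I.allVecs_surj (fun p => u p.2)
  exact ⟨M, funext fun i => congrFun hM (t, i)⟩

theorem Inst.pr_vecs (t : S.Slot) (P : (∀ i, ZMod (I.L i) → ZMod 2) → Prop) :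
    pr (fun M : I.V => P (I.vecs t M)) = pr P :=
  pr_surj (I.vecsHom t) (I.vecsHom_surj t) P

/-- Two multiadditive maps that agree with high probability are equal. -/
theorem eq_of_pr {ι : Type*} [Fintype ι] [DecidableEq ι] {A : ι → Type*}
    [∀ i, AddCommGroup (A i)] [∀ i, Fintype (A i)]
    {f f' : (∀ i, A i) → ZMod 2} (hf : MLT.MultiAdd f) (hf' : MLT.MultiAdd f')
    (h : pr (fun x => f x ≠ f' x) < (1 / 2 : ℝ) ^ Fintype.card ι) : f = f' := by
  by_contra hne
  exact absurd (MLT.dist hf hf' hne) (not_le.2 h)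

/-! ### Multiadditivity of the functionals -/

theorem Inst.linT_multiAdd {g : I.V → ZMod 2}
    (hg : MLT.MultiAdd (A := fun i => I.X i → ZMod 2) g) :
    MLT.MultiAdd (A := fun i => ZMod (I.L i) → ZMod 2) (fun u => g (I.linT u)) := by
  refine multiAdd_comp (A := fun i => I.X i → ZMod 2) (B := fun i => ZMod (I.L i) → ZMod 2) hg
    (fun i (u : ZMod (I.L i) → ZMod 2) x => if ∀ t, t ≠ 0 → x t = 0 then u (x 0) else 0) ?_
  intro i u v
  funext x
  simp only [Pi.add_apply]
  split_ifs <;> simp

theorem Inst.winT_multiAdd {g : I.V → ZMod 2}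
    (hg : MLT.MultiAdd (A := fun i => I.X i → ZMod 2) g) :
    MLT.MultiAdd (A := fun i => ZMod (I.L i) → ZMod 2) (fun u => g (I.winT u)) := by
  refine multiAdd_comp (A := fun i => I.X i → ZMod 2) (B := fun i => ZMod (I.L i) → ZMod 2) hg
    (fun i (u : ZMod (I.L i) → ZMod 2) x =>
      if ∀ t, x t - I.off (S.win t) i = x 0 - I.off (S.win 0) i then
        u (x 0 - I.off (S.win 0) i) else 0) ?_
  intro i u v
  funext x
  simp only [Pi.add_apply]
  split_ifs <;> simp

theorem multiAdd_sum {ι : Type*} [DecidableEq ι] {A : ι → Type*} [∀ i, AddCommGroup (A i)]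
    {κ : Type*} (s : Finset κ) (f : κ → (∀ i, A i) → ZMod 2)
    (hf : ∀ k ∈ s, MLT.MultiAdd (f k)) : MLT.MultiAdd (fun x => ∑ k ∈ s, f k x) := by
  intro i x u v
  simp only
  rw [← Finset.sum_add_distrib]
  exact Finset.sum_congr rfl fun k hk => hf k hk i x u v

theorem multiAdd_zero_fun {ι : Type*} [DecidableEq ι] {A : ι → Type*}
    [∀ i, AddCommGroup (A i)] : MLT.MultiAdd (fun _ : (∀ i, A i) => (0 : ZMod 2)) := by
  intro i x u v
  simp

/-- the linear functionals of a family -/
def Inst.F (g : S.Comp → I.V → ZMod 2) (e : S.Cell) (u : ∀ i, ZMod (I.L i) → ZMod 2) : ZMod 2 :=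
  ∑ c : S.Comp, if c 0 = e then g c (I.linT u) else 0

theorem Inst.F_multiAdd {g : S.Comp → I.V → ZMod 2}
    (hg : ∀ c, MLT.MultiAdd (A := fun i => I.X i → ZMod 2) (g c)) (e : S.Cell) :
    MLT.MultiAdd (A := fun i => ZMod (I.L i) → ZMod 2) (I.F g e) := by
  unfold Inst.F
  refine multiAdd_sum univ (fun (c : S.Comp) u => if c 0 = e then g c (I.linT u) else 0) ?_
  intro c _
  split_ifs with h
  · exact I.linT_multiAdd (hg c)
  · exact multiAdd_zero_fun

/-- the rank one functional of a static content -/
def Inst.G (q : S.Stat) (u : ∀ i, ZMod (I.L i) → ZMod 2) : ZMod 2 :=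
  ∑ j : I.J, if I.stat j = q then ∏ i, u i (j i) else 0

theorem Inst.G_multiAdd (q : S.Stat) :
    MLT.MultiAdd (A := fun i => ZMod (I.L i) → ZMod 2) (I.G q) := by
  intro i M u v
  unfold Inst.G
  rw [← Finset.sum_add_distrib]
  refine Finset.sum_congr rfl fun j _ => ?_
  split_ifs
  · rw [← Finset.mul_prod_erase univ _ (Finset.mem_univ i),
      ← Finset.mul_prod_erase univ _ (Finset.mem_univ i),
      ← Finset.mul_prod_erase univ _ (Finset.mem_univ i)]
    simp only [Function.update_self, Pi.add_apply]
    have h : ∀ w' : ZMod (I.L i) → ZMod 2,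
        (∏ x ∈ univ.erase i, Function.update M i w' x (j x)) =
        ∏ x ∈ univ.erase i, M x (j x) := by
      intro w'
      refine Finset.prod_congr rfl fun x hx => ?_
      rw [Function.update_of_ne (Finset.ne_of_mem_erase hx)]
    rw [h, h, h]
    ring
  · simp

theorem Inst.tens_multiAdd {g : I.V → ZMod 2}
    (hg : MLT.MultiAdd (A := fun i => I.X i → ZMod 2) g) :
    MLT.MultiAdd (A := fun p : I.K => ZMod (I.L p.2) → ZMod 2)
      (fun v => g (I.tens fun t i => v (t, i))) := by
  rintro ⟨t₀, i₀⟩ v u u'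
  have h : ∀ w : ZMod (I.L i₀) → ZMod 2,
      (I.tens fun t i => Function.update (β := fun p : I.K => ZMod (I.L p.2) → ZMod 2) v (t₀, i₀) w (t, i)) =
      Function.update (I.tens fun t i => v (t, i)) i₀
        (fun x => w (x t₀) * ∏ t ∈ univ.erase t₀, v (t, i₀) (x t)) := by
    intro w
    funext i x
    by_cases hi : i = i₀
    · subst hi
      rw [Function.update_self]
      unfold Inst.tens
      rw [← Finset.mul_prod_erase univ _ (Finset.mem_univ t₀)]
      beta_reduce
      rw [Function.update_self]
      congr 1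
      refine Finset.prod_congr rfl fun t ht => ?_
      rw [Function.update_of_ne]
      intro h
      exact Finset.ne_of_mem_erase ht (congrArg Prod.fst h)
    · rw [Function.update_of_ne hi]
      unfold Inst.tens
      refine Finset.prod_congr rfl fun t _ => ?_
      beta_reduce
      rw [Function.update_of_ne]
      intro h
      exact hi (congrArg Prod.snd h)
  simp only
  rw [h, h, h]
  have hadd : (fun x : I.X i₀ => (u + u') (x t₀) * ∏ t ∈ univ.erase t₀, v (t, i₀) (x t)) =
      (fun x => u (x t₀) * ∏ t ∈ univ.erase t₀, v (t, i₀) (x t)) +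
      (fun x => u' (x t₀) * ∏ t ∈ univ.erase t₀, v (t, i₀) (x t)) := by
    funext x
    simp only [Pi.add_apply]
    ring
  rw [hadd]
  exact hg i₀ _ _ _

theorem Inst.prodF_multiAdd {f : S.Slot → (∀ i, ZMod (I.L i) → ZMod 2) → ZMod 2}
    (hf : ∀ t, MLT.MultiAdd (A := fun i => ZMod (I.L i) → ZMod 2) (f t)) :
    MLT.MultiAdd (A := fun p : I.K => ZMod (I.L p.2) → ZMod 2)
      (fun v => ∏ t, f t (fun i => v (t, i))) := by
  rintro ⟨t₀, i₀⟩ v u u'
  have h : ∀ w : ZMod (I.L i₀) → ZMod 2,
      (∏ t, f t (fun i => Function.update (β := fun p : I.K => ZMod (I.L p.2) → ZMod 2) v (t₀, i₀) w (t, i))) =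
      f t₀ (Function.update (fun i => v (t₀, i)) i₀ w) *
        ∏ t ∈ univ.erase t₀, f t (fun i => v (t, i)) := by
    intro w
    rw [← Finset.mul_prod_erase univ _ (Finset.mem_univ t₀)]
    congr 1
    · congr 1
      funext i
      by_cases hi : i = i₀
      · subst hi; rw [Function.update_self, Function.update_self]
      · rw [Function.update_of_ne hi, Function.update_of_ne]
        intro h
        exact hi (congrArg Prod.snd h)
    · refine Finset.prod_congr rfl fun t ht => ?_
      congr 1
      funext i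
      rw [Function.update_of_ne]
      intro h
      exact Finset.ne_of_mem_erase ht (congrArg Prod.fst h)
  simp only
  rw [h, h, h, hf t₀]
  ring

/-! ### Exact soundness -/

/-- point masses -/
def Inst.del (j : I.J) : ∀ i, ZMod (I.L i) → ZMod 2 := fun i => Pi.single (j i) 1

theorem Inst.winT_del (j : I.J) :
    I.winT (I.del j) = I.tens (fun t => I.del (j + I.off (S.win t))) := by
  funext i x
  unfold Inst.winT Inst.tens Inst.del
  by_cases h : ∀ t, x t = j i + I.off (S.win t) i
  · have h1 : ∀ t, x t - I.off (S.win t) i = j i := fun t => by rw [h t]; ring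
    rw [if_pos (fun t => by rw [h1, h1]), h1, Pi.single_eq_same, Finset.prod_eq_one]
    intro t _
    beta_reduce
    rw [Pi.add_apply, ← h t, Pi.single_eq_same]
  · have h2 : ∏ t, (Pi.single ((j + I.off (S.win t)) i) 1 : ZMod (I.L i) → ZMod 2) (x t) = 0 := by
      push Not at h
      obtain ⟨t, ht⟩ := h
      apply Finset.prod_eq_zero (Finset.mem_univ t)
      rw [Pi.single_apply, if_neg]
      exact ht
    rw [h2]
    split_ifs with h3
    · rw [Pi.single_apply, if_neg]
      intro h4
      apply h
      intro t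
      have := h3 t
      rw [h4] at this
      rw [← this]; ring
    · rfl

theorem Inst.tens_del (j : S.Slot → I.J) :
    I.tens (fun t => I.del (j t)) = fun i => Pi.single (fun t => j t i) 1 := by
  classical
  funext i x
  unfold Inst.tens Inst.del
  rw [Pi.single_apply]
  split_ifs with h
  · subst h
    apply Finset.prod_eq_one
    intro t _
    beta_reduce
    rw [Pi.single_eq_same]
  · have : ∃ t, x t ≠ j t i := by
      by_contra h'
      push Not at h'
      exact h (funext h')
    obtain ⟨t, ht⟩ := this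
    apply Finset.prod_eq_zero (Finset.mem_univ t)
    beta_reduce
    rw [Pi.single_apply, if_neg ht]

theorem Inst.G_del (q : S.Stat) (j : I.J) :
    I.G q (I.del j) = if I.stat j = q then 1 else 0 := by
  unfold Inst.G
  rw [Finset.sum_eq_single j]
  · unfold Inst.del
    simp
  · intro j' _ hj'
    split_ifs
    · have : ∃ i, j' i ≠ j i := by
        by_contra h'
        push Not at h'
        exact hj' (funext h')
      obtain ⟨i, hi⟩ := this
      apply Finset.prod_eq_zero (Finset.mem_univ i)
      unfold Inst.del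
      rw [Pi.single_apply, if_neg hi]
    · rfl
  · intro h
    exact absurd (Finset.mem_univ j) h

/-- **Exact soundness of the test.** -/
theorem Inst.sound_exact (g : S.Comp → I.V → ZMod 2)
    (hg : ∀ c, MLT.MultiAdd (A := fun i => I.X i → ZMod 2) (g c))
    (hp : ∀ c (v : S.Slot → ∀ i, ZMod (I.L i) → ZMod 2),
      g c (I.tens v) = ∏ t, I.F g (c t) (v t))
    (hs : ∀ q u, (∑ e : S.Cell, if S.statOf e = q then I.F g e u else 0) = I.G q u)
    (hw : ∀ c, S.allowed c = false → ∀ u, g c (I.winT u) = 0) :
    ∃ w, I.Valid w ∧ ∀ c, g c = I.enc w c := by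
  classical
  set W : S.Cell → I.J → ZMod 2 := fun e j => I.F g e (I.del j) with hW
  have hc : ∀ q j, (∑ e : S.Cell, if S.statOf e = q then W e j else 0) =
      if I.stat j = q then 1 else 0 := by
    intro q j
    rw [← I.G_del, ← hs]
  have hd : ∀ j, ∑ e : S.Cell, W e j = 1 := by
    intro j
    have h1 : ∑ q : S.Stat, ∑ e : S.Cell, (if S.statOf e = q then W e j else 0) =
        ∑ e : S.Cell, W e j := by
      rw [Finset.sum_comm]
      refine Finset.sum_congr rfl fun e _ => ?_
      simp
    rw [← h1]
    simp [hc]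
  have he : ∀ c, S.allowed c = false → ∀ j, ∏ t, W (c t) (j + I.off (S.win t)) = 0 := by
    intro c h j
    rw [hW]
    simp only
    rw [← hp c (fun t => I.del (j + I.off (S.win t))), ← I.winT_del]
    exact hw c h _
  have h10 : (1 : S.Slot) ≠ 0 := by
    intro h
    have := congrArg Fin.val h
    simp at this
  have hf : ∀ e e' j, e ≠ e' → W e j * W e' j = 0 := by
    intro e e' j hee
    let A : S.Slot → Finset S.Cell := fun t => if t = 0 then {e} else if t = 1 then {e'} else univ
    have h1 : ∏ t, ∑ x ∈ A t, W x (j + I.off (S.win t)) = 0 := by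
      rw [Finset.prod_univ_sum]
      apply Finset.sum_eq_zero
      intro c hcA
      rw [Fintype.mem_piFinset] at hcA
      apply he
      have h0 := hcA 0
      have h1 := hcA 1
      simp only [A, if_true, h10, if_false, Finset.mem_singleton] at h0 h1
      by_contra hall
      have := S.allowed01 c (by simpa using hall)
      rw [h0, h1] at this
      exact hee this
    rw [← Finset.mul_prod_erase univ _ (Finset.mem_univ (0 : S.Slot)),
      ← Finset.mul_prod_erase (univ.erase 0) _ (Finset.mem_erase.2 ⟨h10, Finset.mem_univ _⟩)] at h1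
    have h2 : ∏ t ∈ (univ.erase (0 : S.Slot)).erase 1, ∑ x ∈ A t, W x (j + I.off (S.win t)) = 1 := by
      apply Finset.prod_eq_one
      intro t ht
      have ht1 := Finset.ne_of_mem_erase ht
      have ht0 := Finset.ne_of_mem_erase (Finset.mem_of_mem_erase ht)
      simp only [A, ht1, ht0, if_false]
      exact hd _
    rw [h2, mul_one] at h1
    simpa [A, h10, S.win0, S.win1, I.off_zero] using h1
  have hone : ∀ j, ∃ e, W e j = 1 := by
    intro j
    by_contra hno
    push Not at hno
    have h01 : ∀ x : ZMod 2, x ≠ 1 → x = 0 := by decide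
    have : ∑ e : S.Cell, W e j = 0 := Finset.sum_eq_zero fun e _ => h01 _ (hno e)
    rw [hd] at this
    exact one_ne_zero this
  choose w hw1 using hone
  have hWw : ∀ e j, W e j = if w j = e then 1 else 0 := by
    intro e j
    split_ifs with h
    · rw [← h]; exact hw1 j
    · have := hf (w j) e j h
      rw [hw1, one_mul] at this
      exact this
  refine ⟨w, ⟨?_, ?_⟩, ?_⟩
  · intro j
    have h1 := hc (I.stat j) j
    simp only [hWw, if_true] at h1
    by_contra hne
    have h2 : (∑ e : S.Cell, if S.statOf e = I.stat j then (if w j = e then (1 : ZMod 2) else 0)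
        else 0) = 0 := by
      apply Finset.sum_eq_zero
      intro e _
      split_ifs with h3 h4
      · rw [← h4] at h3; exact absurd h3 hne
      · rfl
      · rfl
    rw [h2] at h1
    exact zero_ne_one h1
  · intro j
    by_contra hno
    have h1 := he (fun t => w (j + I.off (S.win t))) (by simpa using hno) j
    rw [Finset.prod_eq_one] at h1
    · exact one_ne_zero h1
    · intro t _
      exact hw1 _
  · intro c
    funext M
    rw [multi_expand (X := I.X) (g c) (hg c) M]
    unfold Inst.enc
    rw [← Equiv.sum_comp (Equiv.piComm fun (_ : S.Slot) (i : Fin r) => ZMod (I.L i))]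
    refine Finset.sum_congr rfl fun j _ => ?_
    have h1 : g c (fun i => Pi.single (((Equiv.piComm fun (_ : S.Slot) (i : Fin r) =>
        ZMod (I.L i)) j) i) 1) = ∏ t, W (c t) (j t) := by
      have h2 := hp c (fun t => I.del (j t))
      rw [I.tens_del] at h2
      exact h2
    rw [h1]
    have h3 : (∏ t, W (c t) (j t)) = if ∀ t, w (j t) = c t then 1 else 0 := by
      split_ifs with h
      · apply Finset.prod_eq_one
        intro t _
        rw [hWw, if_pos (h t)]
      · push Not at h
        obtain ⟨t, ht⟩ := h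
        apply Finset.prod_eq_zero (Finset.mem_univ t)
        rw [hWw, if_neg ht]
    rw [h3]
    split_ifs with h
    · rw [mul_one]
      rfl
    · rw [mul_zero]

/-- **Soundness of the test**, for multiadditive tables and relations that hold with high
probability. -/
theorem Inst.sound_pr (g : S.Comp → I.V → ZMod 2)
    (hg : ∀ c, MLT.MultiAdd (A := fun i => I.X i → ZMod 2) (g c))
    (hp : ∀ c, pr (fun M : I.V => g c (I.phi .prod M) ≠ ∏ t, ∑ c' : S.Comp,
      if c' 0 = c t then g c' (I.phi (.lin t) M) else 0) < (1 / 2 : ℝ) ^ ((S.d + 2) * r))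
    (hs : ∀ q, pr (fun M : I.V => (∑ e : S.Cell, if S.statOf e = q then
      (∑ c' : S.Comp, if c' 0 = e then g c' (I.phi (.lin 0) M) else 0) else 0) ≠
      I.G q (I.vecs 0 M)) < (1 / 2 : ℝ) ^ r)
    (hw : ∀ c, S.allowed c = false →
      pr (fun M : I.V => g c (I.phi .win M) ≠ 0) < (1 / 2 : ℝ) ^ r) :
    ∃ w, I.Valid w ∧ ∀ c, g c = I.enc w c := by
  have hcard : Fintype.card I.K = (S.d + 2) * r := by
    rw [Fintype.card_prod, Fintype.card_fin, Fintype.card_fin]
  apply I.sound_exact g hg
  · intro c
    have h1 : (fun v : I.B => g c (I.tens fun t i => v (t, i))) =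
        fun v : I.B => ∏ t, I.F g (c t) (fun i => v (t, i)) := by
      apply eq_of_pr (A := fun p : I.K => ZMod (I.L p.2) → ZMod 2) (I.tens_multiAdd (hg c))
        (I.prodF_multiAdd fun t => I.F_multiAdd hg (c t))
      rw [hcard]
      refine lt_of_le_of_lt (le_of_eq ?_) (hp c)
      rw [← I.pr_allVecs]
      rfl
    intro v
    exact congrFun h1 (fun p => v p.1 p.2)
  · intro q
    have h1 : (fun u => ∑ e : S.Cell, if S.statOf e = q then I.F g e u else 0) = I.G q := by
      apply eq_of_pr (A := fun i => ZMod (I.L i) → ZMod 2) _ (I.G_multiAdd q)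
      · rw [Fintype.card_fin]
        refine lt_of_le_of_lt (le_of_eq ?_) (hs q)
        rw [← I.pr_vecs 0]
        rfl
      · refine multiAdd_sum univ (fun (e : S.Cell) u =>
          if S.statOf e = q then I.F g e u else 0) ?_
        intro e _
        split_ifs with h
        · exact I.F_multiAdd hg e
        · exact multiAdd_zero_fun
    intro u
    exact congrFun h1 u
  · intro c hc
    have h1 : (fun u => g c (I.winT u)) = fun _ => 0 := by
      apply eq_of_pr (A := fun i => ZMod (I.L i) → ZMod 2) (I.winT_multiAdd (hg c))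
        multiAdd_zero_fun
      rw [Fintype.card_fin]
      refine lt_of_le_of_lt (le_of_eq ?_) (hw c hc)
      rw [← I.pr_vecs 0]
      rfl
    intro u
    exact congrFun h1 u

/-! ### Distances -/

theorem Inst.prod_del (j j' : I.J) :
    (∏ i, I.del j i (j' i)) = if j' = j then (1 : ZMod 2) else 0 := by
  split_ifs with h
  · subst h
    apply Finset.prod_eq_one
    intro i _
    unfold Inst.del
    rw [Pi.single_eq_same]
  · have : ∃ i, j' i ≠ j i := by
      by_contra h'
      push Not at h'
      exact h (funext h')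
    obtain ⟨i, hi⟩ := this
    apply Finset.prod_eq_zero (Finset.mem_univ i)
    unfold Inst.del
    rw [Pi.single_apply, if_neg hi]

theorem Inst.T_del (w : I.J → S.Cell) (e : S.Cell) (j : I.J) :
    I.T w e (I.del j) = if w j = e then 1 else 0 := by
  unfold Inst.T
  rw [Finset.sum_eq_single j]
  · simp [I.prod_del]
  · intro j' _ hj'
    simp [I.prod_del, hj']
  · intro h
    exact absurd (Finset.mem_univ j) h

/-- Different configurations have different codes. -/
theorem Inst.enc_ne {w w' : I.J → S.Cell} (h : w ≠ w') : ∃ c, I.enc w c ≠ I.enc w' c := by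
  obtain ⟨j, hj⟩ := Function.ne_iff.1 h
  refine ⟨fun _ => w j, ?_⟩
  intro hc
  have h1 := congrFun hc (I.tens fun _ => I.del j)
  rw [I.enc_tens, I.enc_tens] at h1
  simp only [I.T_del, if_true, Finset.prod_const_one] at h1
  rw [Finset.prod_eq_zero (Finset.mem_univ (0 : S.Slot)) (if_neg (Ne.symm hj))] at h1
  exact one_ne_zero h1

theorem Inst.enc_inj {w w' : I.J → S.Cell} (h : ∀ c, I.enc w c = I.enc w' c) : w = w' := by
  by_contra hne
  obtain ⟨c, hc⟩ := I.enc_ne hne
  exact hc (h c)

/-- **Distance.** The codes of different configurations differ with probability at least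
`2 ^ (-r)`. -/
theorem Inst.enc_dist {w w' : I.J → S.Cell} (h : w ≠ w') :
    ∃ c, (1 / 2 : ℝ) ^ r ≤ pr (fun M : I.V => I.enc w c M ≠ I.enc w' c M) := by
  obtain ⟨c, hc⟩ := I.enc_ne h
  refine ⟨c, ?_⟩
  have := MLT.dist (I.enc_multiAdd w c) (I.enc_multiAdd w' c) hc
  rwa [Fintype.card_fin] at this

/-- The static or the window relations fail at `M`. -/
def Inst.BadAt (w : I.J → S.Cell) (M : I.V) : Prop :=
  (∃ q, (∑ e : S.Cell, if S.statOf e = q then I.T w e (I.vecs 0 M) else 0) ≠ I.G q (I.vecs 0 M)) ∨
  (∃ c, S.allowed c = false ∧ I.enc w c (I.phi .win M) ≠ 0)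

theorem Inst.not_badAt {w : I.J → S.Cell} (hw : I.Valid w) (M : I.V) : ¬ I.BadAt w M := by
  rintro (⟨q, hq⟩ | ⟨c, hc, hc2⟩)
  · apply hq
    rw [I.T_stat]
    unfold Inst.G
    simp only [hw.1]
  · exact hc2 (I.enc_win_of_valid hw hc M)

theorem Inst.pr_badAt {w : I.J → S.Cell} (hw : ¬ I.Valid w) :
    (1 / 2 : ℝ) ^ r ≤ pr (fun M : I.V => I.BadAt w M) := by
  classical
  unfold Inst.Valid at hw
  rw [not_and_or] at hw
  rcases hw with hw | hw
  · push Not at hw
    obtain ⟨j, hj⟩ := hw
    have h1 : (fun u => ∑ e : S.Cell, if S.statOf e = I.stat j then I.T w e u else 0) ≠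
        I.G (I.stat j) := by
      intro h
      have h2 := congrFun h (I.del j)
      simp only [I.T_stat, I.G_del, if_true, I.prod_del] at h2
      rw [Finset.sum_eq_zero] at h2
      · exact zero_ne_one h2
      · intro j' _
        split_ifs with h3 h4
        · rw [h4] at h3; exact absurd h3 hj
        · rfl
        · rfl
    have h2 := MLT.dist (A := fun i => ZMod (I.L i) → ZMod 2)
      (multiAdd_sum univ (fun (e : S.Cell) u => if S.statOf e = I.stat j then I.T w e u else 0)
        (by
          intro e _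
          split_ifs with h
          · exact I.T_multiAdd w e
          · exact multiAdd_zero_fun)) (I.G_multiAdd (I.stat j)) h1
    rw [Fintype.card_fin, ← I.pr_vecs 0] at h2
    refine h2.trans (pr_mono ?_)
    intro M hM
    exact Or.inl ⟨I.stat j, hM⟩
  · push Not at hw
    obtain ⟨j, hj⟩ := hw
    set c : S.Comp := fun t => w (j + I.off (S.win t)) with hc
    have h1 : (fun u => I.enc w c (I.winT u)) ≠ fun _ => 0 := by
      intro h
      have h2 := congrFun h (I.del j)
      simp only [I.winT_eq, I.enc_diag, I.prod_del] at h2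
      rw [Finset.sum_eq_single j] at h2
      · simp [hc] at h2
      · intro j' _ hj'
        simp [hj']
      · intro h
        exact absurd (Finset.mem_univ j) h
    have h2 := MLT.dist (A := fun i => ZMod (I.L i) → ZMod 2)
      (I.winT_multiAdd (I.enc_multiAdd w c)) multiAdd_zero_fun h1
    rw [Fintype.card_fin, ← I.pr_vecs 0] at h2
    refine h2.trans (pr_mono ?_)
    intro M hM
    exact Or.inr ⟨c, by simpa using hj, hM⟩

/-! ### The test when all reads are right -/

theorem b2_dec_eq (x : ZMod 2) : b2 (decide (x = 1)) = x := by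
  have hx : x = 0 ∨ x = 1 := by revert x; decide
  rcases hx with rfl | rfl <;> simp [b2]

theorem linF_eq (w : I.J → S.Cell) (M z : I.V) (y : TI S r → Bool)
    (hln : ∀ t c A, b2 (y (.ln t c A)) = I.enc w c (MLT.cp A (I.phi (.lin t) M) z))
    (e : S.Cell) (t : S.Slot) : linF y e t = I.T w e (I.vecs t M) := by
  rw [← I.enc_lin]
  unfold linF
  refine Finset.sum_congr rfl fun c _ => ?_
  split_ifs with h
  · simp only [hln]
    exact cs_exact (I.enc_multiAdd w c) (I.phi (.lin t) M) z
  · rfl

/-- If all the bits read by the test are right, it fails exactly if a static or a window relation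
fails. -/
theorem Inst.testFails_iff (w : I.J → S.Cell) (M z : I.V) (y : TI S r → Bool)
    (hlh : ∀ c, ¬ (y (.lo c) = true ∧ y (.hi c) = false))
    (h0 : ∀ c, b2 (y (.b0 c)) = I.enc w c M)
    (h1 : ∀ i c, b2 (y (.b1 i c)) = I.enc w c (Function.update M i (z i)))
    (h2 : ∀ i c, b2 (y (.b2 i c)) = I.enc w c (Function.update M i (M i + z i)))
    (hpr : ∀ c A, b2 (y (.pr c A)) = I.enc w c (MLT.cp A (I.phi .prod M) z))
    (hln : ∀ t c A, b2 (y (.ln t c A)) = I.enc w c (MLT.cp A (I.phi (.lin t) M) z))
    (hwn : ∀ c A, b2 (y (.wn c A)) = I.enc w c (MLT.cp A (I.phi .win M) z))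
    (hst : ∀ q, y (.st q) = I.cb (.stat q) (M, z)) :
    TestFails y ↔ I.BadAt w M := by
  have hw : ∀ c, (∑ A : Finset (Fin r), b2 (y (.wn c A))) = I.enc w c (I.phi .win M) := by
    intro c
    simp only [hwn]
    exact cs_exact (I.enc_multiAdd w c) (I.phi .win M) z
  have hp : ∀ c, (∑ A : Finset (Fin r), b2 (y (.pr c A))) = ∏ t, linF y (c t) t := by
    intro c
    simp only [hpr, linF_eq I w M z y hln]
    rw [← I.enc_prod]
    exact cs_exact (I.enc_multiAdd w c) (I.phi .prod M) z
  have hb : ∀ c i, b2 (y (.b0 c)) + b2 (y (.b1 i c)) + b2 (y (.b2 i c)) = 0 := by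
    intro c i
    rw [h0, h1, h2, I.enc_multiAdd w c i M (M i) (z i), Function.update_eq_self]
    have s1 := zmod2_add_self (I.enc w c M)
    have s2 := zmod2_add_self (I.enc w c (Function.update M i (z i)))
    linear_combination s1 + s2
  have hs : ∀ q, b2 (y (.st q)) = I.G q (I.vecs 0 M) := by
    intro q
    rw [hst]
    exact b2_dec_eq _
  unfold TestFails Inst.BadAt
  simp only [hw, hb, hs, linF_eq I w M z y hln]
  constructor
  · rintro (⟨c, hc⟩ | ⟨c, i, hc⟩ | ⟨c, hc⟩ | h | h)
    · exact absurd hc (hlh c)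
    · exact absurd rfl hc
    · exact absurd (by rw [hp c]; simp only [linF_eq I w M z y hln]) hc
    · exact Or.inl h
    · exact Or.inr h
  · rintro (h | h)
    · exact Or.inr (Or.inr (Or.inr (Or.inl h)))
    · exact Or.inr (Or.inr (Or.inr (Or.inr h)))

end Vale.Agent.P330.S
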