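import Vale.Agent.P330.S.Defs

/-!
# The abstract core of the soundness proof

`Core` collects what the analytic part (AE, PROP, TS) has to deliver along an ultrafilter of a
sequence of counterexamples.  `W` is the type of germs of sequences of configurations.
The statements `K1`, …, `K7` about the values of the status bits follow.
-/

namespace Vale.Agent.P330.S

/-- Register `z` holds its content (`X`: `b < 2/3`, `Y`: `b > 1/3`). -/
def HoldAt (q : Fin 3 → ℝ) (z : Bool) : Prop := if z then 1 / 3 < q 1 else q 1 < 2 / 3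

/-- Register `z` follows the other one (`X`: `b > 2/3`, `Y`: `b < 1/3`). -/
def FollowAt (q : Fin 3 → ℝ) (z : Bool) : Prop := if z then q 1 < 1 / 3 else 2 / 3 < q 1

/-- The threshold bits are right. -/
def ThOK (q : Fin 3 → ℝ) (th : Fin 3 → Fin 5 → Bool) : Prop :=
  ∀ i (l : Fin 5), ((((l : ℕ) : ℝ) + 1) / 6 < q i → th i l = true) ∧
    (q i < (((l : ℕ) : ℝ) + 1) / 6 → th i l = false)

/-- The test bits are right. -/
def TfOK (τ : ℝ) (T : Tst → ℝ) (tf : Tst → Bool) : Prop :=
  ∀ k, (τ < T k → tf k = true) ∧ (T k < τ → tf k = false)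

/-- What the analytic part delivers. -/
structure Core where
  /-- germs of configurations -/
  W : Type
  Valid : W → Prop
  w0 : W
  step : Bool → W → W
  τ : ℝ
  τ_pos : 0 < τ
  /-- limits of the averages of the control bits `a`, `b`, `s` -/
  q : Fin 3 → ℝ
  q_mem : ∀ i, 0 ≤ q i ∧ q i ≤ 1
  /-- limits of the averages of the tests -/
  T : Tst → ℝ
  /-- register `z` holds the code of `w`, up to a null set -/
  Codes : Bool → W → Prop
  /-- register `z` holds the code of `w`, up to `ρ'` -/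
  Nr : Bool → W → Prop
  /- the dynamics (`Facts`) -/
  valid0 : Valid w0
  inv : ∀ z w, Valid w → Valid (step z w) → step (!z) (step z w) = w
  start : ¬ Valid (step true w0)
  /- tests (TS) -/
  codes_near : ∀ z w, Codes z w → Nr z w
  T_sound : ∀ z, T (.T z) ≤ τ → ∃ w, Valid w ∧ Nr z w
  T_complete : ∀ z w, Valid w → Codes z w → T (.T z) = 0
  /- comparisons -/
  E0_sound : ∀ w w', T .E0 ≤ τ → Nr false w → Nr true w' → w = w'
  E0_complete : ∀ w, Codes false w → Codes true w → T .E0 = 0
  E1_sound : ∀ w w', T .E1 ≤ τ → Valid w → Nr false w → Nr true w' → w' = step false w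
  E1_complete : ∀ w, Valid w → Codes false w → Codes true (step false w) → T .E1 = 0
  D_sound : ∀ z w, T (.D z) ≤ τ → Nr z w → w = w0
  D_complete : ∀ z, Codes z w0 → T (.D z) = 0
  /- multiplexers -/
  mux_start : q 2 < 1 / 6 → ∀ z, Codes z w0
  mux_hold0 : ∀ z, HoldAt q z → Nr z w0 → Codes z w0
  mux_hold : 1 / 6 < q 2 → ∀ z w, HoldAt q z → Nr z w → Codes z w
  mux_copy : 1 / 6 < q 2 → q 0 < 1 / 2 → ∀ z w, FollowAt q z → Codes (!z) w → Codes z w
  mux_step : 1 / 6 < q 2 → 1 / 2 < q 0 → ∀ z w, FollowAt q z → Valid w → Codes (!z) w →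
    Codes z (step (!z) w)
  mux_both : 1 / 6 < q 2 → q 0 < 1 / 2 → ∀ w, Nr false w → Nr true w →
    Codes false w ∧ Codes true w
  mux_link : 1 / 6 < q 2 → 1 / 2 < q 0 → ∀ w w', Valid w → Valid w' → step false w = w' →
    step true w' = w → Nr false w → Nr true w' → Codes false w ∧ Codes true w'
  /- no solution is revealed -/
  nosol_false : ∀ w, Valid w → Nr false w → Valid (step false w)
  nosol_true : ∀ w, Valid w → w ≠ w0 → Nr true w → Valid (step true w)
  /- control bits -/
  ctl : ∀ (i : Fin 3) (b : Bool), (∀ y : Ctl, ThOK q y.th → TfOK τ T y.tf →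
    target y.th y.v (y.sg false) (y.sg true) i = b) → q i = if b then 1 else 0

namespace Core

variable (C : Core)

/-- Possible values of the control data. -/
def Cons (y : Ctl) : Prop := ThOK C.q y.th ∧ TfOK C.τ C.T y.tf

/-- possible values of `v` -/
def V : Set Bool := {b | ∃ y, C.Cons y ∧ y.v = b}

/-- possible values of `σ` -/
def SG (z : Bool) : Set Bool := {b | ∃ y, C.Cons y ∧ y.sg z = b}

variable {C}

theorem th_true {y : Ctl} (hy : C.Cons y) (i : Fin 3) (l : Fin 5)
    (h : (((l : ℕ) : ℝ) + 1) / 6 < C.q i) : y.th i l = true := (hy.1 i l).1 h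

theorem th_false {y : Ctl} (hy : C.Cons y) (i : Fin 3) (l : Fin 5)
    (h : C.q i < (((l : ℕ) : ℝ) + 1) / 6) : y.th i l = false := (hy.1 i l).2 h

theorem tf_true {y : Ctl} (hy : C.Cons y) {k : Tst} (h : C.τ < C.T k) : y.tf k = true :=
  (hy.2 k).1 h

theorem tf_false {y : Ctl} (hy : C.Cons y) {k : Tst} (h : C.T k = 0) : y.tf k = false :=
  (hy.2 k).2 (by rw [h]; exact C.τ_pos)

theorem exists_cons : ∃ y, C.Cons y := by
  classical
  refine ⟨⟨fun i l => decide ((((l : ℕ) : ℝ) + 1) / 6 < C.q i), fun k => decide (C.τ < C.T k)⟩,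
    fun i l => ⟨fun h => decide_eq_true h, fun h => decide_eq_false (not_lt.2 h.le)⟩,
    fun k => ⟨fun h => decide_eq_true h, fun h => decide_eq_false (not_lt.2 h.le)⟩⟩

theorem sg_false_of_T {z : Bool} (h : C.τ < C.T (.T z)) {y : Ctl} (hy : C.Cons y) :
    y.sg z = false := by
  simp [Ctl.sg, tf_true hy h]

theorem sg_false_of_D {z : Bool} (h : C.τ < C.T (.D z)) {y : Ctl} (hy : C.Cons y) :
    y.sg z = false := by
  simp [Ctl.sg, tf_true hy h]

theorem sg_true_of_codes {z : Bool} (h : C.Codes z C.w0) {y : Ctl} (hy : C.Cons y) :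
    y.sg z = true := by
  simp [Ctl.sg, tf_false hy (C.T_complete z _ C.valid0 h), tf_false hy (C.D_complete z h)]

/-- `σ_z` is crisp if register `z` holds. -/
theorem sg_crisp {z : Bool} (hz : HoldAt C.q z) :
    (∀ y, C.Cons y → y.sg z = false) ∨
      (C.Codes z C.w0 ∧ ∀ y, C.Cons y → y.sg z = true) := by
  by_cases h1 : C.τ < C.T (.T z)
  · exact Or.inl fun y hy => sg_false_of_T h1 hy
  by_cases h2 : C.τ < C.T (.D z)
  · exact Or.inl fun y hy => sg_false_of_D h2 hy
  obtain ⟨w, -, hw⟩ := C.T_sound z (not_lt.1 h1)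
  have hw0 := C.D_sound z w (not_lt.1 h2) hw
  rw [hw0] at hw
  have hc := C.mux_hold0 z hz hw
  exact Or.inr ⟨hc, fun y hy => sg_true_of_codes hc hy⟩

theorem subsing_of {s : Set Bool} (b : Bool) (h : ∀ x ∈ s, x = b) : s.Subsingleton :=
  fun x hx y hy => (h x hx).trans (h y hy).symm

theorem V_of {b : Bool} (h : ∀ y, C.Cons y → y.v = b) : C.V = {b} := by
  obtain ⟨y0, hy0⟩ := C.exists_cons
  ext x
  constructor
  · rintro ⟨y, hy, rfl⟩
    exact h y hy
  · rintro rfl
    exact ⟨y0, hy0, h y0 hy0⟩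

theorem SG_of {z b : Bool} (h : ∀ y, C.Cons y → y.sg z = b) : C.SG z = {b} := by
  obtain ⟨y0, hy0⟩ := C.exists_cons
  ext x
  constructor
  · rintro ⟨y, hy, rfl⟩
    exact h y hy
  · rintro rfl
    exact ⟨y0, hy0, h y0 hy0⟩


/-! ### The statements `K1`, …, `K7` -/

theorem hold_or (C : Core) : HoldAt C.q false ∨ HoldAt C.q true := by
  by_cases h : C.q 1 < 2 / 3
  · exact Or.inl (by simpa [HoldAt] using h)
  · right
    have : 1 / 3 < C.q 1 := by linarith
    simpa [HoldAt] using this

theorem K2 (C : Core) (hb : C.q 1 < 2 / 3) : (C.SG false).Subsingleton := by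
  have hh : HoldAt C.q false := by simpa [HoldAt] using hb
  rcases sg_crisp hh with h | ⟨-, h⟩
  · rw [SG_of h]; exact Set.subsingleton_singleton
  · rw [SG_of h]; exact Set.subsingleton_singleton

theorem K3 (C : Core) (hb : 1 / 3 < C.q 1) : (C.SG true).Subsingleton := by
  have hh : HoldAt C.q true := by simpa [HoldAt] using hb
  rcases sg_crisp hh with h | ⟨-, h⟩
  · rw [SG_of h]; exact Set.subsingleton_singleton
  · rw [SG_of h]; exact Set.subsingleton_singleton

theorem K4 (C : Core) (hs : C.q 2 < 1 / 6) : C.SG false = {true} :=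
  SG_of fun _ hy => sg_true_of_codes (C.mux_start hs false) hy

theorem codes_of_SG {z : Bool} (hz : HoldAt C.q z) (h : true ∈ C.SG z) :
    C.Codes z C.w0 := by
  obtain ⟨y, hy, hy1⟩ := h
  rcases sg_crisp hz with h | ⟨h, -⟩
  · rw [h y hy] at hy1
    exact absurd hy1 (by simp)
  · exact h

theorem K5 (C : Core) (hs : 1 / 6 < C.q 2) (ha : C.q 0 ≤ 1 / 6) (hb : C.q 1 ≤ 1 / 6)
    (hX : C.SG false = {true}) : C.V = {true} := by
  have hh : HoldAt C.q false := by
    have : C.q 1 < 2 / 3 := by linarith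
    simpa [HoldAt] using this
  have hf : FollowAt C.q true := by
    have : C.q 1 < 1 / 3 := by linarith
    simpa [FollowAt] using this
  have hcX : C.Codes false C.w0 := codes_of_SG hh (by rw [hX]; rfl)
  have hcY : C.Codes true C.w0 := C.mux_copy hs (by linarith) true C.w0 hf (by simpa using hcX)
  refine V_of fun y hy => ?_
  have h1 := tf_false hy (C.T_complete false _ C.valid0 hcX)
  have h2 := tf_false hy (C.T_complete true _ C.valid0 hcY)
  have h3 := tf_false hy (C.E0_complete _ hcX hcY)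
  have h4 : y.th 0 3 = false := th_false hy 0 3 (by norm_num; linarith)
  simp [Ctl.v, h1, h2, h3, h4]

/-- what holds on the edge `a ≤ 1/6` -/
theorem edge_left (C : Core) (hs : 1 / 3 ≤ C.q 2) (ha : C.q 0 ≤ 1 / 6) :
    (∀ y, C.Cons y → y.v = false) ∨
      ((∀ y, C.Cons y → y.v = true) ∧ ∃ w, C.Valid w ∧ C.Codes false w ∧ C.Codes true w) := by
  have h01 : ∀ y, C.Cons y → y.th 0 1 = false := fun y hy =>
    th_false hy 0 1 (by norm_num; linarith)
  have h03 : ∀ y, C.Cons y → y.th 0 3 = false := fun y hy =>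
    th_false hy 0 3 (by norm_num; linarith)
  by_cases h1 : C.τ < C.T (.T false)
  · exact Or.inl fun y hy => by simp [Ctl.v, tf_true hy h1, h01 y hy]
  by_cases h2 : C.τ < C.T (.T true)
  · exact Or.inl fun y hy => by simp [Ctl.v, tf_true hy h2, h01 y hy]
  by_cases h3 : C.τ < C.T .E0
  · exact Or.inl fun y hy => by simp [Ctl.v, tf_true hy h3, h01 y hy]
  obtain ⟨w, hv, hw⟩ := C.T_sound false (not_lt.1 h1)
  obtain ⟨w', hv', hw'⟩ := C.T_sound true (not_lt.1 h2)
  have he := C.E0_sound w w' (not_lt.1 h3) hw hw'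
  subst he
  obtain ⟨c1, c2⟩ := C.mux_both (by linarith) (by linarith) w hw hw'
  refine Or.inr ⟨fun y hy => ?_, w, hv, c1, c2⟩
  have e1 := tf_false hy (C.T_complete false _ hv c1)
  have e2 := tf_false hy (C.T_complete true _ hv c2)
  have e3 := tf_false hy (C.E0_complete _ c1 c2)
  simp [Ctl.v, e1, e2, e3, h03 y hy]

/-- what holds on the edge `5/6 ≤ a` -/
theorem edge_right (C : Core) (hs : 1 / 3 ≤ C.q 2) (ha : 5 / 6 ≤ C.q 0) :
    (∀ y, C.Cons y → y.v = false) ∨
      ((∀ y, C.Cons y → y.v = true) ∧ ∃ w w', C.Valid w ∧ C.Valid w' ∧ w' = C.step false w ∧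
        C.step true w' = w ∧ C.Codes false w ∧ C.Codes true w') := by
  have h01 : ∀ y, C.Cons y → y.th 0 1 = true := fun y hy =>
    th_true hy 0 1 (by norm_num; linarith)
  have h03 : ∀ y, C.Cons y → y.th 0 3 = true := fun y hy =>
    th_true hy 0 3 (by norm_num; linarith)
  by_cases h1 : C.τ < C.T (.T false)
  · exact Or.inl fun y hy => by simp [Ctl.v, tf_true hy h1, h03 y hy]
  by_cases h2 : C.τ < C.T (.T true)
  · exact Or.inl fun y hy => by simp [Ctl.v, tf_true hy h2, h03 y hy]
  by_cases h3 : C.τ < C.T .E1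
  · exact Or.inl fun y hy => by simp [Ctl.v, tf_true hy h3, h03 y hy]
  obtain ⟨w, hv, hw⟩ := C.T_sound false (not_lt.1 h1)
  obtain ⟨w', hv', hw'⟩ := C.T_sound true (not_lt.1 h2)
  have he := C.E1_sound w w' (not_lt.1 h3) hv hw hw'
  have hi : C.step true w' = w := by
    have := C.inv false w hv (he ▸ hv')
    rw [← he] at this
    simpa using this
  obtain ⟨c1, c2⟩ := C.mux_link (by linarith) (by linarith) w w' hv hv' he.symm hi hw hw'
  refine Or.inr ⟨fun y hy => ?_, w, w', hv, hv', he, hi, c1, c2⟩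
  have e1 := tf_false hy (C.T_complete false _ hv c1)
  have e2 := tf_false hy (C.T_complete true _ hv' c2)
  have e3 := tf_false hy (C.E1_complete _ hv c1 (he ▸ c2))
  simp [Ctl.v, e1, e2, e3, h01 y hy]

/-- what holds on the edge `b ≤ 1/6` -/
theorem edge_bottom (C : Core) (hs : 1 / 3 ≤ C.q 2) (ha : 1 / 6 < C.q 0) (ha' : C.q 0 < 5 / 6)
    (hb : C.q 1 ≤ 1 / 6) :
    (∀ y, C.Cons y → y.v = false) ∨ (∀ y, C.Cons y → y.v = true) := by
  have hh : HoldAt C.q false := by
    have : C.q 1 < 2 / 3 := by linarith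
    simpa [HoldAt] using this
  have hf : FollowAt C.q true := by
    have : C.q 1 < 1 / 3 := by linarith
    simpa [FollowAt] using this
  have h12 : ∀ y, C.Cons y → y.th 1 2 = false := fun y hy =>
    th_false hy 1 2 (by norm_num; linarith)
  by_cases h1 : C.τ < C.T (.T false)
  · exact Or.inl fun y hy => by simp [Ctl.v, tf_true hy h1, h12 y hy]
  obtain ⟨w, hv, hw⟩ := C.T_sound false (not_lt.1 h1)
  have c1 : C.Codes false w := C.mux_hold (by linarith) false w hh hw
  right
  intro y hy
  have e1 := tf_false hy (C.T_complete false _ hv c1)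
  rcases lt_trichotomy (C.q 0) (1 / 2) with h | h | h
  · have c2 : C.Codes true w := C.mux_copy (by linarith) h true w hf (by simpa using c1)
    have e2 := tf_false hy (C.T_complete true _ hv c2)
    have e3 := tf_false hy (C.E0_complete _ c1 c2)
    have h03 : y.th 0 3 = false := th_false hy 0 3 (by norm_num; linarith)
    simp [Ctl.v, e1, e2, e3, h03]
  · have h03 : y.th 0 3 = false := th_false hy 0 3 (by norm_num; linarith)
    have h01 : y.th 0 1 = true := th_true hy 0 1 (by norm_num; linarith)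
    simp [Ctl.v, e1, h03, h01, h12 y hy]
  · have hv2 := C.nosol_false w hv hw
    have c2 : C.Codes true (C.step false w) := by
      have := C.mux_step (by linarith) h true w hf hv (by simpa using c1)
      simpa using this
    have e2 := tf_false hy (C.T_complete true _ hv2 c2)
    have e3 := tf_false hy (C.E1_complete _ hv c1 c2)
    have h01 : y.th 0 1 = true := th_true hy 0 1 (by norm_num; linarith)
    simp [Ctl.v, e1, e2, e3, h01]

/-- what holds on the edge `5/6 ≤ b` -/
theorem edge_top (C : Core) (hs : 1 / 3 ≤ C.q 2) (ha : 1 / 6 < C.q 0) (ha' : C.q 0 < 5 / 6)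
    (hb : 5 / 6 ≤ C.q 1) :
    (∀ y, C.Cons y → y.v = false) ∨ (∀ y, C.Cons y → y.v = true) ∨
      (∀ y, C.Cons y → y.sg true = true) := by
  have hh : HoldAt C.q true := by
    have : 1 / 3 < C.q 1 := by linarith
    simpa [HoldAt] using this
  have hf : FollowAt C.q false := by
    have : 2 / 3 < C.q 1 := by linarith
    simpa [FollowAt] using this
  have h12 : ∀ y, C.Cons y → y.th 1 2 = true := fun y hy =>
    th_true hy 1 2 (by norm_num; linarith)
  by_cases h1 : C.τ < C.T (.T true)
  · exact Or.inl fun y hy => by simp [Ctl.v, tf_true hy h1, h12 y hy]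
  obtain ⟨w', hv, hw⟩ := C.T_sound true (not_lt.1 h1)
  have c1 : C.Codes true w' := C.mux_hold (by linarith) true w' hh hw
  rcases lt_trichotomy (C.q 0) (1 / 2) with h | h | h
  · refine Or.inr (Or.inl fun y hy => ?_)
    have e1 := tf_false hy (C.T_complete true _ hv c1)
    have c2 : C.Codes false w' := C.mux_copy (by linarith) h false w' hf (by simpa using c1)
    have e2 := tf_false hy (C.T_complete false _ hv c2)
    have e3 := tf_false hy (C.E0_complete _ c2 c1)
    have h03 : y.th 0 3 = false := th_false hy 0 3 (by norm_num; linarith)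
    simp [Ctl.v, e1, e2, e3, h03]
  · refine Or.inr (Or.inl fun y hy => ?_)
    have e1 := tf_false hy (C.T_complete true _ hv c1)
    have h03 : y.th 0 3 = false := th_false hy 0 3 (by norm_num; linarith)
    have h01 : y.th 0 1 = true := th_true hy 0 1 (by norm_num; linarith)
    simp [Ctl.v, e1, h03, h01, h12 y hy]
  · have c2 : C.Codes false (C.step true w') := by
      have := C.mux_step (by linarith) h false w' hf hv (by simpa using c1)
      simpa using this
    by_cases hv2 : C.Valid (C.step true w')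
    · refine Or.inr (Or.inl fun y hy => ?_)
      have hi : C.step false (C.step true w') = w' := by
        simpa using C.inv true w' hv hv2
      have e1 := tf_false hy (C.T_complete true _ hv c1)
      have e2 := tf_false hy (C.T_complete false _ hv2 c2)
      have e3 := tf_false hy (C.E1_complete _ hv2 c2 (by rw [hi]; exact c1))
      have h01 : y.th 0 1 = true := th_true hy 0 1 (by norm_num; linarith)
      simp [Ctl.v, e1, e2, e3, h01]
    · have hw0 : w' = C.w0 := by
        by_contra hne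
        exact hv2 (C.nosol_true w' hv hne hw)
      rw [hw0] at c1
      exact Or.inr (Or.inr fun y hy => sg_true_of_codes c1 hy)

theorem V_sub_of {b : Bool} (h : ∀ y, C.Cons y → y.v = b) : C.V.Subsingleton := by
  rw [V_of h]; exact Set.subsingleton_singleton

theorem K1 (C : Core) (hs : 1 / 3 ≤ C.q 2)
    (h : C.q 0 ≤ 1 / 6 ∨ 5 / 6 ≤ C.q 0 ∨ C.q 1 ≤ 1 / 6 ∨ 5 / 6 ≤ C.q 1) :
    C.V.Subsingleton ∨ (C.SG true = {true} ∧ 5 / 6 ≤ C.q 1) := by
  by_cases h0 : C.q 0 ≤ 1 / 6
  · rcases edge_left C hs h0 with h | ⟨h, -⟩ <;> exact Or.inl (V_sub_of h)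
  by_cases h0' : 5 / 6 ≤ C.q 0
  · rcases edge_right C hs h0' with h | ⟨h, -⟩ <;> exact Or.inl (V_sub_of h)
  push Not at h0 h0'
  rcases h with h | h | h | h
  · linarith
  · linarith
  · rcases edge_bottom C hs h0 h0' h with h | h <;> exact Or.inl (V_sub_of h)
  · rcases edge_top C hs h0 h0' h with h1 | h1 | h1
    · exact Or.inl (V_sub_of h1)
    · exact Or.inl (V_sub_of h1)
    · exact Or.inr ⟨SG_of h1, h⟩

theorem sg_of_codes {z : Bool} {w : C.W} (h : C.Codes z w) :
    (w = C.w0 ∧ ∀ y, C.Cons y → y.sg z = true) ∨ (w ≠ C.w0 ∧ ∀ y, C.Cons y → y.sg z = false) := by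
  by_cases hw : w = C.w0
  · rw [hw] at h
    exact Or.inl ⟨hw, fun y hy => sg_true_of_codes h hy⟩
  · refine Or.inr ⟨hw, fun y hy => sg_false_of_D ?_ hy⟩
    by_contra hD
    exact hw (C.D_sound z w (not_lt.1 hD) (C.codes_near z w h))

theorem K6 (C : Core) (hs : 1 / 3 ≤ C.q 2) (ha : C.q 0 ≤ 1 / 6) (hV : C.V = {true}) :
    ∃ b, C.SG false = {b} ∧ C.SG true = {b} := by
  obtain ⟨y0, hy0⟩ := C.exists_cons
  rcases edge_left C hs ha with h | ⟨-, w, -, c1, c2⟩
  · have := V_of h
    rw [hV] at this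
    simp at this
  · rcases sg_of_codes c1 with ⟨e1, h1⟩ | ⟨e1, h1⟩ <;>
      rcases sg_of_codes c2 with ⟨e2, h2⟩ | ⟨e2, h2⟩
    · exact ⟨true, SG_of h1, SG_of h2⟩
    · exact absurd e1 e2
    · exact absurd e2 e1
    · exact ⟨false, SG_of h1, SG_of h2⟩

theorem K7 (C : Core) (hs : 1 / 3 ≤ C.q 2) (ha : 5 / 6 ≤ C.q 0) (hV : C.V = {true}) :
    C.SG true = {false} := by
  rcases edge_right C hs ha with h | ⟨-, w, w', hv, -, -, hi, -, c2⟩
  · have := V_of h
    rw [hV] at this
    simp at this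
  · rcases sg_of_codes c2 with ⟨e, -⟩ | ⟨-, h⟩
    · rw [e] at hi
      exact absurd (hi ▸ hv) C.start
    · exact SG_of h

end Core

end Vale.Agent.P330.S
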