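import Vale.Agent.P330.S.Code

/-!
# The decoder, semantic part

From the contents of a register, given as bits `f c ω`, the truth of `P (w j)` is decoded as the
majority over the sites `(M, z)` of the parity of the bits at the sites `(M + A • δ, z)`, where
`δ` is the table argument with a single entry at `(j, …, j)`.
-/

namespace Vale.Agent.P330.S

open Finset PCP.AR

variable {S : Spec} {r : ℕ} (I : Inst S r)

/-- the table arguments with a single entry, at `j, …, j` -/
def Inst.dl (j : I.J) : I.V := fun i x => if x = fun _ => j i then 1 else 0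

theorem Inst.enc_dl (w : I.J → S.Cell) (P : S.Cell → Prop) [DecidablePred P] (j : I.J) :
    (∑ c : S.Comp, if P (c 0) then I.enc w c (I.dl j) else 0) = if P (w j) then 1 else 0 := by
  rw [I.enc_sum w (fun c => P (c 0))]
  rw [Finset.sum_eq_single (fun _ => j)]
  · have h1 : ∏ i, I.dl j i (fun _ => j i) = 1 := by
      apply Finset.prod_eq_one
      intro i _
      simp [Inst.dl]
    rw [h1]
  · intro b _ hb
    have h2 : ∏ i, I.dl j i (fun t => b t i) = 0 := by
      by_contra h3
      apply hb
      funext t i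
      have h4 : I.dl j i (fun t => b t i) ≠ 0 := by
        intro h5
        exact h3 (Finset.prod_eq_zero (Finset.mem_univ i) h5)
      unfold Inst.dl at h4
      by_contra h6
      apply h4
      rw [if_neg]
      intro h7
      exact h6 (congrFun h7 t)
    rw [h2, ite_self]
  · intro h
    exact absurd (Finset.mem_univ _) h

/-- the parity decoded at a site -/
def Inst.dec (f : S.Comp → I.Site → Bool) (P : S.Cell → Prop) [DecidablePred P] (j : I.J)
    (ω : I.Site) : ZMod 2 :=
  ∑ c : S.Comp, if P (c 0) then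
    ∑ A : Finset (Fin r), b2 (f c (MLT.cp A (I.dl j) ω.1, ω.2)) else 0

theorem b2_decide (a : ZMod 2) : b2 (decide (a = 1)) = a := by
  rcases zmod2_cases a with h | h <;> subst h <;> simp [b2]

theorem Inst.dec_right {f : S.Comp → I.Site → Bool} {w : I.J → S.Cell} {P : S.Cell → Prop}
    [DecidablePred P] {j : I.J} {ω : I.Site}
    (h : ∀ (A : Finset (Fin r)) (c : S.Comp), f c (MLT.cp A (I.dl j) ω.1, ω.2) =
      decide (I.enc w c (MLT.cp A (I.dl j) ω.1) = 1)) :
    I.dec f P j ω = if P (w j) then 1 else 0 := by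
  rw [← I.enc_dl w P j]
  unfold Inst.dec
  refine Finset.sum_congr rfl fun c _ => ?_
  have h1 : ∑ A : Finset (Fin r), b2 (f c (MLT.cp A (I.dl j) ω.1, ω.2)) = I.enc w c (I.dl j) := by
    rw [← cs_exact (I.enc_multiAdd w c) (I.dl j) ω.1]
    unfold MLT.cs
    refine Finset.sum_congr rfl fun A _ => ?_
    rw [h A c, b2_decide]
  rw [h1]

/-- adding a fixed table argument in the coordinates `A` -/
def Inst.cpEquiv (A : Finset (Fin r)) (x : I.V) : I.V ≃ I.V where
  toFun z := MLT.cp A x z
  invFun z := MLT.cp A x z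
  left_inv z := by
    funext i y
    by_cases hi : i ∈ A
    · simp only [MLT.cp, hi, if_true, Pi.add_apply]
      rw [← add_assoc, zmod2_add_self, zero_add]
    · simp only [MLT.cp, hi, if_false]
  right_inv z := by
    funext i y
    by_cases hi : i ∈ A
    · simp only [MLT.cp, hi, if_true, Pi.add_apply]
      rw [← add_assoc, zmod2_add_self, zero_add]
    · simp only [MLT.cp, hi, if_false]

theorem Inst.pr_dec {f : S.Comp → I.Site → Bool} {w : I.J → S.Cell} (P : S.Cell → Prop)
    [DecidablePred P] (j : I.J) {ρ : ℝ}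
    (hρ : pr (fun ω : I.Site => ∃ c : S.Comp, f c ω ≠ decide (I.enc w c ω.1 = 1)) ≤ ρ) :
    pr (fun ω : I.Site => I.dec f P j ω ≠ if P (w j) then 1 else 0) ≤ 2 ^ r * ρ := by
  classical
  have h1 := MLT.pr_union (Ω := I.Site) (Finset.univ : Finset (Finset (Fin r)))
    (fun A ω => ∃ c : S.Comp, f c (MLT.cp A (I.dl j) ω.1, ω.2) ≠
      decide (I.enc w c (MLT.cp A (I.dl j) ω.1) = 1)) ρ (by
        intro A _
        refine le_trans (le_of_eq ?_) hρ
        exact pr_equiv ((I.cpEquiv A (I.dl j)).prodCongr (Equiv.refl _))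
          (fun ω : I.Site => ∃ c : S.Comp, f c ω ≠ decide (I.enc w c ω.1 = 1)))
  have h2 : ((Finset.univ : Finset (Finset (Fin r))).card : ℝ) = 2 ^ r := by
    rw [Finset.card_univ, Fintype.card_finset, Fintype.card_fin]
    push_cast
    ring
  rw [h2] at h1
  refine le_trans (pr_mono ?_) h1
  intro ω hω
  by_contra h3
  apply hω
  apply I.dec_right
  intro A c
  by_contra h4
  exact h3 ⟨A, Finset.mem_univ _, c, h4⟩

theorem dec_pr_eq_card {Ω : Type*} [Fintype Ω] (p : Ω → Prop) [DecidablePred p] :
    pr p = (Finset.univ.filter p).card / Fintype.card Ω := by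
  unfold pr
  congr 1
  rw [Finset.card_filter]
  push_cast
  exact Finset.sum_congr rfl fun ω _ => by congr

/-- **Decoding by majority.** -/
theorem Inst.dec_majority {f : S.Comp → I.Site → Bool} {w : I.J → S.Cell} (P : S.Cell → Prop)
    [DecidablePred P] (j : I.J) {ρ : ℝ}
    (hρ : pr (fun ω : I.Site => ∃ c : S.Comp, f c ω ≠ decide (I.enc w c ω.1 = 1)) ≤ ρ)
    (hr : 2 ^ r * ρ < 1 / 2) :
    Fintype.card I.Site < 2 * (Finset.univ.filter fun ω => I.dec f P j ω = 1).card ↔ P (w j) := by
  classical
  have h1 := I.pr_dec P j hρ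
  have hN : (0 : ℝ) < Fintype.card I.Site := by
    exact_mod_cast Fintype.card_pos
  constructor
  · intro h
    by_contra hP
    rw [if_neg hP] at h1
    have h2 : pr (fun ω : I.Site => I.dec f P j ω = 1) < 1 / 2 := by
      refine lt_of_le_of_lt (le_trans (pr_mono fun ω hω => ?_) h1) hr
      rw [hω]
      exact one_ne_zero
    rw [dec_pr_eq_card, div_lt_div_iff₀ hN (by norm_num)] at h2
    have h3 : ((2 * (Finset.univ.filter fun ω => I.dec f P j ω = 1).card : ℕ) : ℝ) <
        (Fintype.card I.Site : ℕ) := by push_cast; linarith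
    have h4 : 2 * (Finset.univ.filter fun ω => I.dec f P j ω = 1).card < Fintype.card I.Site := by
      exact_mod_cast h3
    omega
  · intro hP
    rw [if_pos hP] at h1
    have h2 : pr (fun ω : I.Site => I.dec f P j ω = 1) > 1 / 2 := by
      have h3 := pr_not (fun ω : I.Site => I.dec f P j ω ≠ 1)
      have h4 : pr (fun ω : I.Site => ¬ (I.dec f P j ω ≠ 1)) =
          pr (fun ω : I.Site => I.dec f P j ω = 1) := pr_congr fun ω => not_not
      rw [h4] at h3
      rw [h3]
      linarith
    rw [dec_pr_eq_card, gt_iff_lt, div_lt_div_iff₀ (by norm_num) hN] at h2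
    have h3 : ((Fintype.card I.Site : ℕ) : ℝ) <
        ((2 * (Finset.univ.filter fun ω => I.dec f P j ω = 1).card : ℕ) : ℝ) := by
      push_cast; linarith
    exact_mod_cast h3

theorem IsB.half {ε : ℝ} (hε : ε < 1 / 2) {b : Bool} {t : ℝ} (h : IsB ε b t) :
    decide (1 / 2 < t) = b := by
  cases b
  · simp only [IsB, Bool.false_eq_true, if_false] at h
    simp only [decide_eq_false_iff_not, not_lt]
    linarith
  · simp only [IsB, if_true] at h
    simp only [decide_eq_true_eq]
    linarith

theorem Near.bits {ε ρ₀ : ℝ} {x : Reg S → I.Site → ℝ} {z : Bool} {w : I.J → S.Cell}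
    (h : Near I ε ρ₀ x z w) (hε : ε < 1 / 2) :
    pr (fun ω : I.Site => ∃ c : S.Comp, (decide (1 / 2 < x (.x z c) ω)) ≠
      decide (I.enc w c ω.1 = 1)) ≤ ρ₀ := by
  refine le_trans (pr_mono fun ω hω => ?_) h
  obtain ⟨c, hc⟩ := hω
  exact ⟨c, fun h1 => hc (h1.half hε)⟩

end Vale.Agent.P330.S
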