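import Vale.Agent.P330.S.Defs

/-!
# Numbering of the table arguments and of the sites, the expander
-/

namespace Vale.Agent.P330.S

open Finset

variable {S : Spec} {r : ℕ}

/-- the number of bits of a table argument -/
def Inst.e (I : Inst S r) : ℕ := ∑ i, I.L i ^ (S.d + 2)

/-- the number of bits of the blocks before the block `i` -/
def Inst.base (I : Inst S r) (i : Fin r) : ℕ :=
  ∑ j : Fin (i : ℕ), I.L (Fin.castLE i.2.le j) ^ (S.d + 2)

/-- the index `x` of a block as a number -/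
def Inst.lix (I : Inst S r) (i : Fin r) (x : S.Slot → ZMod (I.L i)) : ℕ :=
  ∑ t : S.Slot, (x t).val * I.L i ^ (t : ℕ)

/-- the number of the bit with the index `x` of the block `i` -/
def Inst.idx (I : Inst S r) (i : Fin r) (x : S.Slot → ZMod (I.L i)) : ℕ := I.base i + I.lix i x

/-- residues as numbers -/
def zEquiv (n : ℕ) [NeZero n] : ZMod n ≃ Fin n where
  toFun a := ⟨a.val, a.val_lt⟩
  invFun k := ((k : ℕ) : ZMod n)
  left_inv a := by simp
  right_inv k := by
    ext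
    simp [ZMod.val_natCast, Nat.mod_eq_of_lt k.2]

theorem zEquiv_val (n : ℕ) [NeZero n] (a : ZMod n) : (zEquiv n a : ℕ) = a.val := rfl

/-- indices of a block as numbers -/
def Inst.xEquiv (I : Inst S r) (i : Fin r) : I.X i ≃ Fin (I.L i ^ (S.d + 2)) :=
  ((Equiv.refl S.Slot).arrowCongr (zEquiv (I.L i))).trans finFunctionFinEquiv

theorem Inst.xEquiv_val (I : Inst S r) (i : Fin r) (x : I.X i) : (I.xEquiv i x : ℕ) = I.lix i x := by
  unfold Inst.xEquiv Inst.lix
  rw [Equiv.trans_apply, finFunctionFinEquiv_apply]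
  rfl

/-- all indices as numbers -/
def Inst.ixEquiv (I : Inst S r) : (Σ i, I.X i) ≃ Fin I.e :=
  (Equiv.sigmaCongrRight fun i => I.xEquiv i).trans finSigmaFinEquiv

theorem Inst.ixEquiv_val (I : Inst S r) (i : Fin r) (x : I.X i) :
    (I.ixEquiv ⟨i, x⟩ : ℕ) = I.idx i x := by
  have h := finSigmaFinEquiv_apply (n := fun i => I.L i ^ (S.d + 2)) ⟨i, I.xEquiv i x⟩
  simp only [I.xEquiv_val] at h
  exact h

theorem Inst.idx_lt (I : Inst S r) (i : Fin r) (x : I.X i) : I.idx i x < I.e := by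
  rw [← I.ixEquiv_val]; exact (I.ixEquiv _).2

/-- bits as numbers -/
def bEquiv : ZMod 2 ≃ Fin 2 := zEquiv 2

/-- table arguments as numbers -/
def Inst.numV (I : Inst S r) : I.V ≃ Fin (2 ^ I.e) :=
  (((Equiv.piCurry fun (i : Fin r) (_ : I.X i) => ZMod 2).symm.trans
    (I.ixEquiv.arrowCongr bEquiv)).trans finFunctionFinEquiv)

theorem Inst.testBit_numV (I : Inst S r) (M : I.V) (i : Fin r) (x : I.X i) :
    (I.numV M : ℕ).testBit (I.idx i x) = decide (M i x = 1) := by
  have h1 : finFunctionFinEquiv.symm (I.numV M) =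
      fun p => bEquiv ((Equiv.piCurry fun (i : Fin r) (_ : I.X i) => ZMod 2).symm M
        (I.ixEquiv.symm p)) := by
    unfold Inst.numV
    rw [Equiv.trans_apply, Equiv.symm_apply_apply]
    rfl
  have h2 := congrArg (fun f => ((f (I.ixEquiv ⟨i, x⟩) : Fin 2) : ℕ)) h1
  simp only [Equiv.symm_apply_apply] at h2
  rw [finFunctionFinEquiv_symm_apply_val, I.ixEquiv_val] at h2
  have h3 : ∀ b : ZMod 2, decide ((bEquiv b : ℕ) = 1) = decide (b = 1) := by decide
  rw [Nat.testBit_eq_decide_div_mod_eq, h2]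
  exact h3 (M i x)

/-- all bits with numbers less than `e` -/
theorem Inst.exists_idx (I : Inst S r) {p : ℕ} (hp : p < I.e) : ∃ i, ∃ x : I.X i, I.idx i x = p := by
  obtain ⟨⟨i, x⟩, hx⟩ := I.ixEquiv.surjective ⟨p, hp⟩
  exact ⟨i, x, by rw [← I.ixEquiv_val, hx]⟩

theorem Inst.idx_inj (I : Inst S r) {i i' : Fin r} {x : I.X i} {x' : I.X i'}
    (h : I.idx i x = I.idx i' x') : (⟨i, x⟩ : Σ i, I.X i) = ⟨i', x'⟩ := by
  apply I.ixEquiv.injective
  ext
  rw [I.ixEquiv_val, I.ixEquiv_val, h]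

/-- A number is the number of `M` if its bits are those of `M`. -/
theorem Inst.numV_eq (I : Inst S r) (M : I.V) (n : ℕ) (hn : n < 2 ^ I.e)
    (h : ∀ i x, n.testBit (I.idx i x) = decide (M i x = 1)) : (I.numV M : ℕ) = n := by
  apply Nat.eq_of_testBit_eq
  intro p
  by_cases hp : p < I.e
  · obtain ⟨i, x, rfl⟩ := I.exists_idx hp
    rw [I.testBit_numV, h]
  · have h1 : 2 ^ I.e ≤ 2 ^ p := Nat.pow_le_pow_right (by norm_num) (by omega)
    rw [Nat.testBit_lt_two_pow (lt_of_lt_of_le (I.numV M).2 h1),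
      Nat.testBit_lt_two_pow (lt_of_lt_of_le hn h1)]

/-- sites as numbers -/
def Inst.num (I : Inst S r) : I.Site ≃ Fin (2 ^ I.e * 2 ^ I.e) :=
  (I.numV.prodCongr I.numV).trans finProdFinEquiv

theorem Inst.num_val (I : Inst S r) (ω : I.Site) :
    (I.num ω : ℕ) = (I.numV ω.1 : ℕ) * 2 ^ I.e + (I.numV ω.2 : ℕ) := by
  unfold Inst.num
  rw [Equiv.trans_apply]
  simp only [Equiv.prodCongr_apply, Prod.map, finProdFinEquiv_apply_val]
  ring

theorem Inst.num_div (I : Inst S r) (ω : I.Site) :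
    (I.num ω : ℕ) / 2 ^ I.e = (I.numV ω.1 : ℕ) := by
  rw [I.num_val, add_comm, Nat.add_mul_div_right _ _ (by positivity),
    Nat.div_eq_of_lt (I.numV ω.2).2, zero_add]

theorem Inst.num_mod (I : Inst S r) (ω : I.Site) :
    (I.num ω : ℕ) % 2 ^ I.e = (I.numV ω.2 : ℕ) := by
  rw [I.num_val, add_comm, Nat.add_mul_mod_self_right, Nat.mod_eq_of_lt (I.numV ω.2).2]

/-! ### The expander -/

open Vale.Agent.Lib.PCP.MGG in
/-- the four permutations of Margulis, Gabber and Galil -/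
def mgs (n : ℕ) (k : Fin 4) : ZMod n × ZMod n ≃ ZMod n × ZMod n :=
  match k with
  | 0 => shear1 0
  | 1 => shear1 1
  | 2 => shear2 0
  | 3 => shear2 1

theorem gap_mgs (n : ℕ) [NeZero n] : H855.Gap (mgs n) (73 / 80) := by
  intro f hf
  have h := Vale.Agent.Lib.PCP.MGG.mgg f hf
  have e : ∑ z, f z * H855.avg (mgs n) f z = (∑ z, f z * (f (Lib.PCP.MGG.shear1 0 z) +
      f (Lib.PCP.MGG.shear1 1 z) + f (Lib.PCP.MGG.shear2 0 z) + f (Lib.PCP.MGG.shear2 1 z))) / 4 := by
    rw [Finset.sum_div]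
    refine Finset.sum_congr rfl fun z _ => ?_
    unfold H855.avg
    rw [Fin.sum_univ_four, Fintype.card_fin]
    simp only [mgs]
    push_cast
    ring
  rw [e, abs_div, abs_of_pos (by norm_num : (0 : ℝ) < 4), div_le_iff₀ (by norm_num)]
  linarith

theorem gap_congr {V W : Type*} [Fintype V] [Fintype W] {J : Type*} [Fintype J] (q : V ≃ W)
    {s : J → W ≃ W} {ρ : ℝ} (hs : H855.Gap s ρ) :
    H855.Gap (fun j => (q.trans (s j)).trans q.symm) ρ := by
  intro f hf
  have h1 : ∑ w, f (q.symm w) = 0 := by rw [Equiv.sum_comp q.symm f, hf]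
  have h2 := hs (fun w => f (q.symm w)) h1
  have h3 : ∑ w, f (q.symm w) ^ 2 = ∑ z, f z ^ 2 := Equiv.sum_comp q.symm fun z => f z ^ 2
  have h4 : ∑ z, f z * H855.avg (fun j => (q.trans (s j)).trans q.symm) f z =
      ∑ w, f (q.symm w) * H855.avg s (fun w => f (q.symm w)) w := by
    rw [← Equiv.sum_comp q]
    refine Finset.sum_congr rfl fun z _ => ?_
    rw [Equiv.symm_apply_apply]
    rfl
  rw [h4, ← h3]
  exact h2

theorem Inst.sq_card (I : Inst S r) (h : Even I.e) :
    2 ^ I.e = 2 ^ (I.e / 2) * 2 ^ (I.e / 2) := by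
  rw [← pow_add]
  congr 1
  obtain ⟨k, hk⟩ := h
  omega

/-- the table arguments as pairs of residues -/
def Inst.sq (I : Inst S r) (h : Even I.e) :
    I.V ≃ ZMod (2 ^ (I.e / 2)) × ZMod (2 ^ (I.e / 2)) :=
  I.numV.trans ((finCongr (I.sq_card h)).trans
    (finProdFinEquiv.symm.trans ((zEquiv _).symm.prodCongr (zEquiv _).symm)))

theorem Inst.sq_num (I : Inst S r) (h : Even I.e) (M : I.V) :
    (I.numV M : ℕ) = (I.sq h M).1.val * 2 ^ (I.e / 2) + (I.sq h M).2.val := by
  have h1 : (finCongr (I.sq_card h) (I.numV M)) =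
      finProdFinEquiv (zEquiv _ (I.sq h M).1, zEquiv _ (I.sq h M).2) := by
    unfold Inst.sq
    simp only [Equiv.trans_apply, Equiv.prodCongr_apply, Prod.map, Equiv.apply_symm_apply]
    rw [Prod.mk.eta, Equiv.apply_symm_apply]
  have h2 := congrArg Fin.val h1
  simp only [finCongr_apply, Fin.val_cast, finProdFinEquiv_apply_val, zEquiv_val] at h2
  rw [h2]
  ring

/-- **The expander** on the table arguments. -/
noncomputable def Inst.expd (I : Inst S r) (h : Even I.e) : Exp I where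
  s k := ((I.sq h).trans (mgs _ k)).trans (I.sq h).symm
  gap := gap_congr (I.sq h) (gap_mgs _)

end Vale.Agent.P330.S
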