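import Vale.Agent.P330.S.DecN
import Vale.Agent.P330.S.Num

/-!
# The decoder on numbers, masks

Adding the table argument `Inst.dl j` in the blocks of `B` is the exclusive or with a number.
-/

namespace Vale.Agent.P330.S

open Finset PCP.AR Vale.Agent.Lib.PolyTime

/-- exclusive or of powers of two -/
def xorPow {κ : Type*} (g : κ → ℕ) (l : List κ) : ℕ := l.foldr (fun i m => 2 ^ g i ^^^ m) 0

theorem testBit_xorPow {κ : Type*} (g : κ → ℕ) (l : List κ) (hl : l.Nodup)
    (hg : ∀ i ∈ l, ∀ j ∈ l, g i = g j → i = j) (k : ℕ) :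
    (xorPow g l).testBit k = true ↔ ∃ i ∈ l, g i = k := by
  induction l with
  | nil => simp [xorPow]
  | cons a l ih =>
    have hl' := List.nodup_cons.1 hl
    have ih' := ih hl'.2 fun i hi j hj => hg i (List.mem_cons_of_mem _ hi) j (List.mem_cons_of_mem _ hj)
    have h1 : xorPow g (a :: l) = 2 ^ g a ^^^ xorPow g l := rfl
    rw [h1, Nat.testBit_xor, Nat.testBit_two_pow]
    have hno : g a = k → ¬ ∃ i ∈ l, g i = k := by
      rintro h2 ⟨i, hi, h3⟩
      have h4 := hg a List.mem_cons_self i (List.mem_cons_of_mem _ hi) (h2.trans h3.symm)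
      exact hl'.1 (h4 ▸ hi)
    by_cases h2 : g a = k
    · have h3 : (xorPow g l).testBit k = false := by
        rw [Bool.eq_false_iff, ne_eq, ih']
        exact hno h2
      rw [h3]
      simp only [h2, decide_true, Bool.xor_false, true_iff]
      exact ⟨a, List.mem_cons_self, h2⟩
    · simp only [h2, decide_false, Bool.false_xor]
      rw [ih']
      constructor
      · rintro ⟨i, hi, h3⟩
        exact ⟨i, List.mem_cons_of_mem _ hi, h3⟩
      · rintro ⟨i, hi, h3⟩
        rcases List.mem_cons.1 hi with rfl | hi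
        · exact absurd h3 h2
        · exact ⟨i, hi, h3⟩

theorem xorPow_lt {κ : Type*} (g : κ → ℕ) (l : List κ) {e : ℕ} (hg : ∀ i ∈ l, g i < e) :
    xorPow g l < 2 ^ e := by
  induction l with
  | nil => simp [xorPow]
  | cons a l ih =>
    exact Nat.xor_lt_two_pow (Nat.pow_lt_pow_right (by norm_num) (hg a List.mem_cons_self))
      (ih fun i hi => hg i (List.mem_cons_of_mem _ hi))

variable {S : Spec} {r : ℕ} (I : Inst S r)

/-- the mask for the position `j` and the blocks in `B` -/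
def Inst.mask (j : I.J) (B : Finset (Fin r)) : ℕ :=
  xorPow (fun i => I.idx i (fun _ => j i)) ((List.finRange r).filter fun i => decide (i ∈ B))

theorem Inst.numV_cp (j : I.J) (B : Finset (Fin r)) (M : I.V) :
    (I.numV (MLT.cp B (I.dl j) M) : ℕ) = (I.numV M : ℕ) ^^^ I.mask j B := by
  have hinj : ∀ i i' : Fin r, I.idx i (fun _ => j i) = I.idx i' (fun _ => j i') → i = i' := by
    intro i i' h
    exact congrArg Sigma.fst (I.idx_inj h)
  apply I.numV_eq
  · apply Nat.xor_lt_two_pow (I.numV M).2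
    exact xorPow_lt _ _ fun i _ => I.idx_lt i _
  · intro i x
    rw [Nat.testBit_xor, I.testBit_numV]
    have h1 : (I.mask j B).testBit (I.idx i x) = decide (i ∈ B ∧ x = fun _ => j i) := by
      rw [Bool.eq_iff_iff, decide_eq_true_eq]
      unfold Inst.mask
      rw [testBit_xorPow _ _ ((List.nodup_finRange r).filter _) (fun a _ b _ h => hinj a b h)]
      constructor
      · rintro ⟨i', hi', h2⟩
        have h3 := I.idx_inj h2
        obtain rfl := congrArg Sigma.fst h3
        have h4 : (fun _ => j i') = x := eq_of_heq (Sigma.mk.inj h3).2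
        refine ⟨?_, h4.symm⟩
        have := (List.mem_filter.1 hi').2
        simpa using this
      · rintro ⟨h2, rfl⟩
        exact ⟨i, List.mem_filter.2 ⟨List.mem_finRange i, by simpa using h2⟩, rfl⟩
    rw [h1]
    unfold MLT.cp Inst.dl
    by_cases hB : i ∈ B
    · simp only [hB, if_true, true_and, Pi.add_apply]
      by_cases hx : x = fun _ => j i
      · simp only [hx, if_true, decide_true]
        rcases zmod2_cases (M i fun _ => j i) with h | h <;> rw [h] <;> rfl
      · simp only [hx, if_false, decide_false, Bool.xor_false, zero_add]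
    · simp only [hB, if_false, false_and, decide_false, Bool.xor_false]

/-- **The decoder is correct.** -/
theorem Inst.decBit_mask (j : I.J) (K : ℕ) (root : Reg S → ℕ) (P : S.Cell → Prop)
    [DecidablePred P] (xs : List ℚ) {ε ρ₀ : ℝ} (hε : ε < 1 / 2) (hρ : 2 ^ r * ρ₀ < 1 / 2)
    {z : Bool} {w : I.J → S.Cell}
    (h : Near I ε ρ₀ (fun ρ ω => val xs ((I.num ω : ℕ) * K + root ρ)) z w) :
    decBit (2 ^ I.e) K (I.mask j) (fun c => root (.x z c))
      (Finset.univ.filter fun c : S.Comp => P (c 0)) xs = decide (P (w j)) :=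
  I.decBit_correct I.numV I.num (fun M z => I.num_val (M, z)) j (I.mask j)
    (fun B M => I.numV_cp j B M) K root P xs hε hρ h

/-! ### In terms of the side lengths only -/

/-- the number of bits of a table argument -/
def eN (D : ℕ) (L : Fin r → ℕ) : ℕ := ∑ i, L i ^ D

/-- the number of the bit `(i; p, …, p)` -/
def idxN (D : ℕ) (L : Fin r → ℕ) (p : ℕ) (i : Fin r) : ℕ :=
  (∑ j : Fin (i : ℕ), L (Fin.castLE i.2.le j) ^ D) + ∑ t : Fin D, (p % L i) * L i ^ (t : ℕ)

/-- the mask for the position with number `p` and the blocks in `B` -/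
def maskN (D : ℕ) (L : Fin r → ℕ) (p : ℕ) (B : Finset (Fin r)) : ℕ :=
  xorPow (idxN D L p) ((List.finRange r).filter fun i => decide (i ∈ B))

theorem Inst.e_eq : I.e = eN (S.d + 2) I.L := rfl

theorem Inst.idx_diag (p : ℕ) (i : Fin r) :
    I.idx i (fun _ => ((p : ℕ) : ZMod (I.L i))) = idxN (S.d + 2) I.L p i := by
  unfold Inst.idx Inst.base Inst.lix idxN
  simp only [ZMod.val_natCast]

theorem Inst.mask_eq (p : ℕ) (B : Finset (Fin r)) :
    I.mask (fun i => ((p : ℕ) : ZMod (I.L i))) B = maskN (S.d + 2) I.L p B := by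
  unfold Inst.mask maskN
  congr 1
  funext i
  exact I.idx_diag p i

theorem geom_aux (m : ℕ) (hm : 1 ≤ m) (D : ℕ) : (m - 1) * ∑ t : Fin D, m ^ (t : ℕ) < m ^ D := by
  induction D with
  | zero => simp
  | succ D ih =>
    rw [Fin.sum_univ_castSucc, mul_add, pow_succ]
    simp only [Fin.val_castSucc, Fin.val_last]
    have : m ^ D * m = (m - 1) * m ^ D + m ^ D := by
      obtain ⟨k, rfl⟩ : ∃ k, m = k + 1 := ⟨m - 1, by omega⟩
      simp only [Nat.add_sub_cancel]
      ring
    omega

theorem idxN_lt (D : ℕ) (L : Fin r → ℕ) (hL : ∀ i, 1 ≤ L i) (p : ℕ) (i : Fin r) :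
    idxN D L p i < eN D L := by
  unfold idxN eN
  have h1 : ∑ t : Fin D, (p % L i) * L i ^ (t : ℕ) < L i ^ D := by
    rw [← Finset.mul_sum]
    refine lt_of_le_of_lt (Nat.mul_le_mul_right _ ?_) (geom_aux (L i) (hL i) D)
    have := Nat.mod_lt p (hL i)
    omega
  have h2 : (∑ j : Fin (i : ℕ), L (Fin.castLE i.2.le j) ^ D) + L i ^ D ≤ ∑ i, L i ^ D := by
    have h3 : (∑ j : Fin (i : ℕ), L (Fin.castLE i.2.le j) ^ D) + L i ^ D =
        ∑ j : Fin ((i : ℕ) + 1), L (Fin.castLE i.2 j) ^ D := by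
      rw [Fin.sum_univ_castSucc]
      rfl
    rw [h3]
    have h4 : (∑ j : Fin ((i : ℕ) + 1), L (Fin.castLE i.2 j) ^ D) =
        ∑ j ∈ Finset.univ.map ⟨Fin.castLE (m := r) i.2, Fin.castLE_injective _⟩, L j ^ D := by
      rw [Finset.sum_map]
      rfl
    rw [h4]
    exact Finset.sum_le_sum_of_subset (Finset.subset_univ _)
  omega

/-! ### Polynomial time -/

section PT

variable {A : Set Word} {α β γ : Type*} [Enc α] [Enc β] [Enc γ]

theorem PT_xorPow {κ : Type*} {g : κ → α → ℕ} (l : List κ) (hg : ∀ i ∈ l, PT A (g i))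
    (hb : ∀ i ∈ l, PBd (g i)) : PT A (fun a => xorPow (fun i => g i a) l) := by
  induction l with
  | nil => exact PT.const 0
  | cons i l ih =>
    exact PT.natXor (PT.pow (PT.const 2) (hg i List.mem_cons_self) (hb i List.mem_cons_self))
      (ih (fun k hk => hg k (List.mem_cons_of_mem _ hk)) fun k hk => hb k (List.mem_cons_of_mem _ hk))

variable {r : ℕ} {L : α → Fin r → ℕ}

theorem PT_eN (D : ℕ) (hL : ∀ i, PT A (fun a => L a i)) : PT A (fun a => eN D (L a)) :=
  PT_sumConst Finset.univ fun i _ => (hL i).powConst _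

theorem PBd_eN {D : ℕ} (hV : PBd (fun a => 2 ^ eN D (L a))) : PBd (fun a => eN D (L a)) :=
  hV.mono fun _ => Nat.lt_two_pow_self.le

theorem PT_powEN {D : ℕ} (hL : ∀ i, PT A (fun a => L a i)) (hV : PBd (fun a => 2 ^ eN D (L a))) :
    PT A (fun a => 2 ^ eN D (L a)) :=
  PT.pow (PT.const 2) (PT_eN D hL) (PBd_eN hV)

theorem PT_idxN (D : ℕ) (hL : ∀ i, PT A (fun a => L a i)) {p : α → ℕ} (hp : PT A p) (i : Fin r) :
    PT A (fun a => idxN D (L a) (p a) i) :=
  PT.add (PT_sumConst Finset.univ fun _ _ => (hL _).powConst _)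
    (PT_sumConst Finset.univ fun _ _ => PT.mul (PT.mod hp (hL i)) ((hL i).powConst _))

theorem PT_maskN {D : ℕ} (hL : ∀ i, PT A (fun a => L a i)) (hL1 : ∀ a i, 1 ≤ L a i)
    (hV : PBd (fun a => 2 ^ eN D (L a))) {p : α → ℕ} (hp : PT A p) (B : Finset (Fin r)) :
    PT A (fun a => maskN D (L a) (p a) B) :=
  PT_xorPow _ (fun i _ => PT_idxN D hL hp i)
    (fun i _ => (PBd_eN hV).mono fun a => (idxN_lt D (L a) (hL1 a) (p a) i).le)

/-- The decoder for the position with number `p` runs in polynomial time. -/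
theorem PT_decMask {κ : Type*} {D : ℕ} (hL : ∀ i, PT A (fun a => L a i))
    (hL1 : ∀ a i, 1 ≤ L a i) (hV : PBd (fun a => 2 ^ eN D (L a))) {p : α → ℕ} (hp : PT A p)
    (K : ℕ) (rt : κ → ℕ) (T : Finset κ) {xs : α → List ℚ} (hx : PT A xs) :
    PT A (fun a => decBit (2 ^ eN D (L a)) K (maskN D (L a) (p a)) rt T (xs a)) :=
  PT_decBit K rt T (PT_powEN hL hV) hV (fun B => PT_maskN hL hL1 hV hp B) hx

end PT

end Vale.Agent.P330.S
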