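import Vale.Agent.P330.MLT
import Vale.Agent.P330.H855.RA

/-!
# Subexponential PCP for PPAD: the objects of the construction

* `Spec`: the finite data of the dynamics (cells, offsets, windows, local rules).
* `Inst`: an instance: side lengths `L i`, positions `J = ∏ ZMod (L i)`, offsets, static contents,
  start configuration, expander on the tables.
* `Inst.enc`: the code of a configuration.
* `Rd`, `CB`, `MDef`, `Sem`, `MDef.Rel`: homogeneous networks over a set of sites.
* `Reg`, `net`: the network.
* `Facts`: what the dynamics has to satisfy.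
-/

namespace Vale.Agent.P330.S

open Finset PCP.AR

/-! ### The dynamics -/

/-- The finite data of the dynamics (the same for all instances). -/
structure Spec where
  /-- contents of a cell -/
  Cell : Type
  /-- names of offsets -/
  Off : Type
  /-- static part of a cell -/
  Stat : Type
  /-- windows have `d + 2` slots -/
  d : ℕ
  fCell : Fintype Cell
  dCell : DecidableEq Cell
  fOff : Fintype Off
  dOff : DecidableEq Off
  fStat : Fintype Stat
  dStat : DecidableEq Stat
  /-- some cell -/
  cell0 : Cell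
  /-- the offset zero -/
  zero : Off
  /-- offsets of the slots of a window -/
  win : Fin (d + 2) → Off
  win0 : win 0 = zero
  win1 : win 1 = zero
  /-- static part -/
  statOf : Cell → Stat
  /-- is the head here? -/
  hd : Cell → Bool
  /-- allowed windows -/
  allowed : (Fin (d + 2) → Cell) → Bool
  allowed01 : ∀ c, allowed c = true → c 0 = c 1
  /-- offsets (relative to the head) of the cells that are rewritten -/
  upd : Off → Bool
  /-- the rules: from the contents around the head, the map applied to all cells and the new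
  contents around the head. `rule false` is the successor, `rule true` the predecessor. -/
  rule : Bool → (Off → Cell) → (Cell → Cell) × (Off → Cell)

attribute [instance] Spec.fCell Spec.dCell Spec.fOff Spec.dOff Spec.fStat Spec.dStat

/-- slots -/
abbrev Spec.Slot (S : Spec) : Type := Fin (S.d + 2)

/-- components of the code -/
abbrev Spec.Comp (S : Spec) : Type := S.Slot → S.Cell

/-- An instance with `r` blocks. -/
structure Inst (S : Spec) (r : ℕ) where
  /-- side lengths -/
  L : Fin r → ℕ
  hL : ∀ i, S.d + 2 ≤ L i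
  /-- values of the offsets -/
  off : S.Off → ∀ i, ZMod (L i)
  off_zero : off S.zero = 0
  off_inj : ∀ o o', S.upd o = true → S.upd o' = true → off o = off o' → o = o'
  /-- static contents -/
  stat : (∀ i, ZMod (L i)) → S.Stat
  /-- start configuration -/
  w0 : (∀ i, ZMod (L i)) → S.Cell

variable {S : Spec} {r : ℕ}

instance Inst.neZero (I : Inst S r) (i : Fin r) : NeZero (I.L i) :=
  ⟨by have := I.hL i; omega⟩

/-- positions -/
abbrev Inst.J (I : Inst S r) : Type := ∀ i, ZMod (I.L i)

/-- indices of a block of a table -/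
abbrev Inst.X (I : Inst S r) (i : Fin r) : Type := S.Slot → ZMod (I.L i)

/-- table arguments -/
abbrev Inst.V (I : Inst S r) : Type := ∀ i, I.X i → ZMod 2

/-- sites: table argument and pad -/
abbrev Inst.Site (I : Inst S r) : Type := I.V × I.V

/-- A configuration is valid: right static contents, all windows allowed. -/
def Inst.Valid (I : Inst S r) (w : I.J → S.Cell) : Prop :=
  (∀ j, S.statOf (w j) = I.stat j) ∧ ∀ j, S.allowed (fun t => w (j + I.off (S.win t))) = true

/-- `h` is the only position of the head. -/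
def Inst.IsHead (I : Inst S r) (w : I.J → S.Cell) (h : I.J) : Prop :=
  S.hd (w h) = true ∧ ∀ j, S.hd (w j) = true → j = h

open Classical in
/-- The rule applied around `h`. -/
noncomputable def Inst.apply (I : Inst S r) (z : Bool) (w : I.J → S.Cell) (h : I.J) :
    I.J → S.Cell := fun j =>
  if hj : ∃ o, S.upd o = true ∧ j = h + I.off o then
    (S.rule z fun o => w (h + I.off o)).2 hj.choose
  else (S.rule z fun o => w (h + I.off o)).1 (w j)

open Classical in
/-- One step (`z = false`: successor, `z = true`: predecessor). -/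
noncomputable def Inst.step (I : Inst S r) (z : Bool) (w : I.J → S.Cell) : I.J → S.Cell :=
  if hh : ∃ h, I.IsHead w h then I.apply z w hh.choose else w

/-- What we need to know about the dynamics. -/
structure Facts (I : Inst S r) : Prop where
  valid0 : I.Valid I.w0
  head : ∀ w, I.Valid w → ∃ h, I.IsHead w h
  inv : ∀ z w, I.Valid w → I.Valid (I.step z w) → I.step (!z) (I.step z w) = w
  start : ¬ I.Valid (I.step true I.w0)

/-! ### The code -/

/-- The code of a configuration. -/
def Inst.enc (I : Inst S r) (w : I.J → S.Cell) (c : S.Comp) (M : I.V) : ZMod 2 :=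
  ∑ j : S.Slot → I.J, if (∀ t, w (j t) = c t) then ∏ i, M i (fun t => j t i) else 0

/-! ### Reads -/

/-- Names of maps of table arguments. -/
inductive Phi (S : Spec)
  | id
  | shift (o : S.Slot → S.Off)
  | ones (o : S.Slot → S.Off)
  | prod
  | lin (t : S.Slot)
  | win

/-- The `t`-th vector hidden in a block of a table argument. -/
def Inst.vec (I : Inst S r) (t : S.Slot) (i : Fin r) (m : I.X i → ZMod 2) (a : ZMod (I.L i)) :
    ZMod 2 :=
  m (fun u => if u = 0 then a else if u = 1 then ((t : ℕ) : ZMod (I.L i)) else 0)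

/-- The maps of table arguments, block by block. -/
def Inst.phiB (I : Inst S r) (i : Fin r) : Phi S → (I.X i → ZMod 2) → (I.X i → ZMod 2)
  | .id, m => m
  | .shift o, m => fun x => m (fun t => x t + I.off (o t) i)
  | .ones o, _ => fun x => if ∀ t, x t - I.off (o t) i = x 0 - I.off (o 0) i then 1 else 0
  | .prod, m => fun x => ∏ t, I.vec t i m (x t)
  | .lin t, m => fun x => if ∀ u, u ≠ 0 → x u = 0 then I.vec t i m (x 0) else 0
  | .win, m => fun x =>
      if ∀ t, x t - I.off (S.win t) i = x 0 - I.off (S.win 0) i then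
        I.vec 0 i m (x 0 - I.off (S.win 0) i) else 0

/-- The maps of table arguments. -/
def Inst.phi (I : Inst S r) (φ : Phi S) (M : I.V) : I.V := fun i => I.phiB i φ (M i)

/-- Names of reads. -/
inductive Rd (S : Spec) (r : ℕ)
  | self
  | cube (A : Finset (Fin r)) (φ : Phi S)
  | b1 (i : Fin r)
  | b2 (i : Fin r)

/-- The site read. -/
def Inst.rd (I : Inst S r) : Rd S r → I.Site → I.Site
  | .self, ω => ω
  | .cube A φ, ω => (MLT.cp A (I.phi φ ω.1) ω.2, ω.1)
  | .b1 i, ω => (Function.update ω.1 i (ω.2 i), Function.update ω.2 i (ω.1 i))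
  | .b2 i, ω => (Function.update ω.1 i (ω.1 i + ω.2 i), ω.2)

/-- Names of hard-wired bits. -/
inductive CB (S : Spec)
  | start (c : S.Comp)
  | stat (q : S.Stat)

/-- The hard-wired bits. -/
noncomputable def Inst.cb (I : Inst S r) : CB S → I.Site → Bool
  | .start c, ω => decide (I.enc I.w0 c ω.1 = 1)
  | .stat q, ω => decide ((∑ j : I.J, if I.stat j = q then
      ∏ i, I.vec 0 i (ω.1 i) (j i) else 0) = 1)

/-! ### Homogeneous networks -/

/-- A Boolean function of bits that are read or hard-wired. -/
structure BitDef (Reg Rd CB : Type) where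
  /-- the inputs -/
  ι : Type
  fι : Fintype ι
  inp : ι → (Rd × Reg) ⊕ CB
  f : (ι → Bool) → Bool

/-- Definition of a register: a Boolean function of bits; a threshold (`1` if the value of the
register is more than `α`); the resolvent average of a register over the pads (`false`) or over all
sites (`true`). -/
inductive MDef (Reg Rd CB : Type)
  | bit (B : BitDef Reg Rd CB)
  | thr (α : ℚ) (ρ : Reg)
  | ra (glob : Bool) (ρ : Reg)

/-- The meaning of the names of reads, hard-wired bits and neighbours. -/
structure Sem (Rd CB Ω : Type) where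
  rd : Rd → Ω → Ω
  cb : CB → Ω → Bool
  /-- the neighbours `0, …, 3` are those in the direction of the pads -/
  nb : Fin 8 → Ω → Ω

/-- The real number `t` is (close to) the bit `b`. -/
def IsB (ε : ℝ) (b : Bool) (t : ℝ) : Prop := if b then 1 - ε ≤ t else t ≤ ε

/-- The average over the neighbours. -/
noncomputable def Sem.avg {Rd CB Ω : Type} (E : Sem Rd CB Ω) (glob : Bool) (f : Ω → ℝ) (ω : Ω) : ℝ :=
  if glob then (∑ k : Fin 8, f (E.nb k ω)) / 8
  else (f (E.nb 0 ω) + f (E.nb 1 ω) + f (E.nb 2 ω) + f (E.nb 3 ω)) / 4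

/-- The value of the register `ρ` at the site `ω` obeys its definition, up to `ε`. -/
def MDef.Rel {Reg Rd CB Ω : Type} (E : Sem Rd CB Ω) (ε lam : ℝ) (x : Reg → Ω → ℝ) (ρ : Reg) (ω : Ω) :
    MDef Reg Rd CB → Prop
  | .bit B => ∀ b : Bool, (∀ y : B.ι → Bool,
      (∀ i, Sum.elim (fun p => ∀ b', IsB ε b' (x p.2 (E.rd p.1 ω)) → y i = b')
        (fun κ => y i = E.cb κ ω) (B.inp i)) → B.f y = b) → IsB ε b (x ρ ω)
  | .thr α ρ' => ((α : ℝ) + 2 * ε < x ρ' ω → IsB ε true (x ρ ω)) ∧
      (x ρ' ω < (α : ℝ) - 2 * ε → IsB ε false (x ρ ω))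
  | .ra g ρ' => |x ρ ω - ((1 - lam) * E.avg g (x ρ) ω + lam * x ρ' ω)| ≤ 20 * ε

/-! ### The network -/

/-- The tests. -/
inductive Tst
  | T (z : Bool)
  | E0
  | E1
  | D (z : Bool)
  deriving DecidableEq, Fintype

/-- The registers. The argument `z` is `false` for the register `X` and `true` for `Y`. -/
inductive Reg (S : Spec)
  /-- what is written into the register -/
  | m (z : Bool) (c : S.Comp)
  /-- its average over the pads -/
  | p (z : Bool) (c : S.Comp)
  /-- the register: threshold `1/2` of `p` -/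
  | x (z : Bool) (c : S.Comp)
  /-- threshold `1/4` of `p` -/
  | lo (z : Bool) (c : S.Comp)
  /-- threshold `3/4` of `p` -/
  | hi (z : Bool) (c : S.Comp)
  /-- corrected read -/
  | h (z : Bool) (c : S.Comp)
  /-- corrected read of the next configuration (`z = false`: successor of `X`, `z = true`:
  predecessor of `Y`) -/
  | a (z : Bool) (c : S.Comp)
  /-- corrected read of the bit the cell at offset `o` from the head is `e` -/
  | y (z : Bool) (o : S.Off) (e : S.Cell)
  | ya (z : Bool) (o : S.Off) (e : S.Cell)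
  | yb (z : Bool) (o : S.Off) (e : S.Cell)
  /-- tests: 1 if the test fails at the site -/
  | t (k : Tst)
  | ta (k : Tst)
  /-- 1 if the test fails with probability more than `τ` -/
  | tf (k : Tst)
  /-- the three control bits, their averages and thresholds `(l+1)/6` -/
  | q (i : Fin 3)
  | qa (i : Fin 3)
  | th (i : Fin 3) (l : Fin 5)

/-- bits as elements of `ZMod 2` -/
def b2 (b : Bool) : ZMod 2 := if b then 1 else 0

/-- inputs of the multiplexer in front of a register -/
inductive MuxI
  | s1
  | bsel
  | asel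
  | start
  | hold
  | other
  | next
  deriving DecidableEq

instance : Fintype MuxI :=
  ⟨{.s1, .bsel, .asel, .start, .hold, .other, .next}, by intro x; cases x <;> simp⟩

/-- Definition of `m z c`: start if `s < 1/6`; otherwise `X` holds if `b < 2/3` and `Y` holds if
`b > 1/3`; otherwise copy the other register if `a < 1/2`; otherwise step of the other
register. -/
def muxDef (r : ℕ) (z : Bool) (c : S.Comp) : BitDef (Reg S) (Rd S r) (CB S) where
  ι := MuxI
  fι := inferInstance
  inp
    | .s1 => .inl (.self, .th 2 0)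
    | .bsel => .inl (.self, .th 1 (if z then 1 else 3))
    | .asel => .inl (.self, .th 0 2)
    | .start => .inr (.start c)
    | .hold => .inl (.self, .h z c)
    | .other => .inl (.self, .h (!z) c)
    | .next => .inl (.self, .a (!z) c)
  f y := if y .s1 = false then y .start
    else if y .bsel = z then y .hold
    else if y .asel = false then y .other
    else y .next

/-- Definition of `h z c`: cube sum. -/
def hDef (r : ℕ) (z : Bool) (c : S.Comp) : BitDef (Reg S) (Rd S r) (CB S) where
  ι := Finset (Fin r)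
  fι := inferInstance
  inp A := .inl (.cube A .id, .x z c)
  f y := decide ((∑ A, b2 (y A)) = 1)

/-- The contents around the head, from the bits of `yb`. -/
noncomputable def winOf (g : S.Off → S.Cell → Bool) (o : S.Off) : S.Cell :=
  open Classical in if h : ∃ e, g o e = true then h.choose else S.cell0

open Classical in
/-- The coefficients of the step map. -/
noncomputable def coef (S : Spec) (z : Bool) (win : S.Off → S.Cell) (e e' : S.Cell) (o : S.Off) :
    ZMod 2 :=
  (if o = S.zero ∧ (S.rule z win).1 e' = e then 1 else 0) +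
  (if S.upd o = true ∧ S.hd e' = true then
    ((if (S.rule z win).2 o = e then 1 else 0) + (if (S.rule z win).1 (win o) = e then 1 else 0))
    else 0)

/-- Definition of `a z c`: the code of the next configuration. -/
noncomputable def aDef (r : ℕ) (z : Bool) (c : S.Comp) : BitDef (Reg S) (Rd S r) (CB S) where
  ι := (S.Off × S.Cell) ⊕ ((S.Slot → S.Off) × S.Comp × Finset (Fin r))
  fι := inferInstance
  inp
    | .inl p => .inl (.self, .yb z p.1 p.2)
    | .inr p => .inl (.cube p.2.2 (.shift p.1), .x z p.2.1)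
  f y := decide ((∑ o : S.Slot → S.Off, ∑ c' : S.Comp,
    (∏ t, coef S z (winOf fun o e => y (.inl (o, e))) (c t) (c' t) (o t)) *
      ∑ A : Finset (Fin r), b2 (y (.inr (o, c', A)))) = 1)

/-- The offsets used to read the cell at offset `o` from the head. -/
def offs (S : Spec) (o : S.Off) : S.Slot → S.Off := fun t => if t = 1 then o else S.zero

/-- Definition of `y z o e`. -/
def yDef (r : ℕ) (z : Bool) (o : S.Off) (e : S.Cell) : BitDef (Reg S) (Rd S r) (CB S) where
  ι := S.Comp × Finset (Fin r)
  fι := inferInstance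
  inp p := .inl (.cube p.2 (.ones (offs S o)), .x z p.1)
  f y := decide ((∑ c : S.Comp, ∑ A : Finset (Fin r),
    if S.hd (c 0) = true ∧ c 1 = e then b2 (y (c, A)) else 0) = 1)

/-- Inputs of the test of a register. -/
inductive TI (S : Spec) (r : ℕ)
  | lo (c : S.Comp)
  | hi (c : S.Comp)
  | b0 (c : S.Comp)
  | b1 (i : Fin r) (c : S.Comp)
  | b2 (i : Fin r) (c : S.Comp)
  | pr (c : S.Comp) (A : Finset (Fin r))
  | ln (t : S.Slot) (c : S.Comp) (A : Finset (Fin r))
  | wn (c : S.Comp) (A : Finset (Fin r))
  | st (q : S.Stat)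
  deriving Fintype

/-- The linear functional `T_e` at the `t`-th vector. -/
def linF (y : TI S r → Bool) (e : S.Cell) (t : S.Slot) : ZMod 2 :=
  ∑ c : S.Comp, if c 0 = e then ∑ A : Finset (Fin r), b2 (y (.ln t c A)) else 0

/-- The test of a register: flags, linearity in every block, product, static contents,
windows. -/
def TestFails (y : TI S r → Bool) : Prop :=
  (∃ c, y (.lo c) = true ∧ y (.hi c) = false) ∨
  (∃ c i, b2 (y (.b0 c)) + b2 (y (.b1 i c)) + b2 (y (.b2 i c)) ≠ 0) ∨
  (∃ c, (∑ A : Finset (Fin r), b2 (y (.pr c A))) ≠ ∏ t, linF y (c t) t) ∨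
  (∃ q, (∑ e : S.Cell, if S.statOf e = q then linF y e 0 else 0) ≠ b2 (y (.st q))) ∨
  (∃ c, S.allowed c = false ∧ (∑ A : Finset (Fin r), b2 (y (.wn c A))) ≠ 0)

open Classical in
/-- Definition of `t (T z)`. -/
noncomputable def tDef (r : ℕ) (z : Bool) : BitDef (Reg S) (Rd S r) (CB S) where
  ι := TI S r
  fι := inferInstance
  inp
    | .lo c => .inl (.self, .lo z c)
    | .hi c => .inl (.self, .hi z c)
    | .b0 c => .inl (.self, .x z c)
    | .b1 i c => .inl (.b1 i, .x z c)
    | .b2 i c => .inl (.b2 i, .x z c)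
    | .pr c A => .inl (.cube A .prod, .x z c)
    | .ln t c A => .inl (.cube A (.lin t), .x z c)
    | .wn c A => .inl (.cube A .win, .x z c)
    | .st q => .inr (.stat q)
  f y := decide (TestFails y)

open Classical in
/-- Comparison of two families of bits. -/
noncomputable def cmpDef (r : ℕ) (u v : S.Comp → (Rd S r × Reg S) ⊕ CB S) :
    BitDef (Reg S) (Rd S r) (CB S) where
  ι := Bool × S.Comp
  fι := inferInstance
  inp p := if p.1 then v p.2 else u p.2
  f y := decide (∃ c, y (false, c) ≠ y (true, c))

/-- Definition of the tests. -/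
noncomputable def tstDef (r : ℕ) : Tst → BitDef (Reg S) (Rd S r) (CB S)
  | .T z => tDef r z
  | .E0 => cmpDef r (fun c => .inl (.self, .x false c)) (fun c => .inl (.self, .x true c))
  | .E1 => cmpDef r (fun c => .inl (.self, .x true c)) (fun c => .inl (.self, .a false c))
  | .D z => cmpDef r (fun c => .inl (.self, .x z c)) (fun c => .inr (.start c))

/-- Thresholds of the three control values: `y i l` means the value is more than
`(l + 1) / 6`. -/
structure Ctl where
  /-- the value `i` is more than `(l + 1) / 6` -/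
  th : Fin 3 → Fin 5 → Bool
  /-- test `k` fails -/
  tf : Tst → Bool

/-- register tests that are on pass -/
def Ctl.v (y : Ctl) : Bool :=
  -- `X`: on if `b < 1/2` or `a < 1/3` or `a > 2/3`
  (!(y.tf (.T false)) || (y.th 1 2 && y.th 0 1 && !(y.th 0 3))) &&
  -- `Y`: on if `b > 1/2` or `a < 1/3` or `a > 2/3`
  (!(y.tf (.T true)) || (!(y.th 1 2) && y.th 0 1 && !(y.th 0 3))) &&
  -- `X = Y`: on if `a < 1/3`
  (!(y.tf .E0) || y.th 0 1) &&
  -- `Y` is the successor of `X`: on if `a > 2/3`
  (!(y.tf .E1) || !(y.th 0 3))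

/-- register `z` contains the start configuration -/
def Ctl.sg (y : Ctl) (z : Bool) : Bool := !(y.tf (.T z)) && !(y.tf (.D z))

/-- the target of the control values, given the status bits `v`, `σ_X`, `σ_Y` -/
def target (th : Fin 3 → Fin 5 → Bool) (v sX sY : Bool) : Fin 3 → Bool
  | 0 =>
    if v && th 2 3 then !(th 1 1) || (!(th 1 3) && th 0 2)
    else if v && (th 2 0 && !(th 2 2)) then
      (if sX && !(th 0 1) && !(th 1 1) then false
        else th 1 3 || (th 1 1 && th 0 2))
    else if th 2 2 then th 0 2 else false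
  | 1 =>
    if v && th 2 3 then th 0 3 || (th 0 1 && th 1 2)
    else if v && (th 2 0 && !(th 2 2)) then
      (if sX && !(th 0 1) && !(th 1 1) then false
        else !(th 0 1) || (!(th 0 3) && th 1 2))
    else if th 2 2 then th 1 2 else false
  | 2 =>
    (sX && !(th 0 0) && !(th 1 0)) ||
      !(!(th 2 1) || !v || (th 0 0 && !(th 0 4) && th 1 0 && !(th 1 4)) ||
        (sX && !(th 0 1) && th 1 0 && !(th 1 3)) || (sY && th 1 1))

/-- Definition of the control bits. -/
def qDef (r : ℕ) (i : Fin 3) : BitDef (Reg S) (Rd S r) (CB S) where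
  ι := (Fin 3 × Fin 5) ⊕ Tst
  fι := inferInstance
  inp
    | .inl p => .inl (.self, .th p.1 p.2)
    | .inr k => .inl (.self, .tf k)
  f y :=
    let c : Ctl := ⟨fun i l => y (.inl (i, l)), fun k => y (.inr k)⟩
    target c.th c.v (c.sg false) (c.sg true) i

/-- The network (with the threshold `τ` for the tests). -/
noncomputable def net (S : Spec) (r : ℕ) (τ : ℚ) : Reg S → MDef (Reg S) (Rd S r) (CB S)
  | .m z c => .bit (muxDef r z c)
  | .p z c => .ra false (.m z c)
  | .x z c => .thr (1 / 2) (.p z c)
  | .lo z c => .thr (1 / 4) (.p z c)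
  | .hi z c => .thr (3 / 4) (.p z c)
  | .h z c => .bit (hDef r z c)
  | .a z c => .bit (aDef r z c)
  | .y z o e => .bit (yDef r z o e)
  | .ya z o e => .ra true (.y z o e)
  | .yb z o e => .thr (1 / 2) (.ya z o e)
  | .t k => .bit (tstDef r k)
  | .ta k => .ra true (.t k)
  | .tf k => .thr τ (.ta k)
  | .q i => .bit (qDef r i)
  | .qa i => .ra true (.q i)
  | .th i l => .thr (((l : ℕ) + 1 : ℚ) / 6) (.qa i)

/-- Expander on the table arguments. -/
structure Exp (I : Inst S r) where
  s : Fin 4 → I.V ≃ I.V
  gap : H855.Gap s (73 / 80)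

/-- The semantics of the network. -/
noncomputable def Inst.sem (I : Inst S r) (X : Exp I) : Sem (Rd S r) (CB S) I.Site where
  rd := I.rd
  cb := I.cb
  nb k ω := if h : (k : ℕ) < 4 then (ω.1, X.s ⟨k, h⟩ ω.2)
    else (X.s ⟨k - 4, by omega⟩ ω.1, ω.2)

/-- The content of the register `z` is `ρ₀`-near the code of `w`. -/
def Near (I : Inst S r) (ε ρ₀ : ℝ) (x : Reg S → I.Site → ℝ) (z : Bool) (w : I.J → S.Cell) : Prop :=
  pr (fun ω : I.Site => ∃ c : S.Comp, ¬ IsB ε (decide (I.enc w c ω.1 = 1)) (x (.x z c) ω)) ≤ ρ₀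

/-- The values `x` obey the network, except for a small fraction of the sites. -/
def Obeys (I : Inst S r) (X : Exp I) (τ : ℚ) (ε lam β : ℝ) (x : Reg S → I.Site → ℝ) : Prop :=
  (∀ ρ ω, 0 ≤ x ρ ω ∧ x ρ ω ≤ 1) ∧
  ∀ ρ, pr (fun ω : I.Site => ¬ (net S r τ ρ).Rel (I.sem X) ε lam x ρ ω) ≤ β

/-- **Soundness of the network** (main statement of the analytic part). -/
def SoundStmt : Prop :=
  ∀ (S : Spec) (r : ℕ), 0 < r → ∀ ρ₀ : ℝ, 0 < ρ₀ →
    ∃ τ : ℚ, 0 < τ ∧ τ < 1 ∧ ∃ lam : ℚ, 0 < lam ∧ lam < 1 ∧ ∃ ε₀ : ℚ, 0 < ε₀ ∧ ε₀ < 1 / 100 ∧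
    ∃ β : ℝ, 0 < β ∧ ∀ (I : Inst S r) (X : Exp I), Facts I → ∀ x : Reg S → I.Site → ℝ,
      Obeys I X τ ε₀ lam β x →
      (∃ w, I.Valid w ∧ Near I ε₀ ρ₀ x false w ∧ ¬ I.Valid (I.step false w)) ∨
      (∃ w, I.Valid w ∧ w ≠ I.w0 ∧ Near I ε₀ ρ₀ x true w ∧ ¬ I.Valid (I.step true w))

end Vale.Agent.P330.S
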