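import Vale.Agent.P330.S.Prog

/-!
# The array computes the circuits (block PROG, semantics)
-/

namespace Vale.Agent.P330.S.Mach

open Finset

/-! ### One instruction -/

/-- Execution of an instruction. -/
def Ins.exec (s : ℕ → Bool) (q : Ins) : ℕ → Bool :=
  Function.update s q.t (opf q.op (s q.i) (s q.j))

/-- Execution of the first `k` instructions. -/
def execN (q : List Ins) (s : ℕ → Bool) (k : ℕ) : ℕ → Bool := (q.take k).foldl Ins.exec s

theorem execN_zero (q : List Ins) (s : ℕ → Bool) : execN q s 0 = s := by simp [execN]

theorem execN_succ_none {q : List Ins} (s : ℕ → Bool) {k : ℕ} (h : q[k]? = none) :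
    execN q s (k + 1) = execN q s k := by
  unfold execN
  have h1 : q.length ≤ k := by simpa using h
  rw [List.take_of_length_le (by omega), List.take_of_length_le h1]

theorem execN_succ_some {q : List Ins} (s : ℕ → Bool) {k : ℕ} {a : Ins} (h : q[k]? = some a) :
    execN q s (k + 1) = a.exec (execN q s k) := by
  unfold execN
  rw [List.take_add_one, h, Option.toList_some, List.foldl_append]
  rfl

/-! ### The array -/

variable {P : Prm} {k : Bool} {q : List Ins} {x : ℕ → Bool}

/-- The input row. -/
def inp0 (P : Prm) (x : ℕ → Bool) (c : ℕ) : Bool := decide (c < P.n) && x c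

theorem tab_row0 {p : ℕ} (hp : p < P.W) : (P.tab k x p).v = inp0 P x p ∧
    (P.tab k x p).a = false ∧ (P.tab k x p).b = false := by
  rw [Prm.tab, dif_neg (by omega)]
  exact ⟨rfl, rfl, rfl⟩

theorem tab_pos (hW : 0 < P.W) (r c : ℕ) :
    P.tab k x ((r + 1) * P.W + c) = phi (P.prog k ((r + 1) * P.W + c))
      (P.tab k x ((r + 1) * P.W + c - 1)) (P.tab k x (r * P.W + c)) := by
  conv_lhs => rw [Prm.tab]
  have h1 : P.W ≤ (r + 1) * P.W + c := by
    rw [add_mul, one_mul]
    omega
  rw [dif_pos ⟨hW, h1⟩]
  have h2 : (r + 1) * P.W + c - P.W = r * P.W + c := by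
    rw [add_mul, one_mul]
    omega
  rw [h2]

theorem div_row {W r c : ℕ} (hc : c < W) : ((r + 1) * W + c) / W = r + 1 := by
  rw [Nat.add_comm, Nat.add_mul_div_right _ _ (by omega), Nat.div_eq_of_lt hc, zero_add]

theorem mod_row {W r c : ℕ} (hc : c < W) : ((r + 1) * W + c) % W = c := by
  rw [Nat.add_comm, Nat.add_mul_mod_self_right, Nat.mod_eq_of_lt hc]

/-- One row. -/
theorem tab_one {r : ℕ} (hW : 0 < P.W) (hq : ∀ p, P.W ≤ p → P.prog k p = piAt q P.W p) :
    let op := if 2 ≤ r + 1 then (q[r - 1]?.map Ins.op).getD (false, false) else (false, false)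
    let G := opf op (P.tab k x ((r + 1) * P.W - 1)).a (P.tab k x ((r + 1) * P.W - 1)).b
    let V : ℕ → Bool := fun c =>
      if (decide (2 ≤ r + 1) && q[r - 1]?.any fun s => decide (s.t = c)) = true then G
      else (P.tab k x (r * P.W + c)).v
    ∀ c < P.W, (P.tab k x ((r + 1) * P.W + c)).g = G ∧
      (P.tab k x ((r + 1) * P.W + c)).v = V c ∧
      (P.tab k x ((r + 1) * P.W + c)).a = (q[r]?.any fun s => decide (s.i ≤ c) && V s.i) ∧
      (P.tab k x ((r + 1) * P.W + c)).b = (q[r]?.any fun s => decide (s.j ≤ c) && V s.j) := by
  intro op G V c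
  have hpi : ∀ c < P.W, P.prog k ((r + 1) * P.W + c) =
      ⟨q[r]?.any fun s => decide (s.i = c), q[r]?.any fun s => decide (s.j = c),
        decide (2 ≤ r + 1) && q[r - 1]?.any fun s => decide (s.t = c), decide (c = 0), op⟩ := by
    intro c hc
    rw [hq _ (by rw [add_mul, one_mul]; omega)]
    unfold piAt
    rw [div_row hc, mod_row hc]
    have h1 : r + 1 - 2 = r - 1 := by omega
    simp only [h1, Nat.add_sub_cancel, Nat.le_add_left, decide_true, Bool.true_and, op]
  induction c with
  | zero =>
    intro hc
    have h0 := hpi 0 hc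
    rw [tab_pos hW, h0, Nat.add_zero]
    refine ⟨?_, ?_, ?_, ?_⟩
    · simp [phi, G]
    · simp only [phi, V, G, decide_true, if_true, Nat.add_zero]
    · simp only [phi, decide_true, if_true, Bool.false_xor]
      rcases q[r]? with _ | s
      · simp
      · simp only [Option.any_some, V, G]
        by_cases h : s.i = 0
        · simp [h]
        · simp [h]
    · simp only [phi, decide_true, if_true, Bool.false_xor]
      rcases q[r]? with _ | s
      · simp
      · simp only [Option.any_some, V, G]
        by_cases h : s.j = 0
        · simp [h]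
        · simp [h]
  | succ c ih =>
    intro hc
    obtain ⟨i1, i2, i3, i4⟩ := ih (by omega)
    have h0 := hpi (c + 1) hc
    rw [tab_pos hW, h0, show (r + 1) * P.W + (c + 1) - 1 = (r + 1) * P.W + c by omega]
    have hc0 : decide (c + 1 = 0) = false := by simp
    have hv : (phi ⟨q[r]?.any fun s => decide (s.i = c + 1), q[r]?.any fun s => decide (s.j = c + 1),
        decide (2 ≤ r + 1) && q[r - 1]?.any fun s => decide (s.t = c + 1), decide (c + 1 = 0), op⟩
        (P.tab k x ((r + 1) * P.W + c)) (P.tab k x (r * P.W + (c + 1)))).v = V (c + 1) := by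
      simp only [phi, hc0, V, i1]
      rfl
    refine ⟨?_, hv, ?_, ?_⟩
    · simp only [phi, hc0]
      exact i1
    · have e : (phi ⟨q[r]?.any fun s => decide (s.i = c + 1),
        q[r]?.any fun s => decide (s.j = c + 1),
        decide (2 ≤ r + 1) && q[r - 1]?.any fun s => decide (s.t = c + 1), decide (c + 1 = 0), op⟩
        (P.tab k x ((r + 1) * P.W + c)) (P.tab k x (r * P.W + (c + 1)))).a =
          xor (P.tab k x ((r + 1) * P.W + c)).a
            ((q[r]?.any fun s => decide (s.i = c + 1)) && V (c + 1)) := by
        rw [← hv]
        simp only [phi, hc0]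
        rfl
      rw [e, i3]
      rcases q[r]? with _ | s
      · simp
      · simp only [Option.any_some]
        by_cases h : s.i = c + 1
        · rw [h]
          simp
        · by_cases h' : s.i ≤ c
          · simp [h, h', show s.i ≤ c + 1 by omega]
          · simp [h, h', show ¬ s.i ≤ c + 1 by omega]
    · have e : (phi ⟨q[r]?.any fun s => decide (s.i = c + 1),
        q[r]?.any fun s => decide (s.j = c + 1),
        decide (2 ≤ r + 1) && q[r - 1]?.any fun s => decide (s.t = c + 1), decide (c + 1 = 0), op⟩
        (P.tab k x ((r + 1) * P.W + c)) (P.tab k x (r * P.W + (c + 1)))).b =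
          xor (P.tab k x ((r + 1) * P.W + c)).b
            ((q[r]?.any fun s => decide (s.j = c + 1)) && V (c + 1)) := by
        rw [← hv]
        simp only [phi, hc0]
        rfl
      rw [e, i4]
      rcases q[r]? with _ | s
      · simp
      · simp only [Option.any_some]
        by_cases h : s.j = c + 1
        · rw [h]
          simp
        · by_cases h' : s.j ≤ c
          · simp [h, h', show s.j ≤ c + 1 by omega]
          · simp [h, h', show ¬ s.j ≤ c + 1 by omega]

/-- The values of the row number `r + 1`. -/
theorem tab_row (hW : 0 < P.W) (hq : ∀ p, P.W ≤ p → P.prog k p = piAt q P.W p)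
    (hc : ∀ a ∈ q, a.i < P.W ∧ a.j < P.W) :
    ∀ r, ∀ c < P.W, (P.tab k x ((r + 1) * P.W + c)).v = execN q (inp0 P x) r c ∧
      (P.tab k x ((r + 1) * P.W + c)).a =
        (q[r]?.any fun s => decide (s.i ≤ c) && execN q (inp0 P x) r s.i) ∧
      (P.tab k x ((r + 1) * P.W + c)).b =
        (q[r]?.any fun s => decide (s.j ≤ c) && execN q (inp0 P x) r s.j) := by
  intro r
  induction r with
  | zero =>
    have h1 := tab_one (x := x) (r := 0) hW hq
    simp only at h1
    have h2 : ∀ c < P.W, (P.tab k x (0 * P.W + c)).v = execN q (inp0 P x) 0 c := by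
      intro c hc'
      rw [zero_mul, zero_add, (tab_row0 hc').1, execN_zero]
    intro c hc'
    obtain ⟨-, e1, e2, e3⟩ := h1 c hc'
    have h3 : decide (2 ≤ 0 + 1) = false := by simp
    simp only [h3, Bool.false_and, Bool.false_eq_true, if_false] at e1 e2 e3
    refine ⟨by rw [e1, h2 c hc'], ?_, ?_⟩
    · rw [e2]
      rcases h : q[0]? with _ | s
      · rfl
      · simp only [Option.any_some]
        rw [h2 s.i (hc s (List.mem_of_getElem? h)).1]
    · rw [e3]
      rcases h : q[0]? with _ | s
      · rfl
      · simp only [Option.any_some]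
        rw [h2 s.j (hc s (List.mem_of_getElem? h)).2]
  | succ r ih =>
    have h1 := tab_one (x := x) (r := r + 1) hW hq
    simp only at h1
    have h3 : decide (2 ≤ r + 1 + 1) = true := by simp
    have h4 : 2 ≤ r + 1 + 1 := by omega
    have h5 : (r + 1 + 1) * P.W - 1 = (r + 1) * P.W + (P.W - 1) := by
      rw [add_mul (r + 1) 1, one_mul]
      omega
    obtain ⟨-, a1, a2⟩ := ih (P.W - 1) (by omega)
    have hV : ∀ c < P.W, (if (decide (2 ≤ r + 1 + 1) &&
        q[r + 1 - 1]?.any fun s => decide (s.t = c)) = true then
          opf (if 2 ≤ r + 1 + 1 then (q[r + 1 - 1]?.map Ins.op).getD (false, false)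
            else (false, false)) (P.tab k x ((r + 1 + 1) * P.W - 1)).a
            (P.tab k x ((r + 1 + 1) * P.W - 1)).b
        else (P.tab k x ((r + 1) * P.W + c)).v) = execN q (inp0 P x) (r + 1) c := by
      intro c hc'
      obtain ⟨v1, -, -⟩ := ih c hc'
      rw [v1, h5, a1, a2, h3, if_pos h4, Nat.add_sub_cancel, Bool.true_and]
      rcases h : q[r]? with _ | s
      · rw [execN_succ_none _ h]
        simp
      · rw [execN_succ_some _ h]
        obtain ⟨b1, b2⟩ := hc s (List.mem_of_getElem? h)
        simp only [Option.any_some, decide_eq_true_eq, Option.map_some, Option.getD_some]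
        rw [decide_eq_true (show s.i ≤ P.W - 1 by omega),
          decide_eq_true (show s.j ≤ P.W - 1 by omega), Bool.true_and, Bool.true_and]
        unfold Ins.exec
        by_cases hs : s.t = c
        · rw [if_pos hs, hs, Function.update_self]
        · rw [if_neg hs, Function.update_of_ne (Ne.symm hs)]
    intro c hc'
    obtain ⟨-, e1, e2, e3⟩ := h1 c hc'
    refine ⟨by rw [e1, hV c hc'], ?_, ?_⟩
    · rw [e2]
      rcases h : q[r + 1]? with _ | s
      · rfl
      · simp only [Option.any_some]
        rw [hV s.i (hc s (List.mem_of_getElem? h)).1]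
    · rw [e3]
      rcases h : q[r + 1]? with _ | s
      · rfl
      · simp only [Option.any_some]
        rw [hV s.j (hc s (List.mem_of_getElem? h)).2]

/-! ### The program of a circuit -/

theorem exec_of_ne {s : ℕ → Bool} {q : Ins} {c : ℕ} (h : c ≠ q.t) : q.exec s c = s c := by
  unfold Ins.exec
  rw [Function.update_of_ne h]

theorem exec_self (s : ℕ → Bool) (q : Ins) : q.exec s q.t = opf q.op (s q.i) (s q.j) := by
  unfold Ins.exec
  rw [Function.update_self]

/-- The copies of the inputs. -/
theorem fold_copies (n : ℕ) (s : ℕ → Bool) : ∀ m ≤ n, ∀ c,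
    ((List.range m).map (fun i => (⟨(true, true), i, i, n + i⟩ : Ins))).foldl Ins.exec s c =
      if n ≤ c ∧ c < n + m then s (c - n) else s c := by
  intro m
  induction m with
  | zero =>
    intro _ c
    have : ¬ (n ≤ c ∧ c < n + 0) := by omega
    rw [if_neg this]
    rfl
  | succ m ih =>
    intro hm c
    rw [List.range_succ, List.map_append, List.foldl_append]
    have ih' := ih (by omega)
    simp only [List.map_cons, List.map_nil, List.foldl_cons, List.foldl_nil]
    by_cases hc : c = n + m
    · subst hc
      have h1 := exec_self (((List.range m).map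
        (fun i => (⟨(true, true), i, i, n + i⟩ : Ins))).foldl Ins.exec s)
        (⟨(true, true), m, m, n + m⟩ : Ins)
      simp only at h1
      rw [h1]
      simp only [opf]
      rw [ih', if_neg (by omega), if_pos (by omega), Nat.add_sub_cancel_left]
    · rw [exec_of_ne (by simpa using hc), ih']
      by_cases h : n ≤ c ∧ c < n + m
      · rw [if_pos h, if_pos (by omega)]
      · rw [if_neg h, if_neg (by omega)]

theorem getD_append_last (w : List Bool) (b : Bool) {i : ℕ} (h : i = w.length) :
    (w ++ [b]).getD i false = b := by
  subst h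
  simp [List.getD]

theorem getD_append_left (w v : List Bool) {i : ℕ} (h : i < w.length) :
    (w ++ v).getD i false = w.getD i false := by
  simp [List.getD, List.getElem?_append_left h]

/-- The gates. -/
theorem fold_gates (n : ℕ) : ∀ (l : List BGate) (k : ℕ) (w : List Bool) (s : ℕ → Bool),
    w.length = n + k → (∀ i < n + k, s (n + i) = w.getD i false) →
    (∀ j, ∀ h : j < l.length, l[j].Below (n + (k + j))) →
    ∀ i < n + k + l.length,
      ((l.zipIdx k).map (fun p => gateIns n p.2 p.1)).foldl Ins.exec s (n + i) =
        (l.foldl (fun w g => w ++ [g.eval w]) w).getD i false := by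
  intro l
  induction l with
  | nil =>
    intro k w s hw hs _ i hi
    exact hs i (by simpa using hi)
  | cons g l ih =>
    intro k w s hw hs hb i hi
    rw [List.zipIdx_cons, List.map_cons, List.foldl_cons, List.foldl_cons]
    have hg : g.Below (n + k) := by
      have h0 := hb 0 (by simp)
      rwa [List.getElem_cons_zero, Nat.add_zero] at h0
    have hval : (gateIns n k g).exec s (2 * n + k) = g.eval w := by
      have ht : (gateIns n k g).t = 2 * n + k := by cases g <;> rfl
      have h1 := exec_self s (gateIns n k g)
      rw [ht] at h1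
      rw [h1]
      cases g with
      | and i j =>
        simp only [gateIns, opf, BGate.eval]
        rw [hs i hg.1, hs j hg.2]
      | or i j =>
        simp only [gateIns, opf, BGate.eval]
        rw [hs i hg.1, hs j hg.2]
      | not i =>
        simp only [gateIns, opf, BGate.eval]
        rw [hs i hg]
    have hs' : ∀ i < n + (k + 1), (gateIns n k g).exec s (n + i) =
        (w ++ [g.eval w]).getD i false := by
      intro i hi
      by_cases h : i = n + k
      · subst h
        rw [getD_append_last _ _ hw.symm, ← hval]
        congr 1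
        omega
      · have ht : (gateIns n k g).t = 2 * n + k := by cases g <;> rfl
        rw [exec_of_ne (by rw [ht]; omega), hs i (by omega), getD_append_left _ _ (by omega)]
    refine ih (k + 1) (w ++ [g.eval w]) _ (by simp; omega) hs' (fun j hj => ?_) i
      (by simp only [List.length_cons] at hi; omega)
    have := hb (j + 1) (by simpa using hj)
    simp only [List.getElem_cons_succ] at this
    rwa [show k + 1 + j = k + (j + 1) by omega]

/-- The copies of the outputs. -/
theorem fold_outs (n : ℕ) : ∀ (l : List ℕ) (k : ℕ) (s : ℕ → Bool), k + l.length ≤ n →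
    ∀ c, ((l.zipIdx k).map (fun p => (⟨(true, true), n + p.1, n + p.1, p.2⟩ : Ins))).foldl
        Ins.exec s c =
      if h : k ≤ c ∧ c < k + l.length then s (n + l[c - k]'(by omega)) else s c := by
  intro l
  induction l with
  | nil =>
    intro k s _ c
    rw [dif_neg (by simp)]
    rfl
  | cons a l ih =>
    intro k s hk c
    simp only [List.length_cons] at hk
    rw [List.zipIdx_cons, List.map_cons, List.foldl_cons, ih (k + 1) _ (by omega)]
    by_cases h : k + 1 ≤ c ∧ c < k + 1 + l.length
    · rw [dif_pos h, dif_pos (by simp only [List.length_cons]; omega)]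
      rw [exec_of_ne (by simp only; omega)]
      congr 2
      obtain ⟨d, rfl⟩ : ∃ d, c = k + 1 + d := ⟨c - (k + 1), by omega⟩
      have e1 : k + 1 + d - (k + 1) = d := by omega
      have e2 : k + 1 + d - k = d + 1 := by omega
      simp only [e1, e2, List.getElem_cons_succ]
    · rw [dif_neg h]
      by_cases hc : c = k
      · subst hc
        rw [dif_pos (by simp only [List.length_cons]; omega)]
        have h1 := exec_self s (⟨(true, true), n + a, n + a, c⟩ : Ins)
        simp only at h1
        rw [h1]
        simp only [opf, Nat.sub_self, List.getElem_cons_zero]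
      · rw [exec_of_ne (by simpa using hc), dif_neg (by simp only [List.length_cons]; omega)]

/-- The string with the bits `x 0, …, x (n - 1)`. -/
def str (n : ℕ) (x : ℕ → Bool) : List Bool := (List.range n).map x

theorem str_length (n : ℕ) (x : ℕ → Bool) : (str n x).length = n := by simp [str]

theorem str_getD {n : ℕ} (x : ℕ → Bool) {i : ℕ} (h : i < n) : (str n x).getD i false = x i := by
  simp [str, List.getD, h]

/-- The program computes the circuit. -/
theorem fold_insOf {n : ℕ} {C : BoolCircuit} (hC : C.IsCircuit n) (x s : ℕ → Bool)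
    (hs : ∀ c < n, s c = x c) : ∀ j < n,
    (insOf n C).foldl Ins.exec s j = (C.eval (str n x)).getD j false := by
  intro j hj
  obtain ⟨h1, h2, h3⟩ := hC
  unfold insOf
  rw [List.foldl_append, List.foldl_append, fold_outs n C.outs 0 _ (by omega),
    dif_pos (by omega)]
  have hj' : j < C.outs.length := by omega
  have hout : C.outs[j] < n + C.gates.length := h2 _ (List.getElem_mem hj')
  have h4 := fold_gates n C.gates 0 (str n x)
    (((List.range n).map (fun i => (⟨(true, true), i, i, n + i⟩ : Ins))).foldl Ins.exec s)
    (by rw [str_length]; rfl) (fun i hi => by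
      rw [fold_copies n s n le_rfl, if_pos (by omega), Nat.add_sub_cancel_left,
        hs i (by omega), str_getD x (by omega)]) (fun j hj => by
      have := h3 j hj
      rwa [Nat.zero_add]) (C.outs[j]) (by omega)
  simp only [Nat.sub_zero]
  rw [h4]
  unfold BoolCircuit.eval
  simp [List.getD, hj']

theorem insOf_length (n : ℕ) (C : BoolCircuit) :
    (insOf n C).length = n + C.gates.length + C.outs.length := by
  simp [insOf]
  omega

theorem insOf_cols {n : ℕ} {C : BoolCircuit} (hC : C.IsCircuit n) {a : Ins} (ha : a ∈ insOf n C) :
    a.i < 2 * n + C.gates.length ∧ a.j < 2 * n + C.gates.length := by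
  obtain ⟨h1, h2, h3⟩ := hC
  unfold insOf at ha
  rw [List.mem_append, List.mem_append] at ha
  rcases ha with (ha | ha) | ha
  · rw [List.mem_map] at ha
    obtain ⟨i, hi, rfl⟩ := ha
    rw [List.mem_range] at hi
    simp only
    omega
  · rw [List.mem_map] at ha
    obtain ⟨⟨g, k⟩, hi, rfl⟩ := ha
    have h4 := List.mem_zipIdx' hi
    obtain ⟨h5, h6⟩ := h4
    have h7 := h3 k h5
    have h8 : C.gates[k] = g := h6.symm
    rw [h8] at h7
    cases g with
    | and i j => simp only [gateIns, BGate.Below] at h7 ⊢; omega
    | or i j => simp only [gateIns, BGate.Below] at h7 ⊢; omega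
    | not i => simp only [gateIns, BGate.Below] at h7 ⊢; omega
  · rw [List.mem_map] at ha
    obtain ⟨⟨o, k⟩, hi, rfl⟩ := ha
    have h5 := List.fst_mem_of_mem_zipIdx hi
    have h6 := h2 o h5
    simp only
    omega

/-! ### The parameters of an instance -/

variable (I : EndOfLine)

/-- The circuit number `k` (`false`: successor, `true`: predecessor). -/
def circ' (k : Bool) : BoolCircuit := if k then I.P else I.S

theorem isCircuit' (k : Bool) : (circ' I k).IsCircuit I.n := by
  unfold circ'
  cases k
  · exact I.circuit_S
  · exact I.circuit_P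

theorem length_gates' (k : Bool) : 2 * I.n + (circ' I k).gates.length ≤ wid I := by
  unfold circ' wid
  cases k
  · simp
  · simp

theorem prm_n1 : 1 ≤ (prm I).n := I.one_le
theorem prm_nW : (prm I).n ≤ (prm I).W := by
  show I.n ≤ wid I
  unfold wid
  omega
theorem prm_W2 : 2 ≤ (prm I).W := by
  have := I.one_le
  show 2 ≤ wid I
  unfold wid
  omega
theorem prm_R2 : 2 ≤ (prm I).R := by
  show 2 ≤ rows I
  unfold rows
  omega

/-- **The array computes the circuits.** -/
theorem prm_out (k : Bool) (x : ℕ → Bool) {j : ℕ} (hj : j < I.n) :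
    (prm I).out k x j = ((circ' I k).eval (str I.n x)).getD j false := by
  have hC := isCircuit' I k
  have hlen := length_gates' I k
  have hW : 0 < (prm I).W := lt_of_lt_of_le (by norm_num) (prm_W2 I)
  have hjW : j < (prm I).W := lt_of_lt_of_le hj (prm_nW I)
  have h1 := (tab_row (P := prm I) (k := k) (q := insOf I.n (circ' I k)) (x := x) hW
    (fun p _ => rfl) (fun a ha => by
      have := insOf_cols hC ha
      show a.i < wid I ∧ a.j < wid I
      omega) (wid I) j hjW).1
  unfold Prm.out
  have h2 : (prm I).R - 1 = wid I + 1 := rfl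
  have h3 : decide (j < (prm I).n) = true := decide_eq_true hj
  rw [h2, h1, h3, Bool.true_and]
  unfold execN
  rw [List.take_of_length_le (by rw [insOf_length, hC.1]; omega)]
  exact fold_insOf hC x _ (fun c hc => by
    unfold inp0
    rw [decide_eq_true (show c < (prm I).n from hc), Bool.true_and]) j hj

theorem eval_length {n : ℕ} {C : BoolCircuit} (hC : C.IsCircuit n) (x : List Bool) :
    (C.eval x).length = n := by
  unfold BoolCircuit.eval
  rw [List.length_map, hC.1]

theorem eval_str (k : Bool) (x : ℕ → Bool) :
    (circ' I k).eval (str I.n x) = str I.n ((prm I).out k x) := by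
  refine List.ext_getElem ?_ fun i h1 h2 => ?_
  · rw [eval_length (isCircuit' I k), str_length]
  · have hi : i < I.n := by rwa [str_length] at h2
    have h3 := prm_out I k x hi
    rw [List.getD_eq_getElem _ _ h1] at h3
    rw [← h3]
    simp [str]

theorem str_congr {n : ℕ} {x y : ℕ → Bool} (h : ∀ j < n, x j = y j) : str n x = str n y :=
  List.map_congr_left fun j hj => h j (List.mem_range.1 hj)

theorem str_inj {n : ℕ} {x y : ℕ → Bool} (h : str n x = str n y) : ∀ j < n, x j = y j := by
  intro j hj
  rw [← str_getD x hj, h, str_getD y hj]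

theorem str_false (n : ℕ) : str n (fun _ => false) = List.replicate n false := by
  simp [str]

/-- The conclusion of the second part of `MachStmt` gives a solution. -/
theorem isSolution_of_succ {u : ℕ → Bool} (h : (∀ j < I.n, (prm I).out false u j = false) ∨
    ∃ j < I.n, (prm I).out true ((prm I).out false u) j ≠ u j) : I.IsSolution (str I.n u) := by
  have hS : I.S.eval (str I.n u) = str I.n ((prm I).out false u) := eval_str I false u
  have hP : ∀ y, I.P.eval (str I.n y) = str I.n ((prm I).out true y) := eval_str I true
  rcases h with h | ⟨j, hj, h⟩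
  · have h1 : I.S.eval (str I.n u) = List.replicate I.n false := by
      rw [hS, ← str_false, str_congr h]
    have h2 : str I.n u ≠ List.replicate I.n false := by
      intro h2
      rw [h2] at h1
      exact I.succ_zero h1
    refine ⟨str_length _ _, h2, Or.inl ?_⟩
    rw [h1, I.pred_zero]
    exact h2.symm
  · have h1 : I.P.eval (I.S.eval (str I.n u)) ≠ str I.n u := by
      rw [hS, hP]
      intro h1
      exact h (str_inj h1 j hj)
    refine ⟨str_length _ _, fun h2 => h1 ?_, Or.inl h1⟩
    rw [h2]
    exact I.pred_succ_zero

/-- The conclusion of the third part of `MachStmt` gives a solution. -/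
theorem isSolution_of_pred {v : ℕ → Bool} (h0 : ∃ j < I.n, v j = true)
    (h : ∃ j < I.n, (prm I).out false ((prm I).out true v) j ≠ v j) :
    I.IsSolution (str I.n v) := by
  obtain ⟨j0, hj0, h0⟩ := h0
  obtain ⟨j, hj, h⟩ := h
  refine ⟨str_length _ _, fun h2 => ?_, Or.inr fun h1 => h ?_⟩
  · rw [← str_false] at h2
    have := str_inj h2 j0 hj0
    rw [h0] at this
    exact absurd this (by simp)
  · have hP : I.P.eval (str I.n v) = str I.n ((prm I).out true v) := eval_str I true v
    have hS : ∀ y, I.S.eval (str I.n y) = str I.n ((prm I).out false y) := eval_str I false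
    rw [hP, hS] at h1
    exact str_inj h1 j hj

/-! ### Sizes -/

theorem length_pairW (u v : List Bool) : (pairW u v).length = 2 * u.length + v.length + 1 := by
  unfold pairW
  rw [List.length_append, List.length_cons]
  have : (u.flatMap fun b => [true, b]).length = 2 * u.length := by
    induction u with
    | nil => rfl
    | cons b u ih => rw [List.flatMap_cons, List.length_append, ih]; simp; omega
  omega

theorem length_le_listW {α : Type} (c : α → List Bool) (l : List α) :
    l.length ≤ (listW c l).length := by
  induction l with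
  | nil => simp
  | cons a l ih =>
    rw [listW, length_pairW, List.length_cons]
    omega

theorem circuit_size (C : BoolCircuit) : 2 * C.gates.length + C.outs.length ≤
    (boolCircuitW C).length := by
  unfold boolCircuitW
  rw [length_pairW]
  have h1 := length_le_listW bgateW C.gates
  have h2 := length_le_listW Nat.bits C.outs
  omega

/-- The width of the array is at most twice the length of the code of the instance. -/
theorem wid_le : wid I ≤ 2 * (eolW I).length := by
  have hS := circuit_size I.S
  have hP := circuit_size I.P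
  have h1 : I.S.outs.length = I.n := I.circuit_S.1
  have h2 : I.P.outs.length = I.n := I.circuit_P.1
  unfold eolW wid
  rw [length_pairW, length_pairW]
  omega

theorem rows_le : rows I ≤ 2 * (eolW I).length + 2 := by
  have := wid_le I
  unfold rows
  omega

/-- The number of positions of the array. -/
theorem size_le : (prm I).R * (prm I).W ≤ (2 * (eolW I).length + 2) ^ 2 := by
  rw [pow_two]
  exact Nat.mul_le_mul (rows_le I) ((wid_le I).trans (by omega))

theorem n_le : I.n ≤ (eolW I).length := by
  have hP := circuit_size I.P
  have h2 : I.P.outs.length = I.n := I.circuit_P.1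
  unfold eolW
  rw [length_pairW, length_pairW]
  omega

/-- The conditions on the parameters. -/
theorem prm_good {r : ℕ} {L : Fin r → ℕ} (L5 : ∀ i, 5 ≤ L i)
    (cop : Pairwise fun i j => Nat.Coprime (L i) (L j))
    (big : 2 * (2 * (eolW I).length + 2) ^ 2 + 3 ≤ ∏ i, L i) : Good (prm I) L where
  n1 := prm_n1 I
  nW := prm_nW I
  W2 := prm_W2 I
  R2 := prm_R2 I
  L5 := L5
  cop := cop
  big := by
    have := size_le I
    omega

end Vale.Agent.P330.S.Mach
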