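import Vale.Agent.P330.PTEol
import Vale.Agent.P330.S.ProgSem
import Vale.Agent.P330.S.H175.CbPT

/-!
# The parameters of an instance are computable in polynomial time (block PROG)
-/

namespace Vale.Agent.P330.S.Mach

open Vale.Agent.Lib.PolyTime Vale.Agent.P330 Vale.Agent.P330.S.H175

variable {A : Set Word} {α β γ : Type*} [Enc α] [Enc β] [Enc γ]

/-! ### Instructions -/

instance : Enc Ins := ⟨fun s => enc (s.op, s.i, s.j, s.t)⟩

theorem PT_ins {f : α → Ins} (hf : PT A f) :
    PT A (fun a => ((f a).op, (f a).i, (f a).j, (f a).t)) := by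
  have h : PT A (fun s : Ins => (s.op, s.i, s.j, s.t)) := ⟨_, FP.id, fun s => rfl⟩
  exact h.comp hf

theorem PT_mkIns {o : α → Bool × Bool} {i j t : α → ℕ} (ho : PT A o) (hi : PT A i) (hj : PT A j)
    (ht : PT A t) : PT A (fun a => Ins.mk (o a) (i a) (j a) (t a)) := by
  obtain ⟨F, hF, hF'⟩ := ho.pair (hi.pair (hj.pair ht))
  exact ⟨F, hF, fun a => hF' a⟩

theorem PT_insOp {f : α → Ins} (hf : PT A f) : PT A (fun a => (f a).op) := (PT_ins hf).fst
theorem PT_insI {f : α → Ins} (hf : PT A f) : PT A (fun a => (f a).i) := (PT_ins hf).snd.fst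
theorem PT_insJ {f : α → Ins} (hf : PT A f) : PT A (fun a => (f a).j) := (PT_ins hf).snd.snd.fst
theorem PT_insT {f : α → Ins} (hf : PT A f) : PT A (fun a => (f a).t) := (PT_ins hf).snd.snd.snd

theorem gateIns_eq (n k : ℕ) (g : BGate) : gateIns n k g =
    if g.data.1 = 0 then ⟨(false, false), n + g.data.2.1, n + g.data.2.2, 2 * n + k⟩
    else if g.data.1 = 1 then ⟨(false, true), n + g.data.2.1, n + g.data.2.2, 2 * n + k⟩
    else ⟨(true, false), n + g.data.2.1, n + g.data.2.1, 2 * n + k⟩ := by
  cases g <;> simp [gateIns, BGate.data]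

theorem PT_gateIns {n k : α → ℕ} {g : α → BGate} (hn : PT A n) (hk : PT A k) (hg : PT A g) :
    PT A (fun a => gateIns (n a) (k a) (g a)) := by
  have hd := PT_bdata hg
  have h1 := PT.add hn hd.snd.fst
  have h2 := PT.add hn hd.snd.snd
  have h3 := PT.add (PT.mul (PT.const 2) hn) hk
  refine (PT.ite (PT.eqNat hd.fst (PT.const 0)) (PT_mkIns (PT.const (false, false)) h1 h2 h3)
    (PT.ite (PT.eqNat hd.fst (PT.const 1)) (PT_mkIns (PT.const (false, true)) h1 h2 h3)
      (PT_mkIns (PT.const (true, false)) h1 h1 h3))).congr fun a => ?_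
  rw [gateIns_eq]

omit [Enc β] in
theorem zipIdx_eq (l : List β) : l.zipIdx = l.zip (List.range l.length) := by
  rw [List.zipIdx_eq_zip_range', List.range_eq_range']

theorem PT_zipIdx {f : α → List β} (hf : PT A f) : PT A (fun a => (f a).zipIdx) :=
  (PT.zip hf (PT.range hf.length (PBd.length hf))).congr fun a => (zipIdx_eq (f a)).symm

theorem PT_insOf {n : α → ℕ} {C : α → BoolCircuit} (hn : PT A n) (hnb : PBd n) (hC : PT A C) :
    PT A (fun a => insOf (n a) (C a)) := by
  have h1 : PT A (fun a => (List.range (n a)).map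
      (fun i => (⟨(true, true), i, i, n a + i⟩ : Ins))) :=
    PT.map (f := fun a i => (⟨(true, true), i, i, n a + i⟩ : Ins)) (PT.range hn hnb)
      (PT_mkIns (PT.const (true, true)) PT.snd' PT.snd' (PT.add (hn.comp PT.fst') PT.snd'))
  have h2 : PT A (fun a => (C a).gates.zipIdx.map (fun p => gateIns (n a) p.2 p.1)) :=
    PT.map (f := fun a (p : BGate × ℕ) => gateIns (n a) p.2 p.1) (PT_zipIdx (PT_bgates hC))
      (PT_gateIns (hn.comp PT.fst') PT.snd'.snd PT.snd'.fst)
  have h3 : PT A (fun a => (C a).outs.zipIdx.map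
      (fun p => (⟨(true, true), n a + p.1, n a + p.1, p.2⟩ : Ins))) :=
    PT.map (f := fun a (p : ℕ × ℕ) => (⟨(true, true), n a + p.1, n a + p.1, p.2⟩ : Ins))
      (PT_zipIdx (PT_bouts hC))
      (PT_mkIns (PT.const (true, true)) (PT.add (hn.comp PT.fst') PT.snd'.fst)
        (PT.add (hn.comp PT.fst') PT.snd'.fst) PT.snd'.snd)
  exact (h1.append h2).append h3

/-! ### Static contents -/

theorem PT_optAny {o : α → Option β} {f : α → β → Bool} (ho : PT A o)
    (hf : PT A (fun p : α × β => f p.1 p.2)) : PT A (fun a => (o a).any (f a)) := by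
  refine (PT.optCase (f := fun _ => false) (g := f) ho (PT.const false) hf).congr fun a => ?_
  rcases o a with _ | b <;> rfl

theorem PT_optOp {o : α → Option Ins} (ho : PT A o) :
    PT A (fun a => ((o a).map Ins.op).getD (false, false)) := by
  refine (PT.optCase (f := fun _ => (false, false)) (g := fun _ s => s.op) ho (PT.const _)
    (PT_insOp PT.snd')).congr fun a => ?_
  rcases o a with _ | b <;> rfl

theorem pi_mk_eq {a b c d a' b' c' d' : Bool} {e e' : Bool × Bool} :
    decide (PI.mk a b c d e = PI.mk a' b' c' d' e') =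
      (decide (a = a') && (decide (b = b') && (decide (c = c') && (decide (d = d') &&
        (decide (e.1 = e'.1) && decide (e.2 = e'.2)))))) := by
  rw [Bool.eq_iff_iff]
  simp only [Bool.and_eq_true, decide_eq_true_eq, PI.mk.injEq, Prod.ext_iff]

theorem PT_piAt {q : α → List Ins} {W p : α → ℕ} (hq : PT A q) (hW : PT A W) (hp : PT A p)
    (v : PI) : PT A (fun a => decide (piAt (q a) (W a) (p a) = v)) := by
  obtain ⟨al, be, de, m, o⟩ := v
  have hr := PT.div hp hW
  have hc := PT.mod hp hW
  have h1 := PT.getElem? hq (hr.sub (PT.const 1))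
  have h2 := PT.getElem? hq (hr.sub (PT.const 2))
  have hle1 := PT.le (PT.const 1) hr
  have hle2 := PT.le (PT.const 2) hr
  have hi : PT A (fun a => (q a)[p a / W a - 1]?.any fun s => decide (s.i = p a % W a)) :=
    PT_optAny (f := fun a s => decide (s.i = p a % W a)) h1
      (PT.eqNat (PT_insI PT.snd') (hc.comp PT.fst'))
  have hj : PT A (fun a => (q a)[p a / W a - 1]?.any fun s => decide (s.j = p a % W a)) :=
    PT_optAny (f := fun a s => decide (s.j = p a % W a)) h1
      (PT.eqNat (PT_insJ PT.snd') (hc.comp PT.fst'))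
  have ht : PT A (fun a => (q a)[p a / W a - 2]?.any fun s => decide (s.t = p a % W a)) :=
    PT_optAny (f := fun a s => decide (s.t = p a % W a)) h2
      (PT.eqNat (PT_insT PT.snd') (hc.comp PT.fst'))
  have ho : PT A (fun a => if 2 ≤ p a / W a then
      ((q a)[p a / W a - 2]?.map Ins.op).getD (false, false) else (false, false)) :=
    PT.ite hle2 (PT_optOp h2) (PT.const _)
  refine PT.congr ?_ fun a => pi_mk_eq.symm
  exact (PT_beq (hle1.and hi) (PT.const _)).and ((PT_beq (hle1.and hj) (PT.const _)).and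
    ((PT_beq (hle2.and ht) (PT.const _)).and ((PT_beq (PT.eqNat hc (PT.const 0)) (PT.const _)).and
      ((PT_beq ho.fst (PT.const _)).and (PT_beq ho.snd (PT.const _))))))

/-! ### The parameters -/

theorem PT_wid {f : α → EndOfLine} (hf : PT A f) : PT A (fun a => wid (f a)) :=
  PT.add (PT.mul (PT.const 2) (PT_eolN hf))
    (PT.max (PT.length (PT_bgates (PT_eolS hf))) (PT.length (PT_bgates (PT_eolP hf))))

theorem PBd_wid {f : α → EndOfLine} (hf : PT A f) : PBd (fun a => wid (f a)) :=
  ((PBd.const 2).mul hf.pbd).mono fun a => wid_le (f a)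

theorem PBd_rows {f : α → EndOfLine} (hf : PT A f) : PBd (fun a => rows (f a)) :=
  (PBd_wid hf).add (PBd.const 2)

/-- **The parameters are computable in polynomial time.** -/
theorem prmPT {f : α → EndOfLine} (hf : PT A f) : PrmPT A (fun a => prm (f a)) where
  n := PT_eolN hf
  W := PT_wid hf
  R := PT.add (PT_wid hf) (PT.const 2)
  prog k v := by
    have hf' : PT A (fun x : α × ℕ => f x.1) := hf.comp PT.fst'
    have hC : PT A (fun x : α × ℕ => if k then (f x.1).P else (f x.1).S) := by
      cases k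
      · exact PT_eolS hf'
      · exact PT_eolP hf'
    exact PT_piAt (PT_insOf (PT_eolN hf') (PBd_eolN hf') hC) (PT_wid hf') PT.snd' v

end Vale.Agent.P330.S.Mach
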