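import Vale.Agent.P330.S.Prop2
import Vale.Agent.P330.S.AE

/-!
# Corrected reads and the joint contraction, at almost all sites
-/

namespace Vale.Agent.P330.S

open Finset PCP.AR Filter Topology
open H855 (mean)

variable {S : Spec} {r : ℕ}

namespace Lim

/-- sequences of configurations -/
abbrev Cf (A : Lim S r) : Type := ∀ n, (A.I n).J → S.Cell

variable {A : Lim S r}

/-- the bit of the code of `w` at the table argument of the site -/
noncomputable def eb (w : A.Cf) (c : S.Comp) (ω : A.Pt) : Bool :=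
  decide ((A.I ω.1).enc (w ω.1) c ω.2.1 = 1)

/-- Register `z` holds the code of `w`, up to a null set. -/
def Codes (A : Lim S r) (z : Bool) (w : A.Cf) : Prop :=
  ∀ c, A.Is (eb w c) (.x z c) ∧ A.Is (eb w c) (.lo z c) ∧ A.Is (eb w c) (.hi z c)

/-- Register `z` holds the code of `w`, up to `ρ'`, for `U`-almost all `n`. -/
def Nr (A : Lim S r) (ρ' : ℝ) (z : Bool) (w : A.Cf) : Prop :=
  ∀ᶠ n in A.U, Near (A.I n) (A.ε n) ρ' (A.x n) z (w n)

/-- `w n` has a head for `U`-almost all `n`. -/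
def HasHead (A : Lim S r) (w : A.Cf) : Prop := ∀ᶠ n in A.U, ∃ h, (A.I n).IsHead (w n) h

/-- the next configuration -/
noncomputable def stepCf (A : Lim S r) (z : Bool) (w : A.Cf) : A.Cf := fun n =>
  (A.I n).step z (w n)

/-- the register `z` is right at `ω` -/
def RtAt (z : Bool) (w : A.Cf) (ω : A.Pt) : Prop :=
  (A.I ω.1).Rt (A.ε ω.1) (A.x ω.1) z (w ω.1) ω.2

/-- the names of the maps used by `h` and `a` -/
def phk : Option (S.Slot → S.Off) → Phi S
  | none => .id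
  | some o => .shift o

/-- all reads used by `h z` and `a z` are right at `ω` -/
def RR (z : Bool) (w : A.Cf) (ω : A.Pt) : Prop :=
  ∀ p : Finset (Fin r) × Option (S.Slot → S.Off), RtAt z w (A.rd (.cube p.1 (phk p.2)) ω)

theorem rtAt_of_codes {z : Bool} {w : A.Cf} (h : A.Codes z w) : ∀ᶠ ω in A.F, RtAt z w ω := by
  have h1 : ∀ᶠ ω in A.F, ∀ c, IsB (A.ε ω.1) (eb w c ω) (A.v (.x z c) ω) :=
    Filter.eventually_all.2 fun c => (h c).1
  exact h1

theorem codes_near {z : Bool} {w : A.Cf} (h : A.Codes z w) {ρ' : ℝ} (hρ : 0 < ρ') :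
    A.Nr ρ' z w := by
  filter_upwards [ae_pr_lt (rtAt_of_codes h) hρ] with n hn
  rw [near_iff]
  exact hn.le

theorem nr_mono {z : Bool} {w : A.Cf} {ρ ρ' : ℝ} (h : A.Nr ρ z w) (hρ : ρ ≤ ρ') : A.Nr ρ' z w :=
  h.mono fun _ hn => le_trans hn hρ

theorem nr_congr {z : Bool} {w w' : A.Cf} {ρ : ℝ} (h : A.Nr ρ z w)
    (he : ∀ᶠ n in A.U, w n = w' n) : A.Nr ρ z w' := by
  filter_upwards [h, he] with n h1 h2
  rwa [← h2]

theorem codes_congr {z : Bool} {w w' : A.Cf} (h : A.Codes z w)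
    (he : ∀ᶠ n in A.U, w n = w' n) : A.Codes z w' := by
  have h0 : ∀ᶠ ω in A.F, w ω.1 = w' ω.1 :=
    ae_fst (Ω := fun n => (A.I n).Site) (Q := fun n => w n = w' n) he
  have key : ∀ c ρ, A.Is (eb w c) ρ → A.Is (eb w' c) ρ := by
    intro c ρ h1
    filter_upwards [h1, h0] with ω g1 g2
    unfold eb at g1 ⊢
    rwa [← g2]
  exact fun c => ⟨key c _ (h c).1, key c _ (h c).2.1, key c _ (h c).2.2⟩

theorem rr_of_codes {z : Bool} {w : A.Cf} (h : A.Codes z w) : ∀ᶠ ω in A.F, RR z w ω :=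
  Filter.eventually_all.2 fun _ => A.ae_rd (rtAt_of_codes h) _

/-- The corrected read is right if the reads are right. -/
theorem h_of_reads (z : Bool) (w : A.Cf) : ∀ᶠ ω in A.F, RR z w ω →
    ∀ c, IsB (A.ε ω.1) (eb w c ω) (A.v (.h z c) ω) := by
  have h1 : ∀ᶠ ω in A.F, ∀ c, (net S r A.τ (.h z c)).Rel ((A.I ω.1).sem (A.X ω.1)) (A.ε ω.1)
      (A.lam ω.1) (A.x ω.1) (.h z c) ω.2 := Filter.eventually_all.2 fun c => A.rel (.h z c)
  filter_upwards [h1] with ω g1 hr c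
  exact h_right (A.I ω.1) (A.X ω.1) (g1 c) (fun T => hr (T, none))

/-- **(A)** -/
theorem h_is {z : Bool} {w : A.Cf} (h : A.Codes z w) (c : S.Comp) : A.Is (eb w c) (.h z c) := by
  filter_upwards [rr_of_codes h, h_of_reads z w] with ω g1 g2
  exact g2 g1 c

/-- The bit `y z o e` is right if the reads are right. -/
theorem y_of_reads (z : Bool) (w : A.Cf) {hd : ∀ n, (A.I n).J}
    (hh : ∀ᶠ n in A.U, (A.I n).IsHead (w n) (hd n)) (o : S.Off) (e : S.Cell) :
    ∀ᶠ ω in A.F, (∀ T, RtAt z w (A.rd (.cube T (.ones (offs S o))) ω)) →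
      IsB (A.ε ω.1) (decide (w ω.1 (hd ω.1 + (A.I ω.1).off o) = e)) (A.v (.y z o e) ω) := by
  have h0 : ∀ᶠ ω in A.F, (A.I ω.1).IsHead (w ω.1) (hd ω.1) :=
    ae_fst (Ω := fun n => (A.I n).Site) (Q := fun n => (A.I n).IsHead (w n) (hd n)) hh
  filter_upwards [A.rel (.y z o e), h0] with ω g1 g2 hr
  exact y_right (A.I ω.1) (A.X ω.1) g2 g1 hr

/-- Near version of **(B)**: `y z o e` is right up to `2 ^ r * ρ'`. -/
theorem y_near {z : Bool} {w : A.Cf} {ρ' : ℝ} (hn : A.Nr ρ' z w) {hd : ∀ n, (A.I n).J}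
    (hh : ∀ᶠ n in A.U, (A.I n).IsHead (w n) (hd n)) (o : S.Off) (e : S.Cell) {η : ℝ} (hη : 0 < η) :
    ∀ᶠ n in A.U, pr (fun ω : (A.I n).Site =>
      ¬ IsB (A.ε n) (decide (w n (hd n + (A.I n).off o) = e)) (A.x n (.y z o e) ω)) ≤
        2 ^ r * ρ' + η := by
  filter_upwards [ae_pr_lt (y_of_reads z w hh o e) hη, hn] with n h1 h2
  rw [near_iff] at h2
  have h3 := (A.I n).pr_reads (fun _ : Unit => Phi.ones (offs S o))
    (fun σ => ¬ (A.I n).Rt (A.ε n) (A.x n) z (w n) σ)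
  have h4 := pr_or (fun ω : (A.I n).Site => ¬ ((∀ T, RtAt z w
    (A.rd (.cube T (.ones (offs S o))) ⟨n, ω⟩)) →
      IsB (A.ε n) (decide (w n (hd n + (A.I n).off o) = e)) (A.x n (.y z o e) ω)))
    (fun ω : (A.I n).Site => ∃ p : Finset (Fin r) × Unit,
      ¬ (A.I n).Rt (A.ε n) (A.x n) z (w n) ((A.I n).rd (.cube p.1 (.ones (offs S o))) ω))
  have h5 : pr (fun ω : (A.I n).Site =>
      ¬ IsB (A.ε n) (decide (w n (hd n + (A.I n).off o) = e)) (A.x n (.y z o e) ω)) ≤ _ :=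
    le_trans (pr_mono fun ω hω => ?_) h4
  · have h6 : (2 ^ r * Fintype.card Unit : ℝ) * pr (fun σ =>
      ¬ (A.I n).Rt (A.ε n) (A.x n) z (w n) σ) ≤ 2 ^ r * ρ' := by
      simp only [Fintype.card_unit, Nat.cast_one, mul_one]
      exact mul_le_mul_of_nonneg_left h2 (by positivity)
    linarith
  · by_cases hc : ∀ T, RtAt z w (A.rd (.cube T (.ones (offs S o))) ⟨n, ω⟩)
    · exact Or.inl fun h => hω (h hc)
    · right
      obtain ⟨T, hT⟩ := not_forall.1 hc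
      exact ⟨(T, ()), hT⟩

/-- Near version of **(B)**: the averaged bits are right at almost all sites. -/
theorem yb_near {z : Bool} {w : A.Cf} {ρ' : ℝ} (hn : A.Nr ρ' z w) (hρ : 2 ^ r * ρ' ≤ 1 / 8)
    {hd : ∀ n, (A.I n).J} (hh : ∀ᶠ n in A.U, (A.I n).IsHead (w n) (hd n)) (o : S.Off)
    (e : S.Cell) :
    A.Is (fun ω => decide (w ω.1 (hd ω.1 + (A.I ω.1).off o) = e)) (.yb z o e) := by
  have hy := y_near hn hh o e (η := 1 / 8) (by norm_num)
  by_cases hT : ∀ᶠ n in A.U, w n (hd n + (A.I n).off o) = e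
  · -- the bit is `1`
    have h1 : (3 / 5 : ℝ) ≤ A.av (.y z o e) := by
      apply le_av_of_pr
      filter_upwards [hy, hT] with n h1 h2
      rw [decide_eq_true h2, pr_not] at h1
      linarith
    have h2 := A.yb_true (z := z) (o := o) (e := e) (by linarith)
    have h0 : ∀ᶠ ω in A.F, w ω.1 (hd ω.1 + (A.I ω.1).off o) = e :=
      ae_fst (Ω := fun n => (A.I n).Site) (Q := fun n => w n (hd n + (A.I n).off o) = e) hT
    filter_upwards [h2, h0] with ω g1 g2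
    rw [decide_eq_true g2]
    exact g1
  · have hF : ∀ᶠ n in A.U, ¬ w n (hd n + (A.I n).off o) = e :=
      Ultrafilter.eventually_not.2 hT
    have h1 : A.av (.y z o e) ≤ 2 / 5 := by
      apply av_le_of_pr
      filter_upwards [hy, hF] with n h1 h2
      rw [decide_eq_false h2] at h1
      linarith
    have h2 := A.yb_false (z := z) (o := o) (e := e) (by linarith)
    have h0 : ∀ᶠ ω in A.F, ¬ w ω.1 (hd ω.1 + (A.I ω.1).off o) = e :=
      ae_fst (Ω := fun n => (A.I n).Site) (Q := fun n => ¬ w n (hd n + (A.I n).off o) = e) hF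
    filter_upwards [h2, h0] with ω g1 g2
    rw [decide_eq_false g2]
    exact g1

/-- **(B)** -/
theorem yb_is {z : Bool} {w : A.Cf} (h : A.Codes z w) {hd : ∀ n, (A.I n).J}
    (hh : ∀ᶠ n in A.U, (A.I n).IsHead (w n) (hd n)) (o : S.Off) (e : S.Cell) :
    A.Is (fun ω => decide (w ω.1 (hd ω.1 + (A.I ω.1).off o) = e)) (.yb z o e) := by
  have hr : (0 : ℝ) < 1 / (8 * 2 ^ r) := by positivity
  refine yb_near (codes_near h hr) (le_of_eq ?_) hh o e
  field_simp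

/-- The corrected read of the next configuration is right if the reads are right. -/
theorem a_of_reads {z : Bool} {w : A.Cf} {ρ' : ℝ} (hn : A.Nr ρ' z w)
    (hρ : 2 ^ r * ρ' ≤ 1 / 8) (hh : A.HasHead w) : ∀ᶠ ω in A.F, RR z w ω →
      ∀ c, IsB (A.ε ω.1) (eb (A.stepCf z w) c ω) (A.v (.a z c) ω) := by
  classical
  -- choose the heads
  set hd : ∀ n, (A.I n).J := fun n =>
    if h : ∃ h, (A.I n).IsHead (w n) h then h.choose else 0 with hhd
  have hh' : ∀ᶠ n in A.U, (A.I n).IsHead (w n) (hd n) := by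
    filter_upwards [hh] with n hn
    rw [hhd]
    simp only [dif_pos hn]
    exact hn.choose_spec
  have h0 : ∀ᶠ ω in A.F, (A.I ω.1).IsHead (w ω.1) (hd ω.1) :=
    ae_fst (Ω := fun n => (A.I n).Site) (Q := fun n => (A.I n).IsHead (w n) (hd n)) hh'
  have h1 : ∀ᶠ ω in A.F, ∀ c, (net S r A.τ (.a z c)).Rel ((A.I ω.1).sem (A.X ω.1)) (A.ε ω.1)
      (A.lam ω.1) (A.x ω.1) (.a z c) ω.2 := Filter.eventually_all.2 fun c => A.rel (.a z c)
  have h2 : ∀ᶠ ω in A.F, ∀ o e, IsB (A.ε ω.1)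
      (decide (w ω.1 (hd ω.1 + (A.I ω.1).off o) = e)) (A.v (.yb z o e) ω) :=
    Filter.eventually_all.2 fun o => Filter.eventually_all.2 fun e => yb_near hn hρ hh' o e
  filter_upwards [h0, h1, h2] with ω g0 g1 g2 hr c
  exact a_right (A.I ω.1) (A.X ω.1) g0 (g1 c) (fun T o => hr (T, some o)) g2

/-- **(C)** -/
theorem a_is {z : Bool} {w : A.Cf} (h : A.Codes z w) (hh : A.HasHead w) (c : S.Comp) :
    A.Is (eb (A.stepCf z w) c) (.a z c) := by
  have hr : (0 : ℝ) < 1 / (8 * 2 ^ r) := by positivity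
  filter_upwards [rr_of_codes h, a_of_reads (codes_near h hr) (le_of_eq (by field_simp)) hh]
    with ω g1 g2
  exact g2 g1 c

/-- the number of reads -/
noncomputable def nRd (S : Spec) (r : ℕ) : ℝ :=
  2 ^ r * Fintype.card (Option (S.Slot → S.Off))

theorem nRd_pos (S : Spec) (r : ℕ) : 1 ≤ nRd S r := by
  unfold nRd
  have h1 : (1 : ℝ) ≤ 2 ^ r := one_le_pow₀ (by norm_num)
  have h2 : (1 : ℝ) ≤ Fintype.card (Option (S.Slot → S.Off)) := by
    exact_mod_cast Fintype.card_pos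
  nlinarith

theorem two_pow_le_nRd (S : Spec) (r : ℕ) : 2 ^ r ≤ nRd S r := by
  unfold nRd
  have h1 : (0 : ℝ) < 2 ^ r := by positivity
  have h2 : (1 : ℝ) ≤ Fintype.card (Option (S.Slot → S.Off)) := by
    exact_mod_cast Fintype.card_pos
  nlinarith

/-- Near codes: the fraction of the sites with a wrong read. -/
theorem rr_near {z : Bool} {w : A.Cf} {ρ' : ℝ} (hn : A.Nr ρ' z w) :
    ∀ᶠ n in A.U, pr (fun ω : (A.I n).Site => ¬ RR z w (⟨n, ω⟩ : A.Pt)) ≤ nRd S r * ρ' := by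
  filter_upwards [hn] with n h2
  rw [near_iff] at h2
  have h3 := (A.I n).pr_reads (phk (S := S))
    (fun σ => ¬ (A.I n).Rt (A.ε n) (A.x n) z (w n) σ)
  have h5 : pr (fun ω : (A.I n).Site => ¬ RR z w (⟨n, ω⟩ : A.Pt)) ≤ _ :=
    le_trans (pr_mono fun ω hω => not_forall.1 hω) h3
  refine le_trans h5 ?_
  unfold nRd
  exact mul_le_mul_of_nonneg_left h2 (by positivity)

/-- From right if all reads are right to a bound on the fraction of the wrong sites. -/
theorem near_of_reads {z : Bool} {w : A.Cf} {ρ' : ℝ} (hn : A.Nr ρ' z w) {P : A.Pt → Prop}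
    (hP : ∀ᶠ ω in A.F, RR z w ω → P ω) {η : ℝ} (hη : 0 < η) :
    ∀ᶠ n in A.U, pr (fun ω : (A.I n).Site => ¬ P ⟨n, ω⟩) ≤ nRd S r * ρ' + η := by
  filter_upwards [rr_near hn, ae_pr_lt hP hη] with n h1 h2
  have h3 := pr_or (fun ω : (A.I n).Site => ¬ RR z w (⟨n, ω⟩ : A.Pt))
    (fun ω : (A.I n).Site => ¬ (RR z w (⟨n, ω⟩ : A.Pt) → P ⟨n, ω⟩))
  have h4 : pr (fun ω : (A.I n).Site => ¬ P ⟨n, ω⟩) ≤ _ :=
    le_trans (pr_mono fun ω hω => ?_) h3
  · linarith
  · by_cases hc : RR z w (⟨n, ω⟩ : A.Pt)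
    · exact Or.inr fun h => hω (h hc)
    · exact Or.inl hc

/-- Near version of **(A)**. -/
theorem h_near {z : Bool} {w : A.Cf} {ρ' : ℝ} (hn : A.Nr ρ' z w) {η : ℝ} (hη : 0 < η) :
    ∀ᶠ n in A.U, pr (fun ω : (A.I n).Site => ¬ ∀ c : S.Comp, IsB (A.ε n)
      (decide ((A.I n).enc (w n) c ω.1 = 1)) (A.x n (.h z c) ω)) ≤ nRd S r * ρ' + η :=
  near_of_reads hn (h_of_reads z w) hη

/-- Near version of **(C)**. -/
theorem a_near {z : Bool} {w : A.Cf} {ρ' : ℝ} (hn : A.Nr ρ' z w) (hρ : 2 ^ r * ρ' ≤ 1 / 8)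
    (hh : A.HasHead w) {η : ℝ} (hη : 0 < η) :
    ∀ᶠ n in A.U, pr (fun ω : (A.I n).Site => ¬ ∀ c : S.Comp, IsB (A.ε n)
      (decide ((A.I n).enc ((A.I n).step z (w n)) c ω.1 = 1)) (A.x n (.a z c) ω)) ≤
        nRd S r * ρ' + η :=
  near_of_reads hn (a_of_reads hn hρ hh) hη

/-! ### The joint contraction -/

/-- the admissible nearness -/
noncomputable def rhoE (S : Spec) (r : ℕ) : ℝ := 1 / (128 * nRd S r ^ 2)

theorem rhoE_pos (S : Spec) (r : ℕ) : 0 < rhoE S r := by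
  have := nRd_pos S r
  unfold rhoE
  positivity

theorem pow_mul_rhoE (S : Spec) (r : ℕ) : 2 ^ r * rhoE S r ≤ 1 / 8 := by
  have h1 := nRd_pos S r
  have h2 := two_pow_le_nRd S r
  unfold rhoE
  rw [mul_one_div, div_le_div_iff₀ (by positivity) (by norm_num)]
  nlinarith

/-- Bad table arguments at the site. -/
def BadAtSite (Z : Finset Bool) (w : Bool → A.Cf) (ω : A.Pt) : Prop :=
  BadM (A.I ω.1) (A.ε ω.1) (A.x ω.1) Z (fun z => w z ω.1) ω.2.1

theorem rt_of_not_badAtSite (Z : Finset Bool) (w : Bool → A.Cf) :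
    ∀ᶠ ω in A.F, ¬ BadAtSite Z w ω → ∀ z ∈ Z, RtAt z (w z) ω := by
  have h1 : ∀ᶠ ω in A.F, ∀ z c, (net S r A.τ (.x z c)).Rel ((A.I ω.1).sem (A.X ω.1)) (A.ε ω.1)
      (A.lam ω.1) (A.x ω.1) (.x z c) ω.2 :=
    Filter.eventually_all.2 fun z => Filter.eventually_all.2 fun c => A.rel (.x z c)
  have h2 : ∀ᶠ ω in A.F, ∀ z c, |A.v (.p z c) ω - A.pm (.m z c) ω| < 1 / 16 :=
    Filter.eventually_all.2 fun z => Filter.eventually_all.2 fun c =>
      A.ra_false (ρ := .p z c) (ρ' := .m z c) rfl (by norm_num)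
  filter_upwards [h1, h2] with ω g1 g2 hb z hz
  exact rt_of_not_bad (w := fun z => w z ω.1) (A.ε_pos _).le (A.ε_lt _)
    (fun ρ σ => (A.obeys ω.1).1 ρ σ) hz (g1 z) (fun c => (g2 z c).le) hb

theorem not_badAtSite (Z : Finset Bool) (w : Bool → A.Cf) {ρ' : ℝ} (hρ : ρ' ≤ rhoE S r)
    (hn : ∀ z ∈ Z, A.Nr ρ' z (w z))
    (H : ∀ᶠ ω in A.F, (∀ z ∈ Z, RR z (w z) ω) → ∀ z ∈ Z, ∀ c,
      IsB (A.ε ω.1) (eb (w z) c ω) (A.v (.m z c) ω)) :
    ∀ᶠ ω in A.F, ¬ BadAtSite Z w ω := by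
  have key := contraction_seq (I := A.I) (ε := A.ε) (x := A.x) (Z := Z) (w := w) (A.U : Filter ℕ)
    (phk (S := S)) (rhoE S r) (rhoE_pos S r).le (by
      have h1 := nRd_pos S r
      have h2 : (2 ^ r * Fintype.card (Option (S.Slot → S.Off)) : ℝ) = nRd S r := rfl
      rw [h2]
      unfold rhoE
      rw [mul_one_div, div_le_div_iff₀ (by positivity) (by norm_num)]
      nlinarith)
    (fun z hz => by
      filter_upwards [hn z hz] with n h1
      rw [near_iff] at h1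
      exact h1.trans hρ)
    (fun η hη => ae_pr_lt H hη)
    (fun η hη => by
      filter_upwards [ae_pr_lt (rt_of_not_badAtSite Z w) hη] with n h1
      refine lt_of_le_of_lt (pr_mono ?_) h1
      rintro ω ⟨h2, z, hz, h3⟩ h4
      exact h3 (h4 h2 z hz))
  refine ae_of_small fun η hη => ?_
  filter_upwards [key η hη] with n h1
  have h2 : pr (fun ω : (A.I n).Site => ¬ ¬ BadAtSite Z w (⟨n, ω⟩ : A.Pt)) =
      pr (fun M : (A.I n).V => BadM (A.I n) (A.ε n) (A.x n) Z (fun z => w z n) M) := by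
    rw [← pr_fst (Ω := (A.I n).V) (Ω' := (A.I n).V)
      (fun M => BadM (A.I n) (A.ε n) (A.x n) Z (fun z => w z n) M)]
    exact pr_congr fun ω => not_not
  rw [h2]
  exact h1.le

/-- Codes from what is written into the registers. -/
theorem codes_of_m_all (z : Bool) (w : A.Cf)
    (h : ∀ᶠ ω in A.F, ∀ c, IsB (A.ε ω.1) (eb w c ω) (A.v (.m z c) ω)) : A.Codes z w := by
  intro c
  have hm : A.Is (eb w c) (.m z c) := h.mono fun ω hω => hω c
  exact codes_of_m (z := z) (c := c)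
    (g := fun M : (Σ n, (A.I n).V) => decide ((A.I M.1).enc (w M.1) c M.2 = 1)) hm

/-- **(E)**, jointly for the registers in `Z`: if the registers in `Z` are near the codes and, at
almost all sites, right reads give right values of `m`, then the registers hold the codes up to
null sets. -/
theorem joint (Z : Finset Bool) (w : Bool → A.Cf) {ρ' : ℝ} (hρ : ρ' ≤ rhoE S r)
    (hn : ∀ z ∈ Z, A.Nr ρ' z (w z))
    (H : ∀ᶠ ω in A.F, (∀ z ∈ Z, RR z (w z) ω) → ∀ z ∈ Z, ∀ c,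
      IsB (A.ε ω.1) (eb (w z) c ω) (A.v (.m z c) ω)) :
    ∀ z ∈ Z, A.Codes z (w z) := by
  -- all registers are right
  have hrt : ∀ᶠ ω in A.F, ∀ z ∈ Z, RtAt z (w z) ω := by
    filter_upwards [rt_of_not_badAtSite Z w, not_badAtSite Z w hρ hn H] with ω g1 g2
    exact g1 g2
  have hrr : ∀ᶠ ω in A.F, ∀ z ∈ Z, RR z (w z) ω := by
    have h1 : ∀ᶠ ω in A.F, ∀ p : Finset (Fin r) × Option (S.Slot → S.Off), ∀ z ∈ Z,
        RtAt z (w z) (A.rd (.cube p.1 (phk p.2)) ω) :=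
      Filter.eventually_all.2 fun _ => A.ae_rd hrt _
    filter_upwards [h1] with ω g1 z hz p
    exact g1 p z hz
  intro z hz
  refine codes_of_m_all z (w z) ?_
  filter_upwards [H, hrr] with ω g1 g2
  exact g1 g2 z hz

/-- **(E)** for one register. -/
theorem single (z : Bool) (w : A.Cf) {ρ' : ℝ} (hρ : ρ' ≤ rhoE S r) (hn : A.Nr ρ' z w)
    (H : ∀ᶠ ω in A.F, RR z w ω → ∀ c, IsB (A.ε ω.1) (eb w c ω) (A.v (.m z c) ω)) :
    A.Codes z w := by
  refine joint {z} (fun _ => w) hρ (fun z' hz' => ?_) ?_ z (Finset.mem_singleton_self z)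
  · rw [Finset.mem_singleton.1 hz']
    exact hn
  · filter_upwards [H] with ω g1 g2 z' hz' c
    rw [Finset.mem_singleton.1 hz']
    exact g1 (g2 z (Finset.mem_singleton_self z)) c

end Lim

end Vale.Agent.P330.S
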