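import Vale.Agent.P330.S.SoundFin
import Vale.Agent.P330.S.Prop3

/-!
# `SoundStmt`
-/

namespace Vale.Agent.P330.S

open Filter PCP.AR

variable {S : Spec} {r : ℕ}

theorem reads_iff {A : Lim S r} {z : Bool} {w : A.Cfg} {ω : A.Pt} :
    A.Reads z w ω ↔ Lim.RR z w ω := by
  constructor
  · rintro h ⟨B, _ | o⟩
    · exact (h B).1
    · exact (h B).2 o
  · exact fun h B => ⟨h (B, none), fun o => h (B, some o)⟩

theorem pd_of {A : Lim S r} {ρ' : ℝ} (h : ρ' ≤ Lim.rhoE S r) : A.PD ρ' where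
  h_reads z w := by
    filter_upwards [Lim.h_of_reads (A := A) z w] with ω g1 g2
    exact g1 (reads_iff.1 g2)
  a_reads z w hn hh := by
    have h2 : (2 : ℝ) ^ r * ρ' ≤ 1 / 8 :=
      (mul_le_mul_of_nonneg_left h (by positivity)).trans (Lim.pow_mul_rhoE S r)
    filter_upwards [Lim.a_of_reads (A := A) (z := z) (w := w) hn h2 hh] with ω g1 g2
    exact g1 (reads_iff.1 g2)
  joint Z w hn H := by
    refine Lim.joint Z w h hn ?_
    filter_upwards [H] with ω g1 g2
    exact g1 fun z hz => reads_iff.2 (g2 z hz)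

theorem propStmt : PropStmt := by
  intro S r _
  refine ⟨Lim.rhoE S r, Lim.rhoE_pos S r, Lim.nRd S r + 1,
    by linarith [Lim.nRd_pos S r], fun A ρ' h0 h1 => ⟨pd_of h1, fun z w hn hh => ?_⟩⟩
  have h2 : (2 : ℝ) ^ r * ρ' ≤ 1 / 8 :=
    (mul_le_mul_of_nonneg_left h1 (by positivity)).trans (Lim.pow_mul_rhoE S r)
  unfold Lim.SNrA
  filter_upwards [Lim.a_near (A := A) (z := z) (w := w) hn h2 hh h0] with n hn'
  have e : pr (fun ω : (A.I n).Site => ∃ c : S.Comp, ¬ IsB (A.ε n)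
      (decide ((A.I n).enc (A.stp z w n) c ω.1 = 1)) (A.x n (.a z c) ω)) ≤
      (Lim.nRd S r + 1) * ρ' := by
    refine le_trans (pr_mono fun ω hω hc => ?_) (hn'.trans (le_of_eq (by ring)))
    obtain ⟨c, hc'⟩ := hω
    exact hc' (hc c)
  exact e

/-- **Soundness of the network.** -/
theorem soundStmt : SoundStmt := soundStmt_of_prop propStmt

end Vale.Agent.P330.S
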