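import Vale.Agent.P330.S.GBPT
import Vale.Agent.P330.S.SoundMain
import Vale.Agent.P330.S.MachMain
import Vale.Agent.P330.S.ProgOk
import Vale.Agent.P330.S.ProgPT
import Vale.Agent.P330.S.H175.CbT
import Vale.Agent.P330.S.Fam

/-!
# The subexponential PCP for PPAD

`subexpPCP`: for every `k` there is a reduction of size and time `2 ^ O(N ^ (1 / k))` with constants
`ε`, `δ`.
-/

namespace Vale.Agent.P330.S

open Finset Vale.Agent.Lib.PolyTime

/-! ### Reads and neighbours stay below the number of the sites -/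

theorem Inst.rdN_lt {S : Spec} {r : ℕ} (I : Inst S r) (ρ : Rd S r) {w : ℕ}
    (hw : w < 2 ^ I.e * 2 ^ I.e) : I.rdN ρ w < 2 ^ I.e * 2 ^ I.e := by
  obtain ⟨ω, hω⟩ := I.num.surjective ⟨w, hw⟩
  have h1 : w = I.num ω := by rw [hω]
  rw [h1, I.rdN_num]
  exact (I.num _).2

theorem Inst.nbN_lt {S : Spec} {r : ℕ} (I : Inst S r) (h : Even I.e) (j : Fin 8) {w : ℕ}
    (hw : w < 2 ^ I.e * 2 ^ I.e) : I.nbN j w < 2 ^ I.e * 2 ^ I.e := by
  obtain ⟨ω, hω⟩ := I.num.surjective ⟨w, hw⟩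
  have h1 : w = I.num ω := by rw [hω]
  rw [h1, I.nbN_num h]
  exact (I.num _).2

theorem Inst.card_site {S : Spec} {r : ℕ} (I : Inst S r) :
    Fintype.card I.Site = 2 ^ I.e * 2 ^ I.e := by
  rw [Fintype.card_congr I.num, Fintype.card_fin]

/-- The circuit of a list of gates. -/
theorem toCircuit_eq {n : ℕ} {gs : List Gate} (h : WFNet n gs) (G : GenCircuit)
    (h1 : G.nodes = n) (h2 : G.gates = gs) : h.toCircuit = G := by
  cases G
  simp only at h1 h2
  subst h1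
  subst h2
  rfl

theorem wfNet_of (G : GenCircuit) {n : ℕ} {gs : List Gate} (h1 : G.nodes = n)
    (h2 : G.gates = gs) : WFNet n gs := by
  subst h1
  subst h2
  exact ⟨G.gates_ne, G.out_lt, G.ins_lt, G.out_nodup, G.params_mem⟩

namespace Mach

section fam

variable (k : ℕ) (τ lam : ℚ)

/-- The number of the sites. -/
noncomputable def famN (q : Pad) : ℕ := 2 ^ (fam k q).e * 2 ^ (fam k q).e

/-- The number of the nodes. -/
noncomputable def famNodes (q : Pad) : ℕ := famN k q * KK (net spec (rk k) τ) lam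

/-- The list of the gates. -/
noncomputable def famGates (q : Pad) : List Gate :=
  gatesL (net spec (rk k) τ) lam (famN k q) (fam k q).rdN
    (H175.cbT (prm q.1) (lensP k q)) (fam k q).nbN

/-- The decoder. -/
noncomputable def famDec (q : Pad × List ℚ) : Raw :=
  Raw.mk (decode (KK (net spec (rk k) τ) lam) (root (net spec (rk k) τ) lam) q.1.1
    (lensP k q.1) q.2)

theorem famN_pos (q : Pad) : 0 < famN k q := by unfold famN; positivity

/-- The circuit. -/
noncomputable def famCirc (q : Pad) : GenCircuit :=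
  circ (net spec (rk k) τ) lam (famN k q) (fam k q).rdN
    (H175.cbT (prm q.1) (lensP k q)) (fam k q).nbN (famN_pos k q)
    (fun ρ _ hw => (fam k q).rdN_lt ρ hw) (fun j _ hw => (fam k q).nbN_lt (even_e k q) j hw)

theorem wf_fam (q : Pad) : WFNet (famNodes k τ lam q) (famGates k τ lam q) :=
  wfNet_of (famCirc k τ lam q) rfl rfl

/-! ### Polynomial time -/

theorem PTInst_fam' : PTInst ∅ (fam k) := PTInst_fam k (prmPT PT.fst')

theorem PT_famNodes : PT ∅ (famNodes k τ lam) :=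
  PT.mul (PTInst_fam' k).PT_N (PT.const _)

theorem PBd_famNodes : PBd (famNodes k τ lam) :=
  (PTInst_fam' k).PBd_N.mul (PBd.const _)

theorem PBd_lensP : PBd (fun q : Pad => 2 ^ ∑ i, lensP k q i ^ 5) :=
  (PTInst_fam' k).V.mono fun q => by rw [fam_e]

theorem PT_famGates : PT ∅ (famGates k τ lam) := by
  have hI : PTInst ∅ (fun p : Pad × ℕ => fam k p.1) := (PTInst_fam' k).comp PT.fst'
  refine PT_gatesL (net spec (rk k) τ) lam (PTInst_fam' k).PT_N (PTInst_fam' k).PBd_N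
    (rd := fun q => (fam k q).rdN) (cb := fun q => H175.cbT (prm q.1) (lensP k q))
    (nb := fun q => (fam k q).nbN) (fun ρ => hI.PT_rdN ρ PT.snd') (fun κ => ?_)
    (fun j => hI.PT_nbN j PT.snd')
  exact H175.PT_cbT (P := fun p : Pad × ℕ => prm p.1.1) (L := fun p => lensP k p.1)
    (prmPT PT.fst'.fst) (fun i => (PT_lensP k i).comp PT.fst')
    ((PBd_lensP k).comp (A := ∅) PT.fst') κ PT.snd'

theorem PT_famDec : PT ∅ (famDec k τ lam) :=
  PT_decodeRaw (I := fun q : Pad × List ℚ => q.1.1) (L := fun q => lensP k q.1)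
    (xs := fun q => q.2) PT.fst'.fst (fun i => (PT_lensP k i).comp PT.fst')
    (fun _ _ => (Nat.succ_le_succ (Nat.zero_le 4)).trans (five_le_lens _ _ _ _))
    (((PTInst_fam' k).V.mono fun q => by rw [fam_e]).comp (A := ∅) PT.fst') PT.snd'

end fam

/-! ### Soundness -/

theorem sound_fam {k : ℕ} {τ lam ε₀ δ : ℚ} {ρ₀ β : ℝ} (hτ : 0 ≤ τ ∧ τ ≤ 1)
    (hlam : 0 ≤ lam ∧ lam ≤ 1) (hε : ε₀ < 1 / 100) (hρ : 2 ^ rk k * ρ₀ < 1 / 2)
    (hβ : (δ : ℝ) * KK (net spec (rk k) τ) lam ≤ β)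
    (hS : ∀ (I : Inst spec (rk k)) (X : Exp I), Facts I → ∀ x : Reg spec → I.Site → ℝ,
      Obeys I X τ ε₀ lam β x →
      (∃ w, I.Valid w ∧ Near I ε₀ ρ₀ x false w ∧ ¬ I.Valid (I.step false w)) ∨
      (∃ w, I.Valid w ∧ w ≠ I.w0 ∧ Near I ε₀ ρ₀ x true w ∧ ¬ I.Valid (I.step true w)))
    {p : Polynomial ℕ} {q : Pad} (hG : Good (prm q.1) (lensP k q)) (x : List ℚ)
    (hx : Acceptable ε₀ δ p (famCirc k τ lam q) x) :
    q.1.IsSolution (famDec k τ lam (q, x)).w := by
  have hε2 : (ε₀ : ℝ) < 1 / 2 := by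
    have h1 : ε₀ < 1 / 2 := hε.trans (by norm_num)
    have h2 : ((ε₀ : ℚ) : ℝ) < ((1 / 2 : ℚ) : ℝ) := by exact_mod_cast h1
    simpa using h2
  have hob := obeys_circ (fam k q) ((fam k q).expd (even_e k q)) τ lam hτ hlam (famN k q)
    (fam k q).rdN (H175.cbT (prm q.1) (lensP k q)) (fam k q).nbN
    (fun ω => (fam k q).num ω) (fun a b h => (fam k q).num.injective (Fin.ext h))
    (fun ω => ((fam k q).num ω).2) (fam k q).card_site (fun ρ ω => (fam k q).rdN_num ρ ω)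
    (fun j ω => (fam k q).nbN_num (even_e k q) j ω)
    (by
      rw [fam_eq hG]
      exact H175.cbT_num hG)
    (famN_pos k q) (fun ρ _ hw => (fam k q).rdN_lt ρ hw)
    (fun j _ hw => (fam k q).nbN_lt (even_e k q) j hw) hε2 hβ x hx.1 hx.2.2
  have hF : Facts (fam k q) := by
    rw [fam_eq hG]
    exact (machStmt _ _ _ hG).1
  have h1 := hS (fam k q) _ hF _ hob
  rw [fam_eq hG] at h1
  exact decode_isSolution hG machStmt (progOk q.1) hε2 hρ _ _ x h1

/-- **The subexponential PCP for PPAD.** -/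
theorem subexpPCP : SubexpPCP := by
  intro k
  obtain ⟨τ, hτ0, hτ1, lam, hlam0, hlam1, ε₀, hε0, hε1, β, hβ, hS⟩ :=
    soundStmt spec (rk k) (rk_pos k) (1 / (4 * 2 ^ rk k)) (by positivity)
  obtain ⟨C, hC⟩ := exists_acceptable (ε₀ : ℝ) (by exact_mod_cast hε0)
  have hρ : (2 : ℝ) ^ rk k * (1 / (4 * 2 ^ rk k)) < 1 / 2 := by
    have h2 : (0 : ℝ) < 2 ^ rk k := by positivity
    have h3 : (2 : ℝ) ^ rk k * (1 / (4 * 2 ^ rk k)) = 1 / 4 := by field_simp
    rw [h3]
    norm_num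
  -- a rational number `δ` with `δ * K ≤ β`
  obtain ⟨δ, hδ0, hδ1, hδβ⟩ : ∃ δ : ℚ, 0 < δ ∧ δ < 1 ∧
      (δ : ℝ) * KK (net spec (rk k) τ) lam ≤ β := by
    have h0 : (0 : ℝ) < min 1 (β / (KK (net spec (rk k) τ) lam + 1)) := by positivity
    obtain ⟨δ, h1, h2⟩ := exists_rat_btwn h0
    have h3 : (δ : ℝ) < 1 := h2.trans_le (min_le_left _ _)
    refine ⟨δ, by exact_mod_cast h1, by exact_mod_cast h3, ?_⟩
    have h4 := (lt_div_iff₀ (by positivity)).1 (h2.trans_le (min_le_right _ _))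
    nlinarith
  have hdeg : 2 ≤ (Polynomial.C C * Polynomial.X + Polynomial.X ^ 2 : Polynomial ℕ).natDegree := by
    have h1 : (Polynomial.C C * Polynomial.X : Polynomial ℕ).natDegree <
        (Polynomial.X ^ 2 : Polynomial ℕ).natDegree := by
      rw [Polynomial.natDegree_X_pow]
      exact (Polynomial.natDegree_C_mul_le _ _).trans_lt (by rw [Polynomial.natDegree_X]; norm_num)
    rw [Polynomial.natDegree_add_eq_right_of_natDegree_lt h1, Polynomial.natDegree_X_pow]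
  refine paddedPCP_of hε0 (hε1.trans (by norm_num)) hδ0 hδ1 hdeg (PT_famNodes k τ lam)
    (PBd_famNodes k τ lam) (PT_famGates k τ lam) (PT_famDec k τ lam) (2 ^ 7)
    (fun q _ _ => wf_fam k τ lam q) (fun q _ _ h => ?_) (fun q h1 h2 h x hx => ?_)
  · obtain ⟨x, hx, -⟩ := hC h.toCircuit δ (Polynomial.C C * Polynomial.X + Polynomial.X ^ 2)
      (by exact_mod_cast hδ0.le) (fun M => by simp)
    exact ⟨x, hx⟩
  · rw [toCircuit_eq h (famCirc k τ lam q) rfl rfl] at hx
    exact sound_fam ⟨hτ0.le, hτ1.le⟩ ⟨hlam0.le, hlam1.le⟩ hε1 hρ hδβ hS (good_of_ok h1 h2) x hx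

end Mach

end Vale.Agent.P330.S
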