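import Vale.Agent.P330.S.MachPos
import Vale.Agent.P330.S.H174.MachConf

/-!
# Semantic configurations are valid
-/

namespace Vale.Agent.P330.S.Mach

open Finset

variable {r : ℕ} {P : Prm} {L : Fin r → ℕ}

/-! ### The contents of an array -/

theorem tab_lt (P : Prm) (k : Bool) (x : ℕ → Bool) {p : ℕ} (hp : p < P.W) :
    P.tab k x p = row0 (decide (p = 0)) (decide (p < P.n) && x p)
      (if p = 0 then conD else P.tab k x (p - 1)) := by
  rw [Prm.tab, dif_neg (by omega)]

theorem tab_ge (P : Prm) (k : Bool) (x : ℕ → Bool) {p : ℕ} (hW : 0 < P.W) (hp : P.W ≤ p) :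
    P.tab k x p = phi (P.prog k p) (P.tab k x (p - 1)) (P.tab k x (p - P.W)) := by
  rw [Prm.tab, dif_pos ⟨hW, hp⟩]

theorem tab_v (P : Prm) (k : Bool) (x : ℕ → Bool) {p : ℕ} (hp : p < P.W) :
    (P.tab k x p).v = (decide (p < P.n) && x p) := by
  rw [tab_lt P k x hp]
  rfl

theorem tab_g (P : Prm) (k : Bool) (x : ℕ → Bool) {p : ℕ} (hp : p < P.W) :
    (P.tab k x p).g = true ↔ ∃ j ≤ p, j < P.n ∧ x j = true := by
  induction p with
  | zero =>
    rw [tab_lt P k x hp]
    simp only [row0, decide_true, Bool.not_true, Bool.false_and, Bool.or_false,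
      Bool.and_eq_true, decide_eq_true_eq]
    constructor
    · rintro ⟨h1, h2⟩
      exact ⟨0, le_rfl, h1, h2⟩
    · rintro ⟨j, h0, h1, h2⟩
      obtain rfl : j = 0 := by omega
      exact ⟨h1, h2⟩
  | succ p ih =>
    have ih' := ih (by omega)
    rw [tab_lt P k x hp]
    have hne : ¬ p + 1 = 0 := by omega
    simp only [row0, if_neg hne, Nat.add_sub_cancel,
      Bool.or_eq_true, Bool.and_eq_true, decide_eq_true_eq, ih']
    constructor
    · rintro (⟨h1, h2⟩ | ⟨_, j, h0, h1, h2⟩)
      · exact ⟨p + 1, le_rfl, h1, h2⟩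
      · exact ⟨j, by omega, h1, h2⟩
    · rintro ⟨j, h0, h1, h2⟩
      rcases Nat.lt_or_ge j (p + 1) with h3 | h3
      · exact Or.inr ⟨by simp, j, by omega, h1, h2⟩
      · obtain rfl : j = p + 1 := by omega
        exact Or.inl ⟨h1, h2⟩

theorem tab_congr (P : Prm) (k : Bool) {x y : ℕ → Bool} (hxy : ∀ j < P.n, x j = y j) (p : ℕ) :
    P.tab k x p = P.tab k y p := by
  induction p using Nat.strong_induction_on with
  | _ p ih =>
    by_cases h1 : 0 < P.W ∧ P.W ≤ p
    · rw [tab_ge P k x h1.1 h1.2, tab_ge P k y h1.1 h1.2, ih (p - 1) (by omega),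
        ih (p - P.W) (by omega)]
    · have e : (decide (p < P.n) && x p) = (decide (p < P.n) && y p) := by
        by_cases h3 : p < P.n
        · rw [hxy p h3]
        · simp [h3]
      have hx : ∀ z : ℕ → Bool, P.tab k z p = row0 (decide (p = 0)) (decide (p < P.n) && z p)
          (if p = 0 then conD else P.tab k z (p - 1)) := by
        intro z
        rw [Prm.tab, dif_neg h1]
      rw [hx x, hx y, e]
      by_cases h2 : p = 0
      · rw [if_pos h2, if_pos h2]
      · rw [if_neg h2, if_neg h2, ih (p - 1) (by omega)]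

theorem out_congr (P : Prm) (k : Bool) {x y : ℕ → Bool} (hxy : ∀ j < P.n, x j = y j) :
    P.out k x = P.out k y := by
  funext j
  unfold Prm.out
  rw [tab_congr P k hxy]

theorem tab_v_out (P : Prm) (k : Bool) (x : ℕ → Bool) {j : ℕ} (hj : j < P.n) :
    (P.tab k x (j + (P.R - 1) * P.W)).v = P.out k x j := by
  unfold Prm.out
  rw [decide_eq_true hj, Bool.true_and, add_comm]

/-! ### Cells -/

theorem cell_arr (P : Prm) (c : Conf) (p : ℕ) (k : Bool) : (c.cell P p).arr k = c.arr P k p := by
  cases k <;> rfl

theorem arr_isSome (P : Prm) (c : Conf) (k : Bool) (p : ℕ) :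
    (c.arr P k p).isSome = decide (p < c.len P k) := by
  unfold Conf.arr
  split_ifs with h1 <;> simp [h1]

theorem arr_eq_none (P : Prm) (c : Conf) (k : Bool) (p : ℕ) :
    c.arr P k p = none ↔ c.len P k ≤ p := by
  unfold Conf.arr
  split_ifs with h1 <;> simp <;> omega

theorem arr_eq_some (P : Prm) (c : Conf) (k : Bool) (p : ℕ) (t : Con) :
    c.arr P k p = some t ↔ p < c.len P k ∧ P.tab k (c.inp P k) p = t := by
  unfold Conf.arr
  split_ifs with h1 <;> simp [h1]

theorem arr_getD (P : Prm) (c : Conf) (k : Bool) (p : ℕ) (h : p < c.len P k) :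
    (c.arr P k p).getD conD = P.tab k (c.inp P k) p := by
  unfold Conf.arr
  rw [if_pos h, Option.getD_some]

theorem len_act (P : Prm) (c : Conf) : c.len P c.ph.act = c.h := by
  unfold Conf.len
  rw [if_pos rfl]

theorem len_other (P : Prm) (c : Conf) :
    c.len P (!c.ph.act) = if c.ph.full then P.R * P.W else 0 := by
  unfold Conf.len
  rw [if_neg (by cases c.ph.act <;> decide)]

theorem len_le (P : Prm) (c : Conf) (hc : c.Rng P) (k : Bool) : c.len P k ≤ P.R * P.W := by
  unfold Conf.len
  have := hc.1
  split_ifs <;> omega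

/-- The window of a semantic configuration at the position `p ≤ R W`. -/
theorem allowed_lt (h : Good P L) {c : Conf} (hc : c.Ok P) {p : ℕ} (hp : p ≤ P.R * P.W)
    {q u f : ℕ} (hq : 1 ≤ p → q = p - 1) (hq0 : p = 0 → q = P.R * P.W + 1)
    (hu : P.W ≤ p → u = p - P.W) (hf : p < P.W → f = p + (P.R - 1) * P.W) :
    Allowed (c.cell P p) (c.cell P q) (c.cell P u) (c.cell P f) := by
  obtain ⟨hR, hN, hM⟩ := hc
  have hB := h.hB
  have hWR := h.W_le
  have hW2 := h.W2
  have hWn := h.nW
  have hRW := h.RW_eq
  have hlen := len_le P c hR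
  have hst : (c.cell P p).st = P.st p := rfl
  have hrow : (c.cell P p).st.zone = .row0 ↔ p < P.W := P.st_zone_row0
  have hmid : (c.cell P p).st.zone = .mid ↔ P.W ≤ p ∧ p < P.R * P.W := P.st_zone_mid
  have hdead : (c.cell P p).st.zone = .dead ↔ P.R * P.W < p := P.st_zone_dead (by omega)
  have hfirst : (c.cell P p).st.first = decide (p = 0) := P.st_first (by omega)
  have hio : (c.cell P p).st.io = decide (p < P.n) := P.st_io h.nW
  have hre : (c.cell P p).st.rowend = decide (p + 1 = P.W) := P.st_rowend
  have hql : ∀ k, (c.arr P k q).isSome = decide (1 ≤ p ∧ p - 1 < c.len P k) := by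
    intro k
    rw [arr_isSome]
    rcases Nat.eq_zero_or_pos p with h0 | h0
    · rw [hq0 h0, h0]
      have := hlen k
      simp only [decide_eq_decide]
      omega
    · rw [hq h0]
      simp only [decide_eq_decide]
      omega
  refine ⟨rfl, ?_, ?_, ?_, ?_, ?_, ?_, ?_, ?_⟩
  · intro k hk
    rw [cell_arr, arr_isSome, decide_eq_true_eq] at hk
    have := hlen k
    rw [hrow, hmid]
    omega
  · intro hz
    rw [hrow, hmid] at hz
    rw [cell_arr]
    change (c.arr P (!c.ph.act) p).isSome = c.ph.full
    rw [arr_isSome, len_other]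
    cases hfl : c.ph.full
    · simp
    · simp only [if_true, decide_eq_true_eq]
      omega
  · intro hf1 hx
    rw [hfirst, decide_eq_false_iff_not] at hf1
    rw [cell_arr] at hx ⊢
    rw [arr_isSome, decide_eq_true_eq] at hx
    rw [hql, decide_eq_true_eq]
    change p < c.len P c.ph.act at hx
    change 1 ≤ p ∧ p - 1 < c.len P c.ph.act
    omega
  · intro hz hfl
    rw [hrow] at hz
    rw [cell_arr, arr_isSome, decide_eq_true_eq]
    change p < c.len P c.ph.act
    rw [len_act]
    have := hR.2 hfl
    omega
  · rw [hfirst]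
    change decide (p = c.h) = true ↔ _ ∧ (c.cell P p).arr c.ph.act = none ∧
      (_ ∨ ((c.cell P q).arr c.ph.act).isSome = true)
    rw [cell_arr, cell_arr, arr_eq_none, hql, len_act, ne_eq, hdead]
    simp only [decide_eq_true_eq]
    have := hR.1
    omega
  · intro k t ht hz
    rw [hrow] at hz
    rw [cell_arr, arr_eq_some] at ht
    obtain ⟨h1, rfl⟩ := ht
    refine ⟨?_, ?_, ?_⟩
    · rw [tab_v P k _ hz, hfirst, cell_arr]
      conv_lhs => rw [tab_lt P k _ hz]
      congr 1
      split_ifs with h0
      · rw [hq0 h0]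
        have h2 : c.arr P k (P.R * P.W + 1) = none := by
          rw [arr_eq_none]
          have := hlen k
          omega
        rw [h2]
        rfl
      · rw [hq (by omega), arr_getD]
        omega
    · intro hi
      rw [hio, decide_eq_false_iff_not] at hi
      rw [tab_v P k _ hz]
      simp [hi]
    · rintro rfl hre'
      rw [hre, decide_eq_true_eq] at hre'
      rw [tab_g P true _ hz]
      have hnz : ∃ j < P.n, c.inp P true j = true := by
        unfold Conf.Nz at hN
        unfold Conf.inp
        unfold Conf.len at h1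
        rcases hph : c.ph with _ | _ | _ | _ <;> rw [hph] at hN h1
        · simp [Ph.act, Ph.full] at h1
        · simp only [Ph.act, if_true] at h1
          simp only [Ph.own, Bool.true_eq_false]
          exact hN (by omega)
        · simpa [Ph.own] using hN
        · simpa [Ph.own] using hN
      obtain ⟨j, hj, hj'⟩ := hnz
      exact ⟨j, by omega, hj, hj'⟩
  · intro k t ht hz
    rw [hmid] at hz
    rw [cell_arr, arr_eq_some] at ht
    obtain ⟨h1, rfl⟩ := ht
    rw [cell_arr, cell_arr, hq (by omega), hu (by omega), arr_getD _ _ _ _ (by omega),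
      arr_getD _ _ _ _ (by omega), hst, P.st_prog k hz.1 hz.2]
    exact tab_ge P k _ (by omega) hz.1
  · intro k t t' hz hi ht ht'
    rw [hrow] at hz
    rw [hio, decide_eq_true_eq] at hi
    rw [cell_arr, arr_eq_some] at ht ht'
    obtain ⟨h1, rfl⟩ := ht
    obtain ⟨h1', rfl⟩ := ht'
    rw [hf hz] at h1' ⊢
    rw [tab_v P k _ hz, tab_v_out P _ _ hi, decide_eq_true hi, Bool.true_and]
    unfold Conf.Mt at hM
    unfold Conf.inp
    unfold Conf.len at h1 h1'
    rcases hph : c.ph with _ | _ | _ | _ <;> rw [hph] at hM h1 h1'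
    · cases k
      · simp [Ph.act, Ph.full] at h1'
      · simp [Ph.act, Ph.full] at h1
    · cases k
      · simp only [Ph.act, Bool.not_false, if_true] at h1'
        simp only [Ph.own, Bool.not_false, Bool.true_eq_false, if_false]
        exact (hM rfl p hi (by omega)).symm
      · simp [Ph.own]
    · cases k
      · simp [Ph.own]
      · simp only [Ph.act, Bool.not_true, if_true] at h1'
        simp only [Ph.own, Bool.not_true, Bool.false_eq_true, if_false]
        exact (hM rfl p hi (by omega)).symm
    · cases k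
      · simp [Ph.act, Ph.full] at h1
      · simp [Ph.act, Ph.full] at h1'

/-- The window of a semantic configuration at a dead position. -/
theorem allowed_dead (h : Good P L) {c : Conf} (hc : c.Rng P) {q u f : ℕ} :
    Allowed (c.cell P (P.R * P.W + 1)) (c.cell P q) (c.cell P u) (c.cell P f) := by
  have hB := h.hB
  have hWR := h.W_le
  have hlen := len_le P c hc
  have hnone : ∀ k, (c.cell P (P.R * P.W + 1)).arr k = none := by
    intro k
    rw [cell_arr, arr_eq_none]
    have := hlen k
    omega
  have hz : (c.cell P (P.R * P.W + 1)).st.zone = .dead := (P.st_zone_dead (by omega)).2 (by omega)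
  refine ⟨rfl, ?_, ?_, ?_, ?_, ?_, ?_, ?_, ?_⟩
  · intro k hk
    rw [hnone] at hk
    simp at hk
  · intro h1
    rw [hz] at h1
    simp at h1
  · intro _ h1
    rw [hnone] at h1
    simp at h1
  · intro h1
    rw [hz] at h1
    simp at h1
  · rw [hz]
    have : (c.cell P (P.R * P.W + 1)).hd = false := by
      show decide (P.R * P.W + 1 = c.h) = false
      have := hc.1
      rw [decide_eq_false_iff_not]
      omega
    rw [this]
    simp
  · intro k t h1
    rw [hnone] at h1
    simp at h1
  · intro k t h1
    rw [hnone] at h1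
    simp at h1
  · intro k t t' h1
    rw [hz] at h1
    simp at h1

/-- **MACH-2.** Correct semantic configurations are valid. -/
theorem ok_valid (h : Good P L) {c : Conf} (hc : c.Ok P) :
    (mkInst P L h).Valid (c.render P L) := by
  rw [valid_iff]
  refine ⟨fun j => rfl, fun j => ?_⟩
  unfold Conf.render
  rcases h.cases j with ⟨p, hp, rfl, hj⟩ | ⟨a, _, _, _, hj⟩
  · rw [hj]
    refine allowed_lt h hc hp ?_ ?_ ?_ ?_
    · exact fun h1 => h.posn_m1 hp h1
    · rintro rfl
      exact h.posn_m1_zero
    · exact fun h1 => h.posn_mW hp h1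
    · exact fun h1 => h.posn_far h1
  · rw [hj]
    exact allowed_dead h hc.1

/-- The head of a semantic configuration. -/
theorem isHead_render (h : Good P L) {c : Conf} (hc : c.Rng P) :
    (mkInst P L h).IsHead (c.render P L) (pt L c.h) := by
  constructor
  · show decide (posn L (P.R * P.W) (pt L c.h) = c.h) = true
    rw [h.posn_pt hc.1, decide_eq_true_eq]
  · intro j hj
    have hj' : decide (posn L (P.R * P.W) j = c.h) = true := hj
    rw [decide_eq_true_eq] at hj'
    have h1 := hc.1
    have h2 := Good.pt_posn L (P.R * P.W) j (by omega)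
    rw [hj'] at h2
    exact h2.symm

theorem render_pt (h : Good P L) (c : Conf) {p : ℕ} (hp : p ≤ P.R * P.W) :
    c.render P L (pt L p) = c.cell P p := by
  unfold Conf.render
  rw [h.posn_pt hp]

/-- Conversely, if a semantic configuration is valid then it is correct. -/
theorem valid_ok (h : Good P L) {c : Conf} (hR : c.Rng P)
    (hv : (mkInst P L h).Valid (c.render P L)) : c.Ok P := by
  rw [valid_iff] at hv
  obtain ⟨_, hv⟩ := hv
  have hB := h.hB
  have hWR := h.W_le
  have hW2 := h.W2
  have hWn := h.nW
  have hRW := h.RW_eq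
  have hnz : P.W ≤ c.len P true → ∃ j < P.n, c.inp P true j = true := by
    intro hl
    have h1 := (hv (pt L (P.W - 1))).ok0 true (P.tab true (c.inp P true) (P.W - 1)) (by
      rw [render_pt h c (by omega), cell_arr, arr_eq_some]
      exact ⟨by omega, rfl⟩) (by
      rw [render_pt h c (by omega)]
      exact P.st_zone_row0.2 (by omega))
    have h2 := h1.2.2 rfl (by
      rw [render_pt h c (by omega)]
      show (P.st (P.W - 1)).rowend = true
      rw [P.st_rowend, decide_eq_true_eq]
      omega)
    rw [tab_g P true _ (by omega)] at h2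
    obtain ⟨j, _, h3, h4⟩ := h2
    exact ⟨j, h3, h4⟩
  have hmt : ∀ k, ∀ j < P.n, j < c.len P k → (P.R - 1) * P.W + j < c.len P (!k) →
      c.inp P k j = P.out (!k) (c.inp P (!k)) j := by
    intro k j hj hj1 hj2
    have h1 := (hv (pt L j)).mutu k (P.tab k (c.inp P k) j)
      (P.tab (!k) (c.inp P (!k)) (j + (P.R - 1) * P.W)) (by
        rw [render_pt h c (by omega)]
        exact P.st_zone_row0.2 (by omega)) (by
        rw [render_pt h c (by omega)]
        show (P.st j).io = true
        rw [P.st_io h.nW, decide_eq_true_eq]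
        exact hj) (by
        rw [render_pt h c (by omega), cell_arr, arr_eq_some]
        exact ⟨hj1, rfl⟩) (by
        rw [Good.pt_far, render_pt h c (by omega), cell_arr, arr_eq_some]
        exact ⟨by omega, rfl⟩)
    rw [tab_v P k _ (by omega), tab_v_out P _ _ hj, decide_eq_true hj, Bool.true_and] at h1
    exact h1
  refine ⟨hR, ?_, ?_⟩
  · unfold Conf.Nz
    unfold Conf.inp Conf.len at hnz
    rcases hph : c.ph with _ | _ | _ | _ <;> rw [hph] at hnz
    · trivial
    · simpa [Ph.act, Ph.own] using hnz
    · have := hnz (by simp [Ph.act, Ph.full]; omega)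
      simpa [Ph.own] using this
    · have h1 := hR.2 (by rw [hph]; rfl)
      have := hnz (by simpa [Ph.act] using h1)
      simpa [Ph.own] using this
  · intro hf j hj hjh
    have hlen : c.len P c.ph.act = c.h := len_act P c
    have hlen' : c.len P (!c.ph.act) = P.R * P.W := by rw [len_other, if_pos hf]
    have e : c.ph.own = !c.ph.act := by
      revert hf
      cases c.ph <;> simp [Ph.own, Ph.act, Ph.full]
    have h1 := hmt (!c.ph.act) j hj (by rw [hlen']; omega) (by rw [Bool.not_not, hlen]; exact hjh)
    rw [Bool.not_not] at h1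
    rw [e, Bool.not_not]
    have e1 : c.inp P (!c.ph.act) = c.x := by
      unfold Conf.inp
      rw [if_pos e.symm]
    have e2 : c.inp P c.ph.act = P.out (!c.ph.act) c.x := by
      unfold Conf.inp
      rw [e, if_neg (by cases c.ph.act <;> decide)]
    rw [e1, e2] at h1
    exact h1.symm

/-! ### The start configuration -/

theorem tab_zero (P : Prm) (k : Bool) {p : ℕ} (hp : p < P.W) :
    P.tab k (fun _ => false) p = conD := by
  induction p with
  | zero =>
    rw [tab_lt P k _ hp]
    simp [row0, conD]
  | succ p ih =>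
    rw [tab_lt P k _ hp, if_neg (by omega), Nat.add_sub_cancel, ih (by omega)]
    simp [row0, conD]

theorem w0_render (h : Good P L) :
    (mkInst P L h).w0 = (⟨.A1, P.W, fun _ => false⟩ : Conf).render P L := by
  funext j
  show P.w0 (posn L (P.R * P.W) j) = Conf.cell P _ (posn L (P.R * P.W) j)
  generalize posn L (P.R * P.W) j = p
  unfold Prm.w0 Conf.cell
  congr 1
  · unfold Conf.arr Conf.len
    simp only [Ph.act, if_true]
    split_ifs with h1
    · unfold Conf.inp
      simp only [Ph.own, if_true]
      rw [tab_zero P false h1]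
    · rfl

theorem ok_w0 (h : Good P L) : (⟨.A1, P.W, fun _ => false⟩ : Conf).Ok P := by
  have hWR := h.W_le
  refine ⟨⟨by show P.W ≤ _; omega, fun _ => le_rfl⟩, trivial, ?_⟩
  intro h1
  exact absurd h1 (by simp [Ph.full])

/-- `Facts.valid0`. -/
theorem valid_w0 (h : Good P L) : (mkInst P L h).Valid (mkInst P L h).w0 := by
  rw [w0_render h]
  exact ok_valid h (ok_w0 h)

/-- The predecessor of the start configuration is not valid. -/
theorem not_valid_pred (h : Good P L) :
    ¬ (mkInst P L h).Valid ((⟨.B4, P.W, fun _ => false⟩ : Conf).render P L) := by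
  intro hv
  have hWR := h.W_le
  have hR : (⟨.B4, P.W, fun _ => false⟩ : Conf).Rng P :=
    ⟨by show P.W ≤ _; omega, fun _ => le_rfl⟩
  obtain ⟨j, _, hj⟩ := (valid_ok h hR hv).2.1
  exact absurd hj (by simp)

end Vale.Agent.P330.S.Mach
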