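import Vale.Agent.P330.S.Num
import Vale.Agent.P330.S.NumPT

/-!
# Reads and neighbours as functions of the numbers of the sites, in polynomial time
-/

namespace Vale.Agent.P330.S

open Finset Vale.Agent.Lib.PolyTime

variable {S : Spec} {r : ℕ}

/-! ### Bits of table arguments -/

/-- The bit of the number `n` with the index `y` (numbers instead of residues) of the block `i`. -/
def Inst.bitN (I : Inst S r) (n : ℕ) (i : Fin r) (y : S.Slot → ℕ) : Bool :=
  n.testBit (I.base i + ∑ t : S.Slot, y t % I.L i * I.L i ^ (t : ℕ))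

theorem Inst.bitN_numV (I : Inst S r) (M : I.V) (i : Fin r) (y : S.Slot → ℕ) :
    I.bitN (I.numV M) i y = decide (M i (fun t => (y t : ZMod (I.L i))) = 1) := by
  rw [← I.testBit_numV]
  unfold Inst.bitN Inst.idx Inst.lix
  simp only [ZMod.val_natCast]

/-- The number with given bits. -/
def Inst.buildV (I : Inst S r) (f : Fin r → (S.Slot → ℕ) → Bool) : ℕ :=
  ofBits I.e fun p => decide (∃ i : Fin r, I.base i ≤ p ∧ p < I.base i + I.L i ^ (S.d + 2) ∧
    f i (fun t => (p - I.base i) / I.L i ^ (t : ℕ) % I.L i) = true)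

theorem Inst.lix_dec (I : Inst S r) (i : Fin r) (x : I.X i) (t : S.Slot) :
    I.lix i x / I.L i ^ (t : ℕ) % I.L i = (x t).val := by
  have h1 : (I.xEquiv i x : ℕ) = I.lix i x := I.xEquiv_val i x
  have h2 : finFunctionFinEquiv.symm (I.xEquiv i x) =
      ((Equiv.refl S.Slot).arrowCongr (zEquiv (I.L i))) x := by
    unfold Inst.xEquiv
    rw [Equiv.trans_apply, Equiv.symm_apply_apply]
  have h3 := congrArg (fun f => ((f t : Fin (I.L i)) : ℕ)) h2
  simp only [finFunctionFinEquiv_symm_apply_val] at h3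
  rw [h1] at h3
  exact h3

theorem Inst.buildV_lt (I : Inst S r) (f : Fin r → (S.Slot → ℕ) → Bool) : I.buildV f < 2 ^ I.e :=
  ofBits_lt _ _

theorem Inst.buildV_eq (I : Inst S r) (M : I.V) (f : Fin r → (S.Slot → ℕ) → Bool)
    (h : ∀ i (x : I.X i), f i (fun t => (x t).val) = decide (M i x = 1)) :
    I.buildV f = I.numV M := by
  refine (I.numV_eq M _ (I.buildV_lt f) fun i x => ?_).symm
  unfold Inst.buildV
  rw [testBit_ofBits _ _ _ (I.idx_lt i x)]
  have hl : ∀ j (x : I.X j), I.lix j x < I.L j ^ (S.d + 2) := fun j x => by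
    rw [← I.xEquiv_val]; exact (I.xEquiv j x).2
  have hdec : ∀ j (x : I.X j), f j (fun t => (I.idx j x - I.base j) / I.L j ^ (t : ℕ) % I.L j) =
      decide (M j x = 1) := fun j x => by
    rw [← h]
    congr 1
    funext t
    unfold Inst.idx
    rw [Nat.add_sub_cancel_left, I.lix_dec]
  rw [decide_eq_decide]
  constructor
  · rintro ⟨j, h1, h2, h3⟩
    obtain ⟨x', hx'⟩ := (I.xEquiv j).surjective ⟨I.idx i x - I.base j, by omega⟩
    have h4 : I.idx j x' = I.idx i x := by
      have := congrArg Fin.val hx'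
      rw [I.xEquiv_val] at this
      unfold Inst.idx at this ⊢
      simp only at this
      unfold Inst.idx at h1
      omega
    have h5 := I.idx_inj h4
    rw [← h4, hdec] at h3
    cases h5
    simpa using h3
  · intro h1
    refine ⟨i, Nat.le_add_right _ _, ?_, ?_⟩
    · have := hl i x
      unfold Inst.idx
      omega
    · rw [hdec]
      simpa using h1

/-! ### Maps of table arguments -/

/-- the offset as a number -/
def Inst.offN (I : Inst S r) (o : S.Off) (i : Fin r) : ℕ := (I.off o i).val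

theorem Inst.offN_cast (I : Inst S r) (o : S.Off) (i : Fin r) :
    ((I.offN o i : ℕ) : ZMod (I.L i)) = I.off o i := ZMod.natCast_zmod_val _

/-- the `t`-th hidden vector -/
def Inst.vecN (I : Inst S r) (t : S.Slot) (i : Fin r) (n a : ℕ) : Bool :=
  I.bitN n i fun u => if u = 0 then a else if u = 1 then (t : ℕ) else 0

theorem Inst.vecN_numV (I : Inst S r) (t : S.Slot) (i : Fin r) (M : I.V) (a : ℕ) :
    I.vecN t i (I.numV M) a = decide (I.vec t i (M i) (a : ZMod (I.L i)) = 1) := by
  unfold Inst.vecN Inst.vec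
  rw [I.bitN_numV]
  congr 2
  congr 1
  funext u
  by_cases h0 : u = 0
  · simp [h0]
  · by_cases h1 : u = 1
    · simp [h1]
    · simp [h0, h1]

/-- `x t - off (o t) = x 0 - off (o 0)` for all `t` -/
def Inst.diagN (I : Inst S r) (o : S.Slot → S.Off) (i : Fin r) (y : S.Slot → ℕ) : Bool :=
  decide (∀ t : S.Slot, (y t + I.offN (o 0) i) % I.L i = (y 0 + I.offN (o t) i) % I.L i)

theorem Inst.diagN_iff (I : Inst S r) (o : S.Slot → S.Off) (i : Fin r) (y : S.Slot → ℕ) :
    I.diagN o i y = true ↔ ∀ t : S.Slot, (y t : ZMod (I.L i)) - I.off (o t) i =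
      (y 0 : ZMod (I.L i)) - I.off (o 0) i := by
  unfold Inst.diagN
  rw [decide_eq_true_eq]
  refine forall_congr' fun t => ?_
  have h1 : (y t + I.offN (o 0) i) % I.L i = (y 0 + I.offN (o t) i) % I.L i ↔
      ((y t + I.offN (o 0) i : ℕ) : ZMod (I.L i)) = ((y 0 + I.offN (o t) i : ℕ) : ZMod (I.L i)) :=
    (ZMod.natCast_eq_natCast_iff _ _ _).symm
  rw [h1]
  push_cast
  rw [I.offN_cast, I.offN_cast]
  constructor
  · intro h
    linear_combination h
  · intro h
    linear_combination h

/-- The maps of table arguments on bits: the new bit with the index `y` of the block `i`. -/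
def Inst.phiBN (I : Inst S r) (i : Fin r) (n : ℕ) (y : S.Slot → ℕ) : Phi S → Bool
  | .id => I.bitN n i y
  | .shift o => I.bitN n i fun t => y t + I.offN (o t) i
  | .ones o => I.diagN o i y
  | .prod => decide (∀ t : S.Slot, I.vecN t i n (y t) = true)
  | .lin t => decide (∀ u : S.Slot, u ≠ 0 → y u % I.L i = 0) && I.vecN t i n (y 0)
  | .win => I.diagN S.win i y && I.vecN 0 i n (y 0 + (I.L i - I.offN (S.win 0) i))

theorem zmod2_eq (b : ZMod 2) : b = if b = 1 then 1 else 0 := by
  revert b; decide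

theorem Inst.phiBN_numV (I : Inst S r) (i : Fin r) (M : I.V) (φ : Phi S) (x : I.X i) :
    I.phiBN i (I.numV M) (fun t => (x t).val) φ = decide (I.phi φ M i x = 1) := by
  rw [Bool.eq_iff_iff, decide_eq_true_iff]
  cases φ with
  | id =>
    change I.bitN (I.numV M) i (fun t => (x t).val) = true ↔ M i x = 1
    rw [I.bitN_numV, decide_eq_true_iff]
    simp only [ZMod.natCast_zmod_val]
  | shift o =>
    change I.bitN (I.numV M) i (fun t => (x t).val + I.offN (o t) i) = true ↔
      M i (fun t => x t + I.off (o t) i) = 1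
    rw [I.bitN_numV, decide_eq_true_iff]
    simp only [Nat.cast_add, ZMod.natCast_zmod_val, I.offN_cast]
  | ones o =>
    change I.diagN o i (fun t => (x t).val) = true ↔
      (if ∀ t, x t - I.off (o t) i = x 0 - I.off (o 0) i then 1 else 0 : ZMod 2) = 1
    have h := I.diagN_iff o i (fun t => (x t).val)
    simp only [ZMod.natCast_zmod_val] at h
    rw [h]
    split_ifs with h1
    · simp only [h1, implies_true]
    · simp only [h1, false_iff]; decide
  | prod =>
    change decide (∀ t : S.Slot, I.vecN t i (I.numV M) (x t).val = true) = true ↔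
      ∏ t, I.vec t i (M i) (x t) = 1
    rw [decide_eq_true_iff]
    simp only [I.vecN_numV, ZMod.natCast_zmod_val, decide_eq_true_eq]
    constructor
    · intro h
      exact Finset.prod_eq_one fun t _ => h t
    · intro h t
      by_contra hcon
      have h0 : I.vec t i (M i) (x t) = 0 := by
        have := zmod2_eq (I.vec t i (M i) (x t))
        rwa [if_neg hcon] at this
      rw [Finset.prod_eq_zero (Finset.mem_univ t) h0] at h
      exact absurd h (by decide)
  | lin t =>
    change (decide (∀ u : S.Slot, u ≠ 0 → (x u).val % I.L i = 0) &&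
      I.vecN t i (I.numV M) (x 0).val) = true ↔
      (if ∀ u, u ≠ 0 → x u = 0 then I.vec t i (M i) (x 0) else 0) = 1
    have h : (∀ u : S.Slot, u ≠ 0 → (x u).val % I.L i = 0) ↔ ∀ u : S.Slot, u ≠ 0 → x u = 0 := by
      refine forall_congr' fun u => imp_congr_right fun _ => ?_
      rw [Nat.mod_eq_of_lt (ZMod.val_lt _), ZMod.val_eq_zero]
    rw [Bool.and_eq_true, decide_eq_true_iff, h, I.vecN_numV, decide_eq_true_iff,
      ZMod.natCast_zmod_val]
    split_ifs with h1
    · exact and_iff_right h1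
    · simp only [h1, false_and, false_iff]
      decide
  | win =>
    change (I.diagN S.win i (fun t => (x t).val) &&
      I.vecN 0 i (I.numV M) ((x 0).val + (I.L i - I.offN (S.win 0) i))) = true ↔
      (if ∀ t, x t - I.off (S.win t) i = x 0 - I.off (S.win 0) i then
        I.vec 0 i (M i) (x 0 - I.off (S.win 0) i) else 0) = 1
    have h := I.diagN_iff S.win i (fun t => (x t).val)
    simp only [ZMod.natCast_zmod_val] at h
    have h2 : (((x 0).val + (I.L i - I.offN (S.win 0) i) : ℕ) : ZMod (I.L i)) =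
        x 0 - I.off (S.win 0) i := by
      have hlt : I.offN (S.win 0) i ≤ I.L i := (ZMod.val_lt _).le
      rw [Nat.cast_add, Nat.cast_sub hlt, ZMod.natCast_zmod_val, I.offN_cast, ZMod.natCast_self]
      ring
    rw [Bool.and_eq_true, h, I.vecN_numV, h2, decide_eq_true_iff]
    split_ifs with h1
    · exact and_iff_right h1
    · simp only [h1, false_and, false_iff]
      decide

/-! ### Reads -/

/-- the number of the site read at the site number `n` -/
def Inst.rdN (I : Inst S r) (ρ : Rd S r) (n : ℕ) : ℕ :=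
  match ρ with
  | .self => n
  | .cube A φ =>
    I.buildV (fun i y => if i ∈ A then xor (I.phiBN i (n / 2 ^ I.e) y φ) (I.bitN (n % 2 ^ I.e) i y)
      else I.bitN (n % 2 ^ I.e) i y) * 2 ^ I.e + n / 2 ^ I.e
  | .b1 k =>
    I.buildV (fun i y => if i = k then I.bitN (n % 2 ^ I.e) i y else I.bitN (n / 2 ^ I.e) i y) *
      2 ^ I.e +
    I.buildV (fun i y => if i = k then I.bitN (n / 2 ^ I.e) i y else I.bitN (n % 2 ^ I.e) i y)
  | .b2 k =>
    I.buildV (fun i y => if i = k then
      xor (I.bitN (n / 2 ^ I.e) i y) (I.bitN (n % 2 ^ I.e) i y) else I.bitN (n / 2 ^ I.e) i y) *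
      2 ^ I.e + n % 2 ^ I.e

theorem decide_add_one (a b : ZMod 2) :
    decide (a + b = 1) = xor (decide (a = 1)) (decide (b = 1)) := by
  revert a b; decide

theorem Inst.rdN_num (I : Inst S r) (ρ : Rd S r) (ω : I.Site) :
    I.rdN ρ (I.num ω) = I.num (I.rd ρ ω) := by
  cases ρ with
  | self => rfl
  | cube A φ =>
    simp only [Inst.rdN, Inst.rd]
    rw [I.num_div, I.num_mod, I.num_val]
    congr 2
    refine I.buildV_eq _ _ fun i x => ?_
    simp only [MLT.cp]
    split_ifs with h
    · rw [I.phiBN_numV, I.bitN_numV]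
      simp only [ZMod.natCast_zmod_val, Pi.add_apply]
      rw [decide_add_one]
    · rw [I.bitN_numV]
      simp only [ZMod.natCast_zmod_val]
  | b1 k =>
    simp only [Inst.rdN, Inst.rd]
    rw [I.num_div, I.num_mod, I.num_val]
    congr 1
    · congr 1
      refine I.buildV_eq _ _ fun i x => ?_
      by_cases h : i = k
      · subst h
        rw [if_pos rfl, I.bitN_numV]
        simp
      · rw [if_neg h, I.bitN_numV]
        simp [Function.update_of_ne h]
    · refine I.buildV_eq _ _ fun i x => ?_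
      by_cases h : i = k
      · subst h
        rw [if_pos rfl, I.bitN_numV]
        simp
      · rw [if_neg h, I.bitN_numV]
        simp [Function.update_of_ne h]
  | b2 k =>
    simp only [Inst.rdN, Inst.rd]
    rw [I.num_div, I.num_mod, I.num_val]
    congr 2
    refine I.buildV_eq _ _ fun i x => ?_
    by_cases h : i = k
    · subst h
      rw [if_pos rfl, I.bitN_numV, I.bitN_numV]
      simp [decide_add_one]
    · rw [if_neg h, I.bitN_numV]
      simp [Function.update_of_ne h]

/-! ### Neighbours -/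

/-- the permutations of the expander on numbers; `m ^ 2` table arguments -/
def mgN (m : ℕ) (k : Fin 4) (n : ℕ) : ℕ :=
  match k with
  | 0 => (n / m + 2 * (n % m)) % m * m + n % m
  | 1 => (n / m + 2 * (n % m) + 1) % m * m + n % m
  | 2 => n / m * m + (n % m + 2 * (n / m)) % m
  | 3 => n / m * m + (n % m + 2 * (n / m) + 1) % m

theorem Inst.mgN_num (I : Inst S r) (h : Even I.e) (k : Fin 4) (M : I.V) :
    mgN (2 ^ (I.e / 2)) k (I.numV M) = I.numV ((I.expd h).s k M) := by
  have hm : 0 < 2 ^ (I.e / 2) := by positivity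
  have hk : k = 0 ∨ k = 1 ∨ k = 2 ∨ k = 3 := by clear hm; revert k; decide
  generalize hq : I.sq h M = q
  have h1 := I.sq_num h M
  have h2 := I.sq_num h ((I.expd h).s k M)
  have h3 : I.sq h ((I.expd h).s k M) = mgs _ k q := by
    rw [← hq]
    show I.sq h ((I.sq h).symm (mgs _ k (I.sq h M))) = _
    rw [Equiv.apply_symm_apply]
  rw [h3] at h2
  rw [hq] at h1
  have hy := ZMod.val_lt q.2
  have e1 : (I.numV M : ℕ) / 2 ^ (I.e / 2) = q.1.val := by
    rw [h1, add_comm, Nat.add_mul_div_right _ _ hm, Nat.div_eq_of_lt hy, zero_add]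
  have e2 : (I.numV M : ℕ) % 2 ^ (I.e / 2) = q.2.val := by
    rw [h1, add_comm, Nat.add_mul_mod_self_right, Nat.mod_eq_of_lt hy]
  rw [h2]
  have hv2 : (2 : ZMod (2 ^ (I.e / 2))) = ((2 : ℕ) : ZMod _) := by push_cast; rfl
  have key : ∀ a b : ZMod (2 ^ (I.e / 2)), (a + 2 * b).val = (a.val + 2 * b.val) % 2 ^ (I.e / 2) := by
    intro a b
    have : ((a.val + 2 * b.val : ℕ) : ZMod (2 ^ (I.e / 2))) = a + 2 * b := by
      push_cast
      rw [ZMod.natCast_zmod_val, ZMod.natCast_zmod_val]
    rw [← this, ZMod.val_natCast]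
  have key1 : ∀ a b : ZMod (2 ^ (I.e / 2)),
      (a + 2 * b + 1).val = (a.val + 2 * b.val + 1) % 2 ^ (I.e / 2) := by
    intro a b
    have : ((a.val + 2 * b.val + 1 : ℕ) : ZMod (2 ^ (I.e / 2))) = a + 2 * b + 1 := by
      push_cast
      rw [ZMod.natCast_zmod_val, ZMod.natCast_zmod_val]
    rw [← this, ZMod.val_natCast]
  rcases hk with rfl | rfl | rfl | rfl
  · simp only [mgN, mgs, Lib.PCP.MGG.shear1, Equiv.coe_fn_mk, e1, e2, add_zero, key]
  · simp only [mgN, mgs, Lib.PCP.MGG.shear1, Equiv.coe_fn_mk, e1, e2, key1]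
  · simp only [mgN, mgs, Lib.PCP.MGG.shear2, Equiv.coe_fn_mk, e1, e2, add_zero, key]
  · simp only [mgN, mgs, Lib.PCP.MGG.shear2, Equiv.coe_fn_mk, e1, e2, key1]

/-- the numbers of the neighbours of the site number `n` -/
def Inst.nbN (I : Inst S r) (k : Fin 8) (n : ℕ) : ℕ :=
  if h : (k : ℕ) < 4 then
    n / 2 ^ I.e * 2 ^ I.e + mgN (2 ^ (I.e / 2)) ⟨k, h⟩ (n % 2 ^ I.e)
  else mgN (2 ^ (I.e / 2)) ⟨k - 4, by omega⟩ (n / 2 ^ I.e) * 2 ^ I.e + n % 2 ^ I.e

theorem Inst.nbN_num (I : Inst S r) (h : Even I.e) (k : Fin 8) (ω : I.Site) :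
    I.nbN k (I.num ω) = I.num ((I.sem (I.expd h)).nb k ω) := by
  unfold Inst.nbN
  simp only [Inst.sem]
  rw [I.num_div, I.num_mod]
  split_ifs with hk
  · rw [I.num_val, I.mgN_num h]
  · rw [I.num_val, I.mgN_num h]

end Vale.Agent.P330.S
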