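import Vale.Agent.P330.S.AE
import Vale.Agent.P330.S.Germ
import Vale.Agent.P330.S.Cmp

/-!
# Sequences of configurations: multiplexers, comparisons, control bits
-/

namespace Vale.Agent.P330.S

open Filter PCP.AR

variable {S : Spec} {r : ℕ}

namespace Lim

variable (A : Lim S r)

/-- sequences of configurations -/
abbrev Cfg : Type := ∀ n, (A.I n).J → S.Cell

/-- the right value of the component `c` of the code of `w` -/
noncomputable abbrev cod (w : A.Cfg) (c : S.Comp) : A.Pt → Bool :=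
  fun ω => decide ((A.I ω.1).enc (w ω.1) c ω.2.1 = 1)

/-- Register `z` holds the code of `w`, up to a null set. -/
def SCodes (z : Bool) (w : A.Cfg) : Prop :=
  ∀ c : S.Comp, A.Is (A.cod w c) (.x z c) ∧ A.Is (A.cod w c) (.lo z c) ∧
    A.Is (A.cod w c) (.hi z c)

/-- Register `z` holds the code of `w`, up to `ρ'`. -/
def SNr (ρ' : ℝ) (z : Bool) (w : A.Cfg) : Prop :=
  ∀ᶠ n in (A.U : Filter ℕ), Near (A.I n) (A.ε n) ρ' (A.x n) z (w n)

/-- All registers are right at the site. -/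
def SRt (z : Bool) (w : A.Cfg) (ω : A.Pt) : Prop :=
  (A.I ω.1).Rt (A.ε ω.1) (A.x ω.1) z (w ω.1) ω.2

/-- the limits of the averages of the control bits -/
noncomputable def qs (i : Fin 3) : ℝ := A.av (.q i)

/-- the limits of the averages of the tests -/
noncomputable def Ts (k : Tst) : ℝ := A.av (.t k)

variable {A}

theorem fin_th (j : Fin 3) (l : Fin 5) : ∀ᶠ ω in A.F,
    ((((l : ℕ) : ℝ) + 1) / 6 < A.qs j → IsB (A.ε ω.1) true (A.v (.th j l) ω)) ∧
      (A.qs j < (((l : ℕ) : ℝ) + 1) / 6 → IsB (A.ε ω.1) false (A.v (.th j l) ω)) := by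
  rcases lt_trichotomy ((((l : ℕ) : ℝ) + 1) / 6) (A.qs j) with h | h | h
  · filter_upwards [A.th_true (i := j) (l := l) h] with ω hω
    exact ⟨fun _ => hω, fun h' => absurd h' (not_lt.2 h.le)⟩
  · exact Eventually.of_forall fun ω =>
      ⟨fun h' => absurd h' (not_lt.2 h.symm.le), fun h' => absurd h' (not_lt.2 h.le)⟩
  · filter_upwards [A.th_false (i := j) (l := l) h] with ω hω
    exact ⟨fun h' => absurd h' (not_lt.2 h.le), fun _ => hω⟩

theorem fin_tf (k : Tst) : ∀ᶠ ω in A.F,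
    ((A.τ : ℝ) < A.Ts k → IsB (A.ε ω.1) true (A.v (.tf k) ω)) ∧
      (A.Ts k < (A.τ : ℝ) → IsB (A.ε ω.1) false (A.v (.tf k) ω)) := by
  rcases lt_trichotomy (A.τ : ℝ) (A.Ts k) with h | h | h
  · filter_upwards [A.tf_true (k := k) h] with ω hω
    exact ⟨fun _ => hω, fun h' => absurd h' (not_lt.2 h.le)⟩
  · exact Eventually.of_forall fun ω =>
      ⟨fun h' => absurd h' (not_lt.2 h.symm.le), fun h' => absurd h' (not_lt.2 h.le)⟩
  · filter_upwards [A.tf_false (k := k) h] with ω hω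
    exact ⟨fun h' => absurd h' (not_lt.2 h.le), fun _ => hω⟩

/-- **Control bits.** -/
theorem s_ctl (i : Fin 3) (b : Bool) (h : ∀ y : Ctl, ThOK A.qs y.th → TfOK (A.τ : ℝ) A.Ts y.tf →
    target y.th y.v (y.sg false) (y.sg true) i = b) : A.qs i = if b then 1 else 0 := by
  have h1 : A.Is (fun _ => b) (.q i) := by
    have e1 : ∀ᶠ ω in A.F, ∀ (j : Fin 3) (l : Fin 5),
        ((((l : ℕ) : ℝ) + 1) / 6 < A.qs j → IsB (A.ε ω.1) true (A.v (.th j l) ω)) ∧
        (A.qs j < (((l : ℕ) : ℝ) + 1) / 6 → IsB (A.ε ω.1) false (A.v (.th j l) ω)) := by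
      rw [eventually_all]
      intro j
      rw [eventually_all]
      exact fun l => fin_th j l
    have e2 : ∀ᶠ ω in A.F, ∀ k : Tst,
        ((A.τ : ℝ) < A.Ts k → IsB (A.ε ω.1) true (A.v (.tf k) ω)) ∧
        (A.Ts k < (A.τ : ℝ) → IsB (A.ε ω.1) false (A.v (.tf k) ω)) := by
      rw [eventually_all]
      exact fun k => fin_tf k
    filter_upwards [A.rel (.q i), e1, e2] with ω g1 g2 g3
    exact ctl_pt g1 g2 g3 h
  cases b with
  | false => exact av_of_is_false h1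
  | true => exact av_of_is_true h1

/-! ### Thresholds in front of the multiplexers -/

theorem th_hold {z : Bool} (h : HoldAt A.qs z) :
    ∀ᶠ ω in A.F, IsB (A.ε ω.1) z (A.v (.th 1 (if z then 1 else 3)) ω) := by
  cases z with
  | false =>
    have h' : A.qs 1 < 2 / 3 := by simpa [HoldAt] using h
    exact A.th_false (i := 1) (l := 3) (by
      have : A.av (.q 1) < 2 / 3 := h'
      norm_num
      linarith)
  | true =>
    have h' : 1 / 3 < A.qs 1 := by simpa [HoldAt] using h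
    exact A.th_true (i := 1) (l := 1) (by
      have : 1 / 3 < A.av (.q 1) := h'
      norm_num
      linarith)

theorem th_follow {z : Bool} (h : FollowAt A.qs z) :
    ∀ᶠ ω in A.F, IsB (A.ε ω.1) (!z) (A.v (.th 1 (if z then 1 else 3)) ω) := by
  cases z with
  | false =>
    have h' : 2 / 3 < A.qs 1 := by simpa [FollowAt] using h
    exact A.th_true (i := 1) (l := 3) (by
      have : 2 / 3 < A.av (.q 1) := h'
      norm_num
      linarith)
  | true =>
    have h' : A.qs 1 < 1 / 3 := by simpa [FollowAt] using h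
    exact A.th_false (i := 1) (l := 1) (by
      have : A.av (.q 1) < 1 / 3 := h'
      norm_num
      linarith)

theorem th_s_lt (h : A.qs 2 < 1 / 6) : ∀ᶠ ω in A.F, IsB (A.ε ω.1) false (A.v (.th 2 0) ω) :=
  A.th_false (i := 2) (l := 0) (by
    have : A.av (.q 2) < 1 / 6 := h
    norm_num
    linarith)

theorem th_s_gt (h : 1 / 6 < A.qs 2) : ∀ᶠ ω in A.F, IsB (A.ε ω.1) true (A.v (.th 2 0) ω) :=
  A.th_true (i := 2) (l := 0) (by
    have : 1 / 6 < A.av (.q 2) := h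
    norm_num
    linarith)

theorem th_a_lt (h : A.qs 0 < 1 / 2) : ∀ᶠ ω in A.F, IsB (A.ε ω.1) false (A.v (.th 0 2) ω) :=
  A.th_false (i := 0) (l := 2) (by
    have : A.av (.q 0) < 1 / 2 := h
    norm_num
    linarith)

theorem th_a_gt (h : 1 / 2 < A.qs 0) : ∀ᶠ ω in A.F, IsB (A.ε ω.1) true (A.v (.th 0 2) ω) :=
  A.th_true (i := 0) (l := 2) (by
    have : 1 / 2 < A.av (.q 0) := h
    norm_num
    linarith)

/-! ### Codes -/

theorem scodes_of_m {z : Bool} {w : A.Cfg} (h : ∀ c, A.Is (A.cod w c) (.m z c)) :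
    A.SCodes z w := fun c =>
  A.codes_of_m (z := z) (c := c)
    (g := fun p => decide ((A.I p.1).enc (w p.1) c p.2 = 1)) (h c)

theorem srt_of_codes {z : Bool} {w : A.Cfg} (h : A.SCodes z w) :
    ∀ᶠ ω in A.F, A.SRt z w ω := by
  have h1 : ∀ᶠ ω in A.F, ∀ c : S.Comp, IsB (A.ε ω.1) (A.cod w c ω) (A.v (.x z c) ω) := by
    rw [eventually_all]
    exact fun c => (h c).1
  filter_upwards [h1] with ω hω
  exact hω

theorem snr_of_codes {z : Bool} {w : A.Cfg} {ρ' : ℝ} (hρ : 0 < ρ') (h : A.SCodes z w) :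
    A.SNr ρ' z w := by
  filter_upwards [ae_pr_lt (srt_of_codes h) hρ] with n hn
  rw [near_iff]
  exact hn.le

theorem scodes_congr {z : Bool} {w w' : A.Cfg} (h : ∀ᶠ n in (A.U : Filter ℕ), w n = w' n)
    (hc : A.SCodes z w) : A.SCodes z w' := by
  intro c
  have h1 : ∀ᶠ ω in A.F, A.cod w c ω = A.cod w' c ω := by
    have := ae_fst (Ω := fun n => (A.I n).Site) (Q := fun n => w n = w' n) h
    filter_upwards [this] with ω hω
    show decide ((A.I ω.1).enc (w ω.1) c ω.2.1 = 1) = decide ((A.I ω.1).enc (w' ω.1) c ω.2.1 = 1)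
    rw [hω]
  obtain ⟨a1, a2, a3⟩ := hc c
  refine ⟨?_, ?_, ?_⟩
  · filter_upwards [a1, h1] with ω g1 g2
    rw [← g2]; exact g1
  · filter_upwards [a2, h1] with ω g1 g2
    rw [← g2]; exact g1
  · filter_upwards [a3, h1] with ω g1 g2
    rw [← g2]; exact g1

theorem snr_congr {ρ' : ℝ} {z : Bool} {w w' : A.Cfg} (h : ∀ᶠ n in (A.U : Filter ℕ), w n = w' n)
    (hc : A.SNr ρ' z w) : A.SNr ρ' z w' := by
  filter_upwards [h, hc] with n h1 h2
  rw [← h1]
  exact h2

/-! ### Comparisons -/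

theorem s_E0_complete {w : A.Cfg} (h1 : A.SCodes false w) (h2 : A.SCodes true w) :
    A.Ts .E0 = 0 := by
  refine av_of_is_false ?_
  filter_upwards [A.rel (.t .E0), srt_of_codes h1, srt_of_codes h2] with ω g1 g2 g3
  exact E0_pt g1 g2 g3

theorem s_D_complete {z : Bool} (h1 : A.SCodes z fun n => (A.I n).w0) : A.Ts (.D z) = 0 := by
  refine av_of_is_false ?_
  filter_upwards [A.rel (.t (.D z)), srt_of_codes h1] with ω g1 g2
  exact D_pt g1 g2

theorem s_E0_sound {ρ' : ℝ} (hρ : 0 < ρ') (hτ : (A.τ : ℝ) < (1 / 2) ^ r - 3 * ρ') {w w' : A.Cfg}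
    (h : A.Ts .E0 ≤ A.τ) (h1 : A.SNr ρ' false w) (h2 : A.SNr ρ' true w') :
    ∀ᶠ n in (A.U : Filter ℕ), w n = w' n := by
  by_contra hcon
  have hne : ∀ᶠ n in (A.U : Filter ℕ), w n ≠ w' n := Ultrafilter.eventually_not.2 hcon
  have key : (1 / 2 : ℝ) ^ r - 3 * ρ' ≤ A.av (.t .E0) := by
    refine le_av_of_pr ?_
    filter_upwards [h1, h2, hne, A.β_lim.eventually (gt_mem_nhds hρ)] with n g1 g2 g3 g4
    have := E0_lower ((A.obeys n).2 (.t .E0)) g1 g2 g3
    linarith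
  have : A.av (.t .E0) ≤ A.τ := h
  linarith

theorem s_D_sound {ρ' : ℝ} (hρ : 0 < ρ') (hτ : (A.τ : ℝ) < (1 / 2) ^ r - 3 * ρ') {z : Bool}
    {w : A.Cfg} (h : A.Ts (.D z) ≤ A.τ) (h1 : A.SNr ρ' z w) :
    ∀ᶠ n in (A.U : Filter ℕ), w n = (A.I n).w0 := by
  by_contra hcon
  have hne : ∀ᶠ n in (A.U : Filter ℕ), w n ≠ (A.I n).w0 := Ultrafilter.eventually_not.2 hcon
  have key : (1 / 2 : ℝ) ^ r - 3 * ρ' ≤ A.av (.t (.D z)) := by
    refine le_av_of_pr ?_
    filter_upwards [h1, hne, A.β_lim.eventually (gt_mem_nhds hρ)] with n g1 g3 g4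
    have := D_lower ((A.obeys n).2 (.t (.D z))) g1 g3
    linarith
  have : A.av (.t (.D z)) ≤ A.τ := h
  linarith

/-- The corrected reads of the next configuration are right, up to `ρ'`. -/
def SNrA (ρ' : ℝ) (z : Bool) (w : A.Cfg) : Prop :=
  ∀ᶠ n in (A.U : Filter ℕ), NearA (A.I n) (A.ε n) ρ' (A.x n) z (w n)

theorem s_E1_sound {ρ' C : ℝ} (hρ : 0 < ρ') (hτ : (A.τ : ℝ) < (1 / 2) ^ r - (2 + C) * ρ')
    {w w' : A.Cfg} (h : A.Ts .E1 ≤ A.τ) (h1 : A.SNrA (C * ρ') false w) (h2 : A.SNr ρ' true w') :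
    ∀ᶠ n in (A.U : Filter ℕ), w' n = w n := by
  by_contra hcon
  have hne : ∀ᶠ n in (A.U : Filter ℕ), w' n ≠ w n := Ultrafilter.eventually_not.2 hcon
  have key : (1 / 2 : ℝ) ^ r - (2 + C) * ρ' ≤ A.av (.t .E1) := by
    refine le_av_of_pr ?_
    filter_upwards [h1, h2, hne, A.β_lim.eventually (gt_mem_nhds hρ)] with n g1 g2 g3 g4
    have := E1_lower ((A.obeys n).2 (.t .E1)) g1 g2 g3
    linarith
  have : A.av (.t .E1) ≤ A.τ := h
  linarith

theorem s_E1_complete {w : A.Cfg}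
    (h1 : ∀ c, A.Is (A.cod w c) (.a false c)) (h2 : A.SCodes true w) : A.Ts .E1 = 0 := by
  refine av_of_is_false ?_
  have h3 : ∀ᶠ ω in A.F, ∀ c : S.Comp, IsB (A.ε ω.1) (A.cod w c ω) (A.v (.a false c) ω) := by
    rw [eventually_all]
    exact h1
  filter_upwards [A.rel (.t .E1), h3, srt_of_codes h2] with ω g1 g2 g3
  exact E1_pt g1 g2 g3

end Lim

end Vale.Agent.P330.S
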