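import Vale.Agent.P330.S.TSNet
import Vale.Agent.P330.S.AE

/-!
# The register test in the limit

`T_sound`: if the average of the test of the register `z` is at most `τ` then for almost all `n` the
register is near the code of a valid configuration.  `T_complete`: if the register codes valid
configurations, the average is `0`.
-/

set_option linter.unusedSectionVars false

namespace Vale.Agent.P330.S.TS

open Finset PCP.AR MLT Filter H855

variable {S : Spec} {r : ℕ}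

/-- largest admissible threshold of the tests -/
noncomputable def tsTau (S : Spec) (r : ℕ) : ℝ := tsEta S r / (3 * nTI S r + 4)

theorem tsTau_pos (S : Spec) (r : ℕ) : 0 < tsTau S r := by
  unfold tsTau
  have := tsEta_pos S r
  positivity

/-- the constant of the test soundness in the limit -/
noncomputable def tsK (S : Spec) (r : ℕ) : ℝ :=
  3 + Fintype.card S.Comp * (3 / 2 * 2 ^ r * (3 * nTI S r + 4))

theorem tsK_pos (S : Spec) (r : ℕ) : 0 < tsK S r := by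
  unfold tsK
  positivity

/-- the table read off the pad means -/
noncomputable def tab (A : Lim S r) (z : Bool) (n : ℕ) (c : S.Comp) (M : (A.I n).V) : ZMod 2 :=
  if 1 / 2 < mean (fun z' => A.x n (.m z c) (M, z')) then 1 else 0

/-- almost all sites: either the register holds the table or the test fails -/
theorem good_or (A : Lim S r) (z : Bool) :
    ∀ᶠ ω in A.F, Good (A.I ω.1) (A.ε ω.1) (A.x ω.1) z (tab A z ω.1) ω.2 ∨
      IsB (A.ε ω.1) true (A.v (.t (.T z)) ω) := by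
  have hx : ∀ᶠ ω in A.F, ∀ c : S.Comp, (1 / 2 + 1 / 10 < A.pm (.m z c) ω →
      IsB (A.ε ω.1) true (A.v (.x z c) ω)) ∧
      (A.pm (.m z c) ω < 1 / 2 - 1 / 10 → IsB (A.ε ω.1) false (A.v (.x z c) ω)) :=
    eventually_all.2 fun c => A.x_pm z c (by norm_num)
  have hlo : ∀ᶠ ω in A.F, ∀ c : S.Comp, (1 / 4 + 1 / 10 < A.pm (.m z c) ω →
      IsB (A.ε ω.1) true (A.v (.lo z c) ω)) ∧
      (A.pm (.m z c) ω < 1 / 4 - 1 / 10 → IsB (A.ε ω.1) false (A.v (.lo z c) ω)) :=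
    eventually_all.2 fun c => A.lo_pm z c (by norm_num)
  have hhi : ∀ᶠ ω in A.F, ∀ c : S.Comp, (3 / 4 + 1 / 10 < A.pm (.m z c) ω →
      IsB (A.ε ω.1) true (A.v (.hi z c) ω)) ∧
      (A.pm (.m z c) ω < 3 / 4 - 1 / 10 → IsB (A.ε ω.1) false (A.v (.hi z c) ω)) :=
    eventually_all.2 fun c => A.hi_pm z c (by norm_num)
  filter_upwards [hx, hlo, hhi, A.rel (.t (.T z))] with ω g1 g2 g3 g4
  by_cases hf : ∃ c : S.Comp, 1 / 4 + 1 / 10 < A.pm (.m z c) ω ∧ A.pm (.m z c) ω < 3 / 4 - 1 / 10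
  · right
    obtain ⟨c, h1, h2⟩ := hf
    exact t_of_flag (A.I ω.1) (A.X ω.1) A.τ (A.ε ω.1) (A.lam ω.1) (A.x ω.1) z ω.2 g4 c
      ((g2 c).1 h1) ((g3 c).2 h2)
  · left
    push Not at hf
    intro c
    have hpm : A.pm (.m z c) ω = mean (fun z' => A.x ω.1 (.m z c) (ω.2.1, z')) := rfl
    by_cases h1 : 1 / 2 < A.pm (.m z c) ω
    · have h2 : tab A z ω.1 c ω.2.1 = 1 := by
        unfold tab
        rw [← hpm, if_pos h1]
      rw [h2]
      have h3 := hf c (by linarith)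
      exact (g1 c).1 (by linarith)
    · have h2 : tab A z ω.1 c ω.2.1 = 0 := by
        unfold tab
        rw [← hpm, if_neg h1]
      rw [h2]
      refine (g1 c).2 ?_
      by_contra h4
      push Not at h4
      have h3 := hf c (by linarith)
      linarith

/-- **Soundness of the register test.** -/
theorem T_sound (A : Lim S r) (hτ : 0 < A.τ) (hsm : (A.τ : ℝ) ≤ tsTau S r) (z : Bool)
    (h : A.av (.t (.T z)) ≤ A.τ) :
    ∀ᶠ n in (A.U : Filter ℕ), ∃ w, (A.I n).Valid w ∧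
      Near (A.I n) (A.ε n) (tsK S r * A.τ) (A.x n) z w := by
  have hτ' : (0 : ℝ) < A.τ := by exact_mod_cast hτ
  have h1 := ae_pr_lt (good_or A z) hτ'
  have h2 := A.pr_true_le (.t (.T z)) hτ'
  have h3 : ∀ᶠ n in (A.U : Filter ℕ), A.β n < A.τ := A.β_lim.eventually (gt_mem_nhds hτ')
  filter_upwards [h1, h2, h3] with n g1 g2 g3
  have hrel := ((A.obeys n).2 (.t (.T z))).trans g3.le
  have htt : pr (fun ω => IsB (A.ε n) true (A.x n (.t (.T z)) ω)) ≤ 3 * (A.τ : ℝ) := by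
    linarith
  have hG : pr (fun ω => ¬ Good (A.I n) (A.ε n) (A.x n) z (tab A z n) ω) ≤ 3 * (A.τ : ℝ) := by
    have e1 := pr_or (fun ω : (A.I n).Site =>
      ¬ (Good (A.I n) (A.ε n) (A.x n) z (tab A z n) ω ∨
        IsB (A.ε n) true (A.x n (.t (.T z)) ω)))
      (fun ω => IsB (A.ε n) true (A.x n (.t (.T z)) ω))
    have e2 : pr (fun ω => ¬ Good (A.I n) (A.ε n) (A.x n) z (tab A z n) ω) ≤
        pr (fun ω => ¬ (Good (A.I n) (A.ε n) (A.x n) z (tab A z n) ω ∨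
          IsB (A.ε n) true (A.x n (.t (.T z)) ω)) ∨ IsB (A.ε n) true (A.x n (.t (.T z)) ω)) := by
      apply pr_mono
      intro ω hω
      by_cases ht : IsB (A.ε n) true (A.x n (.t (.T z)) ω)
      · exact Or.inr ht
      · exact Or.inl fun hc => hc.elim hω ht
    have e3 : pr (fun ω : (A.I n).Site =>
      ¬ (Good (A.I n) (A.ε n) (A.x n) z (tab A z n) ω ∨
        IsB (A.ε n) true (A.x n (.t (.T z)) ω))) < A.τ := g1
    linarith
  have hsm' : (A.τ : ℝ) + (nTI S r + 1) * (3 * A.τ) ≤ tsEta S r := by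
    have e1 : (A.τ : ℝ) * (3 * nTI S r + 4) ≤ tsEta S r := by
      rwa [tsTau, le_div_iff₀ (by positivity)] at hsm
    linarith
  obtain ⟨w, hw, hN⟩ := near_of_net (A.I n) (A.X n) A.τ (A.ε n) (A.lam n) (A.x n) z (tab A z n)
    A.τ (3 * A.τ) hτ'.le (by positivity) hrel hG htt hsm'
  refine ⟨w, hw, ?_⟩
  unfold Near at hN ⊢
  refine hN.trans (le_of_eq ?_)
  unfold tsK
  ring

/-- **Completeness of the register test.** -/
theorem T_complete (A : Lim S r) (z : Bool) (w : ∀ n, (A.I n).J → S.Cell)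
    (hv : ∀ᶠ n in (A.U : Filter ℕ), (A.I n).Valid (w n))
    (hx : ∀ c, A.Is (fun ω => decide ((A.I ω.1).enc (w ω.1) c ω.2.1 = 1)) (.x z c))
    (hlo : ∀ c, A.Is (fun ω => decide ((A.I ω.1).enc (w ω.1) c ω.2.1 = 1)) (.lo z c))
    (hhi : ∀ c, A.Is (fun ω => decide ((A.I ω.1).enc (w ω.1) c ω.2.1 = 1)) (.hi z c)) :
    A.av (.t (.T z)) = 0 := by
  apply A.av_of_is_false
  have h1 : ∀ᶠ ω in A.F, ∀ c : S.Comp, IsB (A.ε ω.1)
      (decide ((A.I ω.1).enc (w ω.1) c ω.2.1 = 1)) (A.v (.x z c) ω) :=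
    eventually_all.2 fun c => hx c
  have h2 : ∀ᶠ ω in A.F, ∀ i : TI S r, ∀ c : S.Comp, IsB (A.ε (A.rd (tiRd i) ω).1)
      (decide ((A.I (A.rd (tiRd i) ω).1).enc (w (A.rd (tiRd i) ω).1) c (A.rd (tiRd i) ω).2.1 = 1))
        (A.v (.x z c) (A.rd (tiRd i) ω)) :=
    eventually_all.2 fun i => A.ae_rd h1 (tiRd i)
  have h3 : ∀ᶠ ω in A.F, ∀ c : S.Comp, IsB (A.ε ω.1)
      (decide ((A.I ω.1).enc (w ω.1) c ω.2.1 = 1)) (A.v (.lo z c) ω) :=
    eventually_all.2 fun c => hlo c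
  have h4 : ∀ᶠ ω in A.F, ∀ c : S.Comp, IsB (A.ε ω.1)
      (decide ((A.I ω.1).enc (w ω.1) c ω.2.1 = 1)) (A.v (.hi z c) ω) :=
    eventually_all.2 fun c => hhi c
  have h5 : ∀ᶠ ω in A.F, (A.I ω.1).Valid (w ω.1) :=
    ae_fst (Q := fun n => (A.I n).Valid (w n)) hv
  filter_upwards [h2, h3, h4, h5, A.rel (.t (.T z))] with ω g2 g3 g4 g5 g6
  exact t_of_ok (A.I ω.1) (A.X ω.1) A.τ (A.ε ω.1) (A.lam ω.1) (A.x ω.1) z ω.2 g6
    ((A.I ω.1).enc (w ω.1)) g2 g3 g4 (enc_tests (A.I ω.1) g5 ω.2)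

end Vale.Agent.P330.S.TS
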