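import Vale.Agent.P330.S.SoundMux
import Vale.Agent.P330.S.SoundSeq
import Vale.Agent.P330.S.TSAE
import Vale.Agent.P330.S.Loop

/-!
# Soundness of the network
-/

namespace Vale.Agent.P330.S

open Filter PCP.AR

variable {S : Spec} {r : ℕ}

namespace Lim

variable {A : Lim S r}

theorem near_mono {I : Inst S r} {ε ρ₁ ρ₂ : ℝ} {x : Reg S → I.Site → ℝ} {z : Bool}
    {w : I.J → S.Cell} (h : ρ₁ ≤ ρ₂) (hn : Near I ε ρ₁ x z w) : Near I ε ρ₂ x z w :=
  le_trans hn h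

/-- The record. -/
noncomputable def toSeq (A : Lim S r) (ρ' C ρ₀ : ℝ) (hρ : 0 < ρ') (hρ₀ : ρ' ≤ ρ₀) (P : PD A ρ')
    (hA : ∀ z w, A.SNr ρ' z w → A.Hd w → A.SNrA (C * ρ') z (A.stp z w))
    (hτ : 0 < A.τ) (h1 : (A.τ : ℝ) ≤ TS.tsTau S r) (h2 : TS.tsK S r * A.τ ≤ ρ')
    (h3 : (A.τ : ℝ) < (1 / 2) ^ r - 3 * ρ') (h4 : (A.τ : ℝ) < (1 / 2) ^ r - (2 + C) * ρ')
    (hN : ∀ n, NoSol (A.I n) (A.ε n) ρ₀ (A.x n)) : SeqCore where
  U := A.U
  Cf n := (A.I n).J → S.Cell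
  Val n := (A.I n).Valid
  w0 n := (A.I n).w0
  step n z := (A.I n).step z
  τ := A.τ
  τ_pos := by exact_mod_cast hτ
  q := A.qs
  q_mem i := A.av_mem _
  T := A.Ts
  Codes := A.SCodes
  Nr := A.SNr ρ'
  codes_congr _ _ _ h hc := scodes_congr h hc
  nr_congr _ _ _ h hc := snr_congr h hc
  valid0 n := (A.facts n).valid0
  inv n := (A.facts n).inv
  start n := (A.facts n).start
  codes_near _ _ h := snr_of_codes hρ h
  T_sound z h := by
    classical
    have h5 := TS.T_sound A hτ h1 z h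
    refine ⟨fun n => if hn : ∃ w, (A.I n).Valid w ∧
      Near (A.I n) (A.ε n) (TS.tsK S r * A.τ) (A.x n) z w then hn.choose else (A.I n).w0, ?_, ?_⟩
    · filter_upwards [h5] with n hn
      rw [dif_pos hn]
      exact hn.choose_spec.1
    · unfold SNr
      filter_upwards [h5] with n hn
      rw [dif_pos hn]
      exact near_mono h2 hn.choose_spec.2
  T_complete z w hv hc := TS.T_complete A z w hv (fun c => (hc c).1) (fun c => (hc c).2.1)
    fun c => (hc c).2.2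
  E0_sound w w' h hn hn' := s_E0_sound hρ h3 h hn hn'
  E0_complete w hc hc' := s_E0_complete hc hc'
  E1_sound w w' h hv hn hn' :=
    s_E1_sound hρ h4 (w := A.stp false w) h (hA false w hn (hd_of_valid hv)) hn'
  E1_complete w hv hc hc' := s_E1_complete (w := A.stp false w)
    (fun c => a_is' hρ P (hd_of_valid hv) hc c) hc'
  D_sound z w h hn := s_D_sound hρ h3 h hn
  D_complete z hc := s_D_complete hc
  mux_start h z := m_start h z
  mux_hold0 z h hn := m_hold0 P h hn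
  mux_hold hs z w h hn := m_hold P hs h hn
  mux_copy hs ha z w h hc := m_copy P hs ha h hc
  mux_step hs ha z w h hv hc := m_step hρ P hs ha h (hd_of_valid hv) hc
  mux_both hs ha w hn hn' := m_both P hs ha hn hn'
  mux_link hs ha w w' hv hv' e1 e2 hn hn' :=
    m_link P hs ha (hd_of_valid hv) (hd_of_valid hv') e1 e2 hn hn'
  nosol_false w hv hn := by
    filter_upwards [hv, hn] with n g1 g2
    exact (hN n).1 _ g1 (near_mono hρ₀ g2)
  nosol_true w hv hne hn := by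
    filter_upwards [hv, hne, hn] with n g1 g2 g3
    exact (hN n).2 _ g1 g2 (near_mono hρ₀ g3)
  ctl i b h := s_ctl i b h

end Lim

/-- What the analysis of the corrected reads delivers. -/
def PropStmt : Prop :=
  ∀ (S : Spec) (r : ℕ), 0 < r → ∃ ρ₁ : ℝ, 0 < ρ₁ ∧ ∃ C : ℝ, 0 ≤ C ∧ ∀ (A : Lim S r) (ρ' : ℝ),
    0 < ρ' → ρ' ≤ ρ₁ → A.PD ρ' ∧
      ∀ z w, A.SNr ρ' z w → A.Hd w → A.SNrA (C * ρ') z (A.stp z w)

theorem soundStmt_of_prop (HP : PropStmt) : SoundStmt := by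
  refine soundStmt_of fun S r hr ρ₀ hρ₀ => ?_
  obtain ⟨ρ₁, hρ₁, C, hC, hP⟩ := HP S r hr
  have hr2 : (0 : ℝ) < (1 / 2) ^ r := by positivity
  set ρ' : ℝ := min (min ρ₀ ρ₁) ((1 / 2) ^ r / (2 * (5 + C))) with hρ'
  have hp : 0 < ρ' := lt_min (lt_min hρ₀ hρ₁) (by positivity)
  have hp1 : ρ' ≤ ρ₀ := (min_le_left _ _).trans (min_le_left _ _)
  have hp2 : ρ' ≤ ρ₁ := (min_le_left _ _).trans (min_le_right _ _)
  have hp3 : ρ' * (2 * (5 + C)) ≤ (1 / 2) ^ r := by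
    rw [← le_div_iff₀ (by positivity)]
    exact min_le_right _ _
  have hK := TS.tsK_pos S r
  have hT := TS.tsTau_pos S r
  have hm : (0 : ℝ) < min (min 1 ((1 / 2) ^ r / 2)) (min (TS.tsTau S r) (ρ' / TS.tsK S r)) :=
    lt_min (lt_min one_pos (by positivity)) (lt_min hT (div_pos hp hK))
  obtain ⟨τ, h0, h1⟩ := exists_rat_btwn hm
  have a1 : (τ : ℝ) < 1 := h1.trans_le ((min_le_left _ _).trans (min_le_left _ _))
  have a2 : (τ : ℝ) < (1 / 2) ^ r / 2 := h1.trans_le ((min_le_left _ _).trans (min_le_right _ _))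
  have a3 : (τ : ℝ) < TS.tsTau S r := h1.trans_le ((min_le_right _ _).trans (min_le_left _ _))
  have a4 : (τ : ℝ) < ρ' / TS.tsK S r := h1.trans_le ((min_le_right _ _).trans (min_le_right _ _))
  have h0' : 0 < τ := by exact_mod_cast h0
  refine ⟨τ, h0', by exact_mod_cast a1, fun A hA hN => ?_⟩
  obtain ⟨P, hA2⟩ := hP A ρ' hp hp2
  have hρC : 0 ≤ C * ρ' := mul_nonneg hC hp.le
  subst hA
  refine (Lim.toSeq A ρ' C ρ₀ hp hp1 P hA2 h0' a3.le ?_ ?_ ?_ hN).toCore.no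
  · rw [lt_div_iff₀ hK] at a4
    rw [mul_comm]
    exact a4.le
  · nlinarith
  · nlinarith

end Vale.Agent.P330.S
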