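import Vale.Agent.P330.S.SoundAE

/-!
# The multiplexer fields of `SeqCore`
-/

namespace Vale.Agent.P330.S

open Filter PCP.AR

variable {S : Spec} {r : ℕ}

namespace Lim

variable (A : Lim S r)

/-- next configurations -/
noncomputable def stp (z : Bool) (w : A.Cfg) : A.Cfg := fun n => (A.I n).step z (w n)

/-- the configurations have a unique head -/
def Hd (w : A.Cfg) : Prop := ∀ᶠ n in (A.U : Filter ℕ), ∃ h, (A.I n).IsHead (w n) h

/-- all reads used by `h z` and `a z` are right -/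
def Reads (z : Bool) (w : A.Cfg) (ω : A.Pt) : Prop :=
  ∀ B : Finset (Fin r), A.SRt z w (A.rd (.cube B .id) ω) ∧
    ∀ o, A.SRt z w (A.rd (.cube B (.shift o)) ω)

/-- What is needed from the analysis of the corrected reads. -/
structure PD (ρ' : ℝ) : Prop where
  h_reads : ∀ z w, ∀ᶠ ω in A.F, A.Reads z w ω →
    ∀ c, IsB (A.ε ω.1) (A.cod w c ω) (A.v (.h z c) ω)
  a_reads : ∀ z w, A.SNr ρ' z w → A.Hd w → ∀ᶠ ω in A.F, A.Reads z w ω →
    ∀ c, IsB (A.ε ω.1) (A.cod (A.stp z w) c ω) (A.v (.a z c) ω)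
  joint : ∀ (Z : Finset Bool) (w : Bool → A.Cfg), (∀ z ∈ Z, A.SNr ρ' z (w z)) →
    (∀ᶠ ω in A.F, (∀ z ∈ Z, A.Reads z (w z) ω) →
      ∀ z ∈ Z, ∀ c, IsB (A.ε ω.1) (A.cod (w z) c ω) (A.v (.m z c) ω)) →
    ∀ z ∈ Z, A.SCodes z (w z)

variable {A}

theorem reads_of_codes {z : Bool} {w : A.Cfg} (h : A.SCodes z w) :
    ∀ᶠ ω in A.F, A.Reads z w ω := by
  have h0 := srt_of_codes h
  unfold Reads
  rw [eventually_all]
  intro B
  refine (A.ae_rd h0 (.cube B .id)).and ?_
  rw [eventually_all]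
  exact fun o => A.ae_rd h0 (.cube B (.shift o))

/-- The relations of the multiplexers. -/
theorem rel_m (z : Bool) : ∀ᶠ ω in A.F, ∀ c : S.Comp,
    (net S r A.τ (.m z c)).Rel ((A.I ω.1).sem (A.X ω.1)) (A.ε ω.1) (A.lam ω.1) (A.x ω.1) (.m z c)
      ω.2 := by
  rw [eventually_all]
  exact fun c => A.rel (.m z c)

theorem m_start (h : A.qs 2 < 1 / 6) (z : Bool) : A.SCodes z fun n => (A.I n).w0 := by
  refine scodes_of_m fun c => ?_
  filter_upwards [A.rel (.m z c), th_s_lt h] with ω g1 g2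
  exact mux_pt g1 _ (Or.inr rfl) (Or.inl g2) (Or.inl g2) (Or.inl g2)

/-- the joint contraction for one register -/
theorem PD.single {ρ' : ℝ} (P : PD A ρ') {z : Bool} {w : A.Cfg} (h : A.SNr ρ' z w)
    (H : ∀ᶠ ω in A.F, A.Reads z w ω →
      ∀ c, IsB (A.ε ω.1) (A.cod w c ω) (A.v (.m z c) ω)) : A.SCodes z w := by
  refine P.joint {z} (fun _ => w) (fun z' hz' => ?_) ?_ z (Finset.mem_singleton_self z)
  · rw [Finset.mem_singleton.1 hz']; exact h
  · filter_upwards [H] with ω g1 g2 z' hz' c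
    rw [Finset.mem_singleton.1 hz']
    exact g1 (g2 z (Finset.mem_singleton_self z)) c

theorem m_hold0 {ρ' : ℝ} (P : PD A ρ') {z : Bool} (hz : HoldAt A.qs z)
    (h : A.SNr ρ' z fun n => (A.I n).w0) : A.SCodes z fun n => (A.I n).w0 := by
  refine P.single h ?_
  filter_upwards [rel_m z, th_hold hz, P.h_reads z fun n => (A.I n).w0] with ω g1 g2 g3 g4 c
  exact mux_pt (g1 c) _ (Or.inr rfl) (Or.inr (Or.inr (g3 g4 c))) (Or.inr (Or.inl g2))
    (Or.inr (Or.inl g2))

theorem m_hold {ρ' : ℝ} (P : PD A ρ') (hs : 1 / 6 < A.qs 2) {z : Bool} {w : A.Cfg}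
    (hz : HoldAt A.qs z) (h : A.SNr ρ' z w) : A.SCodes z w := by
  refine P.single h ?_
  filter_upwards [rel_m z, th_s_gt hs, th_hold hz, P.h_reads z w] with ω g1 g0 g2 g3 g4 c
  exact mux_pt (g1 c) _ (Or.inl g0) (Or.inr (Or.inr (g3 g4 c))) (Or.inr (Or.inl g2))
    (Or.inr (Or.inl g2))

theorem m_copy {ρ' : ℝ} (P : PD A ρ') (hs : 1 / 6 < A.qs 2) (ha : A.qs 0 < 1 / 2) {z : Bool}
    {w : A.Cfg} (hz : FollowAt A.qs z) (h : A.SCodes (!z) w) : A.SCodes z w := by
  refine scodes_of_m fun c => ?_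
  filter_upwards [A.rel (.m z c), th_s_gt hs, th_follow hz, th_a_lt ha, P.h_reads (!z) w,
    reads_of_codes h] with ω g1 g0 g2 g3 g4 g5
  exact mux_pt g1 _ (Or.inl g0) (Or.inr (Or.inl g2)) (Or.inr (Or.inr (Or.inr (g4 g5 c))))
    (Or.inr (Or.inr (Or.inl g3)))

theorem m_step {ρ' : ℝ} (hρ : 0 < ρ') (P : PD A ρ') (hs : 1 / 6 < A.qs 2) (ha : 1 / 2 < A.qs 0)
    {z : Bool} {w : A.Cfg} (hz : FollowAt A.qs z) (hw : A.Hd w) (h : A.SCodes (!z) w) :
    A.SCodes z (A.stp (!z) w) := by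
  refine scodes_of_m fun c => ?_
  filter_upwards [A.rel (.m z c), th_s_gt hs, th_follow hz, th_a_gt ha,
    P.a_reads (!z) w (snr_of_codes hρ h) hw, reads_of_codes h] with ω g1 g0 g2 g3 g4 g5
  exact mux_pt g1 _ (Or.inl g0) (Or.inr (Or.inl g2)) (Or.inr (Or.inr (Or.inl g3)))
    (Or.inr (Or.inr (Or.inr (g4 g5 c))))

theorem m_both {ρ' : ℝ} (P : PD A ρ') (hs : 1 / 6 < A.qs 2) (ha : A.qs 0 < 1 / 2)
    {w : A.Cfg} (h1 : A.SNr ρ' false w) (h2 : A.SNr ρ' true w) :
    A.SCodes false w ∧ A.SCodes true w := by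
  have key : ∀ z ∈ ({false, true} : Finset Bool), A.SCodes z w := by
    refine P.joint {false, true} (fun _ => w) (fun z _ => ?_) ?_
    · cases z
      · exact h1
      · exact h2
    · filter_upwards [rel_m false, rel_m true, th_s_gt hs, th_a_lt ha, P.h_reads false w,
        P.h_reads true w] with ω g1 g2 g3 g4 g5 g6 g7 z _ c
      have e1 := g5 (g7 false (by simp)) c
      have e2 := g6 (g7 true (by simp)) c
      cases z
      · exact mux_pt (g1 c) _ (Or.inl g3) (Or.inr (Or.inr e1)) (Or.inr (Or.inr (Or.inr e2)))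
          (Or.inr (Or.inr (Or.inl g4)))
      · exact mux_pt (g2 c) _ (Or.inl g3) (Or.inr (Or.inr e2)) (Or.inr (Or.inr (Or.inr e1)))
          (Or.inr (Or.inr (Or.inl g4)))
  exact ⟨key false (by simp), key true (by simp)⟩

theorem cod_congr {w w' : A.Cfg} (h : ∀ᶠ n in (A.U : Filter ℕ), w n = w' n) :
    ∀ᶠ ω in A.F, ∀ c, A.cod w c ω = A.cod w' c ω := by
  have := ae_fst (Ω := fun n => (A.I n).Site) (Q := fun n => w n = w' n) h
  filter_upwards [this] with ω hω c
  show decide ((A.I ω.1).enc (w ω.1) c ω.2.1 = 1) = decide ((A.I ω.1).enc (w' ω.1) c ω.2.1 = 1)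
  rw [hω]

theorem m_link {ρ' : ℝ} (P : PD A ρ') (hs : 1 / 6 < A.qs 2) (ha : 1 / 2 < A.qs 0)
    {w w' : A.Cfg} (hw : A.Hd w) (hw' : A.Hd w')
    (e1 : ∀ᶠ n in (A.U : Filter ℕ), A.stp false w n = w' n)
    (e2 : ∀ᶠ n in (A.U : Filter ℕ), A.stp true w' n = w n)
    (h1 : A.SNr ρ' false w) (h2 : A.SNr ρ' true w') :
    A.SCodes false w ∧ A.SCodes true w' := by
  have key : ∀ z ∈ ({false, true} : Finset Bool), A.SCodes z (if z then w' else w) := by
    refine P.joint {false, true} (fun z => if z then w' else w) (fun z _ => ?_) ?_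
    · cases z
      · exact h1
      · exact h2
    · filter_upwards [rel_m false, rel_m true, th_s_gt hs, th_a_gt ha, P.h_reads false w,
        P.h_reads true w', P.a_reads false w h1 hw, P.a_reads true w' h2 hw', cod_congr e1,
        cod_congr e2] with ω g1 g2 g3 g4 g5 g6 g7 g8 g9 g10 g11 z _ c
      have r1 : A.Reads false w ω := g11 false (by simp)
      have r2 : A.Reads true w' ω := g11 true (by simp)
      have f1 := g5 r1 c
      have f2 := g6 r2 c
      have f3 := g7 r1 c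
      have f4 := g8 r2 c
      rw [g9 c] at f3
      rw [g10 c] at f4
      cases z
      · exact mux_pt (g1 c) _ (Or.inl g3) (Or.inr (Or.inr f1)) (Or.inr (Or.inr (Or.inl g4)))
          (Or.inr (Or.inr (Or.inr f4)))
      · exact mux_pt (g2 c) _ (Or.inl g3) (Or.inr (Or.inr f2)) (Or.inr (Or.inr (Or.inl g4)))
          (Or.inr (Or.inr (Or.inr f3)))
  exact ⟨key false (by simp), key true (by simp)⟩

/-- The corrected reads of the next configuration, exact version. -/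
theorem a_is' {ρ' : ℝ} (hρ : 0 < ρ') (P : PD A ρ') {z : Bool} {w : A.Cfg} (hw : A.Hd w)
    (h : A.SCodes z w) (c : S.Comp) : A.Is (A.cod (A.stp z w) c) (.a z c) := by
  filter_upwards [P.a_reads z w (snr_of_codes hρ h) hw, reads_of_codes h] with ω g1 g2
  exact g1 g2 c

theorem hd_of_valid {w : A.Cfg} (h : ∀ᶠ n in (A.U : Filter ℕ), (A.I n).Valid (w n)) : A.Hd w :=
  h.mono fun n hn => (A.facts n).head _ hn

end Lim

end Vale.Agent.P330.S
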