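import Vale.Agent.P330.S.Defs
import Vale.Agent.P330.Tensor

/-!
# Finite test soundness

A family of tables `f c : V → ZMod 2` that passes the subtests (linearity in every block, product,
static contents, windows) except with a small probability is close to the code of a valid
configuration.
-/

set_option linter.unusedSectionVars false

namespace Vale.Agent.P330.MLT

open Finset PCP.AR

section generic

/-- pushing the uniform measure forward along a surjective homomorphism -/
theorem pr_hom {G H : Type*} [AddCommGroup G] [AddCommGroup H] [Fintype G] [Fintype H]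
    (φ : G →+ H) (hφ : Function.Surjective φ) (Q : H → Prop) :
    pr (fun g => Q (φ g)) = pr Q := by
  classical
  obtain ⟨s, hs⟩ := hφ.hasRightInverse
  have h1 : ∀ h : H, pr (fun g : G => Q (φ g + h)) = pr (fun g => Q (φ g)) := by
    intro h
    have := pr_translate (s h) (fun g => Q (φ g))
    rw [← this]
    apply pr_congr
    intro g
    rw [map_add, hs h, add_comm]
  have h2 : ∀ g : G, pr (fun h : H => Q (φ g + h)) = pr Q := fun g =>
    pr_translate (φ g) Q
  have e1 : pr (fun t : H × G => Q (φ t.2 + t.1)) = pr (fun g => Q (φ g)) := by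
    apply le_antisymm
    · exact pr_prod_le _ _ fun h => (h1 h).le
    · exact le_pr_prod _ _ fun h => (h1 h).ge
  have e2 : pr (fun t : G × H => Q (φ t.1 + t.2)) = pr Q := by
    apply le_antisymm
    · exact pr_prod_le _ _ fun g => (h2 g).le
    · exact le_pr_prod _ _ fun g => (h2 g).ge
  have e3 := pr_equiv (Equiv.prodComm H G) (fun t : G × H => Q (φ t.1 + t.2))
  rw [← e1, ← e2, ← e3]
  rfl

variable {ι : Type*} [Fintype ι] [DecidableEq ι] {A A' : ι → Type*} [∀ i, AddCommGroup (A i)]
  [∀ i, AddCommGroup (A' i)]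

theorem MultiAdd.comp {g : (∀ i, A i) → ZMod 2} (hg : MultiAdd g) (h : ∀ i, A' i → A i)
    (hh : ∀ i u v, h i (u + v) = h i u + h i v) : MultiAdd (fun u => g (fun i => h i (u i))) := by
  intro i x u v
  have e : ∀ w : A' i, (fun j => h j (Function.update x i w j)) =
      Function.update (fun j => h j (x j)) i (h i w) := by
    intro w
    funext j
    by_cases hj : j = i
    · subst hj; simp
    · simp [Function.update_of_ne hj]
  simp only [e, hh]
  exact hg i _ _ _

theorem MultiAdd.zero : MultiAdd (fun _ : ∀ i, A i => (0 : ZMod 2)) := by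
  intro i x u v
  simp

theorem MultiAdd.add {g g' : (∀ i, A i) → ZMod 2} (hg : MultiAdd g) (hg' : MultiAdd g') :
    MultiAdd (fun x => g x + g' x) := by
  intro i x u v
  simp only
  rw [hg, hg']
  ring

theorem MultiAdd.sum {κ : Type*} (s : Finset κ) (g : κ → (∀ i, A i) → ZMod 2)
    (hg : ∀ k ∈ s, MultiAdd (g k)) : MultiAdd (fun x => ∑ k ∈ s, g k x) := by
  intro i x u v
  simp only
  rw [← Finset.sum_add_distrib]
  exact Finset.sum_congr rfl fun k hk => hg k hk i x u v

end generic

end Vale.Agent.P330.MLT

namespace Vale.Agent.P330.S.TS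

open Finset PCP.AR MLT

variable {S : Spec} {r : ℕ}

/-- `T_e` at the `t`-th vector, read with the pad. -/
def rdT (I : Inst S r) (f : S.Comp → I.V → ZMod 2) (e : S.Cell) (t : S.Slot) (ω : I.Site) :
    ZMod 2 :=
  ∑ c : S.Comp, if c 0 = e then MLT.cs (f c) (I.phi (.lin t) ω.1) ω.2 else 0

/-- The subtests fail with probability at most `η`. -/
structure Tests (I : Inst S r) (f : S.Comp → I.V → ZMod 2) (η : ℝ) : Prop where
  lin : ∀ c i, MLT.tf (A := fun i => I.X i → ZMod 2) (f c) i ≤ η
  prod : ∀ c, pr (fun ω : I.Site => MLT.cs (f c) (I.phi .prod ω.1) ω.2 ≠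
    ∏ t, rdT I f (c t) t ω) ≤ η
  stat : ∀ q, pr (fun ω : I.Site => (∑ e : S.Cell, if S.statOf e = q then rdT I f e 0 ω else 0) ≠
    ∑ j : I.J, if I.stat j = q then ∏ i, I.vec 0 i (ω.1 i) (j i) else 0) ≤ η
  win : ∀ c, S.allowed c = false →
    pr (fun ω : I.Site => MLT.cs (f c) (I.phi .win ω.1) ω.2 ≠ 0) ≤ η

/-! ### The vectors hidden in a table argument -/

/-- all vectors -/
abbrev _root_.Vale.Agent.P330.S.Inst.W (I : Inst S r) : Type := ∀ p : S.Slot × Fin r, ZMod (I.L p.2) → ZMod 2

/-- extraction of the vectors -/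
def vecs (I : Inst S r) : I.V →+ I.W where
  toFun M := fun p => I.vec p.1 p.2 (M p.2)
  map_zero' := rfl
  map_add' _ _ := rfl

theorem slot_cast_inj (I : Inst S r) (i : Fin r) {t t' : S.Slot}
    (h : ((t : ℕ) : ZMod (I.L i)) = ((t' : ℕ) : ZMod (I.L i))) : t = t' := by
  have h1 := (ZMod.natCast_eq_natCast_iff' (t : ℕ) (t' : ℕ) (I.L i)).1 h
  have hL := I.hL i
  rw [Nat.mod_eq_of_lt (lt_of_lt_of_le t.2 hL), Nat.mod_eq_of_lt (lt_of_lt_of_le t'.2 hL)] at h1
  exact Fin.ext h1

theorem vecs_surj (I : Inst S r) : Function.Surjective (vecs I) := by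
  classical
  intro y
  let M : I.V := fun i k => ∑ t : S.Slot,
    if k = (fun u => if u = 0 then k 0 else if u = 1 then ((t : ℕ) : ZMod (I.L i)) else 0) then
      y (t, i) (k 0) else 0
  refine ⟨M, ?_⟩
  funext p a
  obtain ⟨t, i⟩ := p
  show M i (fun u => if u = 0 then a else if u = 1 then ((t : ℕ) : ZMod (I.L i)) else 0) =
    y (t, i) a
  simp only [M]
  rw [Finset.sum_eq_single t]
  · simp
  · intro t' _ ht'
    rw [if_neg]
    intro h
    apply ht'
    have h1 := congrFun h 1
    simp only [one_ne_zero, if_false, if_true] at h1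
    exact (slot_cast_inj I i h1).symm
  · intro h
    exact absurd (Finset.mem_univ t) h

/-- one vector -/
theorem pr_vecs (I : Inst S r) (Q : I.W → Prop) : pr (fun M : I.V => Q (vecs I M)) = pr Q :=
  pr_hom (vecs I) (vecs_surj I) Q

/-- the vector `t` of a list of vectors -/
def getv (I : Inst S r) (t : S.Slot) (x : I.W) : ∀ i, ZMod (I.L i) → ZMod 2 := fun i => x (t, i)

theorem pr_getv (I : Inst S r) (t : S.Slot) (Q : (∀ i, ZMod (I.L i) → ZMod 2) → Prop) :
    pr (fun M : I.V => Q (getv I t (vecs I M))) = pr Q := by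
  rw [pr_vecs I (fun x => Q (getv I t x))]
  let φ : I.W →+ (∀ i, ZMod (I.L i) → ZMod 2) :=
    { toFun := getv I t, map_zero' := rfl, map_add' := fun _ _ => rfl }
  refine pr_hom φ ?_ Q
  intro y
  exact ⟨fun p => y p.2, rfl⟩

/-! ### The functionals -/

/-- tensor product of the vectors -/
def tens (I : Inst S r) (x : I.W) : I.V := fun i k => ∏ t, x (t, i) (k t)

theorem phi_prod (I : Inst S r) (M : I.V) : I.phi .prod M = tens I (vecs I M) := rfl

/-- a vector as a table argument -/
def emb (I : Inst S r) (u : ∀ i, ZMod (I.L i) → ZMod 2) : I.V :=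
  fun i k => if ∀ s, s ≠ 0 → k s = 0 then u i (k 0) else 0

theorem phi_lin (I : Inst S r) (t : S.Slot) (M : I.V) :
    I.phi (.lin t) M = emb I (getv I t (vecs I M)) := rfl

/-- the window functional of a vector -/
def wemb (I : Inst S r) (u : ∀ i, ZMod (I.L i) → ZMod 2) : I.V :=
  fun i k => if ∀ t, k t - I.off (S.win t) i = k 0 - I.off (S.win 0) i then
    u i (k 0 - I.off (S.win 0) i) else 0

theorem phi_win (I : Inst S r) (M : I.V) : I.phi .win M = wemb I (getv I 0 (vecs I M)) := rfl

/-- `T_e` of the corrected tables -/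
def Te (I : Inst S r) (g : S.Comp → I.V → ZMod 2) (e : S.Cell)
    (u : ∀ i, ZMod (I.L i) → ZMod 2) : ZMod 2 :=
  ∑ c : S.Comp, if c 0 = e then g c (emb I u) else 0

/-- multiadditive family -/
def MA (I : Inst S r) (g : S.Comp → I.V → ZMod 2) : Prop :=
  ∀ c, MultiAdd (A := fun i => I.X i → ZMod 2) (g c)

theorem Te_multiAdd (I : Inst S r) {g : S.Comp → I.V → ZMod 2} (hg : MA I g) (e : S.Cell) :
    MultiAdd (A := fun i => ZMod (I.L i) → ZMod 2) (Te I g e) := by
  unfold Te
  refine MultiAdd.sum univ _ fun c _ => ?_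
  by_cases hc : c 0 = e
  · simp only [hc, if_true]
    refine MultiAdd.comp (A := fun i => I.X i → ZMod 2) (A' := fun i => ZMod (I.L i) → ZMod 2)
      (hg c) (fun i u k => if ∀ s, s ≠ 0 → k s = 0 then u (k 0) else 0) ?_
    intro i u v
    funext k
    by_cases h : ∀ s, s ≠ 0 → k s = 0
    · simp only [if_pos h, Pi.add_apply]
    · simp only [if_neg h, Pi.add_apply, add_zero]
  · simp only [hc, if_false]
    exact MultiAdd.zero

theorem wemb_multiAdd (I : Inst S r) {g : S.Comp → I.V → ZMod 2} (hg : MA I g) (c : S.Comp) :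
    MultiAdd (A := fun i => ZMod (I.L i) → ZMod 2) (fun u => g c (wemb I u)) := by
  refine MultiAdd.comp (A := fun i => I.X i → ZMod 2) (A' := fun i => ZMod (I.L i) → ZMod 2)
      (hg c) (fun i u k => if ∀ t, k t - I.off (S.win t) i = k 0 - I.off (S.win 0) i then
        u (k 0 - I.off (S.win 0) i) else 0) ?_
  intro i u v
  funext k
  by_cases h : ∀ t, k t - I.off (S.win t) i = k 0 - I.off (S.win 0) i
  · simp only [if_pos h, Pi.add_apply]
  · simp only [if_neg h, Pi.add_apply, add_zero]

theorem tens_multiAdd (I : Inst S r) {g : S.Comp → I.V → ZMod 2} (hg : MA I g) (c : S.Comp) :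
    MultiAdd (A := fun p : S.Slot × Fin r => ZMod (I.L p.2) → ZMod 2)
      (fun x => g c (tens I x)) := by
  classical
  intro p x u v
  obtain ⟨t, i⟩ := p
  let B : (ZMod (I.L i) → ZMod 2) → (I.X i → ZMod 2) := fun w k =>
    w (k t) * ∏ s ∈ univ.erase t, x (s, i) (k s)
  have e : ∀ w : ZMod (I.L i) → ZMod 2, tens I (Function.update x (t, i) w) =
      Function.update (tens I x) i (B w) := by
    intro w
    funext i' k
    by_cases hi : i' = i
    · subst hi
      rw [Function.update_self]
      show ∏ s, _ = _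
      rw [← Finset.mul_prod_erase univ _ (Finset.mem_univ t), Function.update_self]
      congr 1
      refine Finset.prod_congr rfl fun s hs => ?_
      rw [Function.update_of_ne]
      intro h
      exact Finset.ne_of_mem_erase hs (Prod.ext_iff.1 h).1
    · rw [Function.update_of_ne hi]
      show ∏ s, _ = ∏ s, _
      refine Finset.prod_congr rfl fun s _ => ?_
      rw [Function.update_of_ne]
      intro h
      exact hi (Prod.ext_iff.1 h).2
  have hB : B (u + v) = B u + B v := by
    funext k
    simp only [B, Pi.add_apply, add_mul]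
  simp only [e, hB]
  exact hg c i _ _ _

theorem prodTe_multiAdd (I : Inst S r) {g : S.Comp → I.V → ZMod 2} (hg : MA I g) (c : S.Comp) :
    MultiAdd (A := fun p : S.Slot × Fin r => ZMod (I.L p.2) → ZMod 2)
      (fun x => ∏ t, Te I g (c t) (getv I t x)) := by
  classical
  intro p x u v
  obtain ⟨t, i⟩ := p
  have e : ∀ w : ZMod (I.L i) → ZMod 2, ∏ s, Te I g (c s) (getv I s (Function.update x (t, i) w)) =
      Te I g (c t) (Function.update (getv I t x) i w) *
        ∏ s ∈ univ.erase t, Te I g (c s) (getv I s x) := by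
    intro w
    rw [← Finset.mul_prod_erase univ _ (Finset.mem_univ t)]
    congr 1
    · congr 1
      funext i'
      by_cases hi : i' = i
      · subst hi
        simp [getv]
      · rw [Function.update_of_ne hi]
        show Function.update x (t, i) w (t, i') = x (t, i')
        rw [Function.update_of_ne]
        intro h
        exact hi (Prod.ext_iff.1 h).2
    · refine Finset.prod_congr rfl fun s hs => ?_
      congr 1
      funext i'
      show Function.update x (t, i) w (s, i') = x (s, i')
      rw [Function.update_of_ne]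
      intro h
      exact Finset.ne_of_mem_erase hs (Prod.ext_iff.1 h).1
  simp only [e]
  rw [Te_multiAdd I hg (c t) i _ u v, add_mul]

/-- the entry `w_e(j)` -/
def we (I : Inst S r) (g : S.Comp → I.V → ZMod 2) (e : S.Cell) (j : I.J) : ZMod 2 :=
  Te I g e (fun i => Pi.single (j i) 1)

theorem Te_eq (I : Inst S r) {g : S.Comp → I.V → ZMod 2} (hg : MA I g) (e : S.Cell)
    (u : ∀ i, ZMod (I.L i) → ZMod 2) :
    Te I g e u = ∑ j : I.J, we I g e j * ∏ i, u i (j i) :=
  multiAdd_rep (B := fun i => ZMod (I.L i)) (Te_multiAdd I hg e) u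

/-- the product identity determines the tables -/
theorem g_entry (I : Inst S r) {g : S.Comp → I.V → ZMod 2}
    (hprod : ∀ c x, g c (tens I x) = ∏ t, Te I g (c t) (getv I t x)) (c : S.Comp)
    (k : ∀ i, I.X i) :
    g c (fun i => Pi.single (k i) 1) = ∏ t, we I g (c t) (fun i => k i t) := by
  classical
  have h := hprod c (fun p => Pi.single (k p.2 p.1) 1)
  have e1 : tens I (fun p => Pi.single (k p.2 p.1) 1) = fun i => Pi.single (k i) 1 := by
    funext i x
    show ∏ t, (Pi.single (k i t) (1 : ZMod 2) : ZMod (I.L i) → ZMod 2) (x t) = _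
    by_cases hx : x = k i
    · subst hx
      simp
    · rw [Pi.single_eq_of_ne hx]
      obtain ⟨t, ht⟩ := Function.ne_iff.1 hx
      exact Finset.prod_eq_zero (Finset.mem_univ t) (Pi.single_eq_of_ne ht 1)
  rw [e1] at h
  rw [h]
  rfl

/-- the code of a configuration is the evaluation of its tensor -/
theorem enc_eq_ev (I : Inst S r) (w : I.J → S.Cell) (c : S.Comp) (M : I.V) :
    I.enc w c M = ev (B := fun i => I.X i)
      (fun k => if ∀ t, w (fun i => k i t) = c t then 1 else 0) M := by
  classical
  unfold Inst.enc ev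
  refine Fintype.sum_equiv (Equiv.piComm (fun (_ : S.Slot) (i : Fin r) => ZMod (I.L i))) _ _
    fun j => ?_
  show (if ∀ t, w (j t) = c t then ∏ i, M i (fun t => j t i) else 0) =
    (if ∀ t, w (j t) = c t then (1 : ZMod 2) else 0) * ∏ i, M i (fun t => j t i)
  by_cases h : ∀ t, w (j t) = c t
  · rw [if_pos h, if_pos h, one_mul]
  · rw [if_neg h, if_neg h, zero_mul]

theorem enc_multiAdd' (I : Inst S r) (w : I.J → S.Cell) (c : S.Comp) :
    MultiAdd (A := fun i => I.X i → ZMod 2) (I.enc w c) := by
  have : I.enc w c = ev (B := fun i => I.X i)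
      (fun k => if ∀ t, w (fun i => k i t) = c t then 1 else 0) := funext (enc_eq_ev I w c)
  rw [this]
  exact ev_multiAdd (B := fun i => I.X i) _

/-- the window functional -/
theorem g_wemb (I : Inst S r) {g : S.Comp → I.V → ZMod 2}
    (hprod : ∀ c x, g c (tens I x) = ∏ t, Te I g (c t) (getv I t x)) (c : S.Comp) (j : I.J) :
    g c (wemb I (fun i => Pi.single (j i) 1)) =
      ∏ t, we I g (c t) (j + I.off (S.win t)) := by
  classical
  have e : wemb I (fun i => Pi.single (j i) 1) =
      fun i => Pi.single (fun t => j i + I.off (S.win t) i) 1 := by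
    funext i k
    show (if _ then _ else _) = _
    by_cases hk : k = fun t => j i + I.off (S.win t) i
    · subst hk
      simp
    · rw [Pi.single_eq_of_ne hk]
      split_ifs with h
      · apply Pi.single_eq_of_ne
        intro h0
        apply hk
        funext t
        have := h t
        rw [h0] at this
        rw [← this]
        ring
      · rfl
  rw [e, g_entry I hprod]
  rfl

/-- **Algebraic part of the test soundness.** -/
theorem decode_alg (I : Inst S r) {g : S.Comp → I.V → ZMod 2} (hg : MA I g)
    (hprod : ∀ c x, g c (tens I x) = ∏ t, Te I g (c t) (getv I t x))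
    (hstat : ∀ q u, (∑ e : S.Cell, if S.statOf e = q then Te I g e u else 0) =
      ∑ j : I.J, if I.stat j = q then ∏ i, u i (j i) else 0)
    (hwin : ∀ c, S.allowed c = false → ∀ u, g c (wemb I u) = 0) :
    ∃ w, I.Valid w ∧ ∀ c M, g c M = I.enc w c M := by
  classical
  -- static part
  have hst : ∀ q j, (∑ e : S.Cell, if S.statOf e = q then we I g e j else 0) =
      if I.stat j = q then 1 else 0 := by
    intro q j
    rw [show (∑ e : S.Cell, if S.statOf e = q then we I g e j else 0) =
      ∑ e : S.Cell, if S.statOf e = q then Te I g e (fun i => Pi.single (j i) 1) else 0 from rfl,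
      hstat q]
    rw [Finset.sum_eq_single j]
    · simp
    · intro j' _ hj'
      obtain ⟨i, hi⟩ := Function.ne_iff.1 hj'
      rw [Finset.prod_eq_zero (Finset.mem_univ i) (Pi.single_eq_of_ne hi 1)]
      simp
    · intro h
      exact absurd (Finset.mem_univ j) h
  have hsum : ∀ j, ∑ e : S.Cell, we I g e j = 1 := by
    intro j
    have h1 : ∑ q : S.Stat, (∑ e : S.Cell, if S.statOf e = q then we I g e j else 0) =
        ∑ q : S.Stat, if I.stat j = q then (1 : ZMod 2) else 0 :=
      Finset.sum_congr rfl fun q _ => hst q j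
    rw [Finset.sum_comm] at h1
    simpa using h1
  have hw : ∀ c, S.allowed c = false → ∀ j, ∏ t, we I g (c t) (j + I.off (S.win t)) = 0 := by
    intro c hc j
    rw [← g_wemb I hprod]
    exact hwin c hc _
  -- orthogonality
  have horth : ∀ j e e', e ≠ e' → we I g e j * we I g e' j = 0 := by
    intro j e e' hee
    -- sum over the other slots
    have key : ∀ T : Finset S.Slot, (0 ∉ T) → (1 ∉ T) →
        ∀ c : S.Comp, c 0 = e → c 1 = e' →
        ∏ t ∈ univ \ T, we I g (c t) (j + I.off (S.win t)) = 0 := by
      intro T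
      induction T using Finset.induction_on with
      | empty =>
        intro _ _ c h0 h1
        have hc : S.allowed c = false := by
          cases h : S.allowed c with
          | false => rfl
          | true => exact absurd (S.allowed01 c h) (by rw [h0, h1]; exact hee)
        have := hw c hc j
        simpa using this
      | insert s T hs ih =>
        intro h0T h1T c h0 h1
        have h0T' : (0 : S.Slot) ∉ T := fun h => h0T (Finset.mem_insert_of_mem h)
        have h1T' : (1 : S.Slot) ∉ T := fun h => h1T (Finset.mem_insert_of_mem h)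
        have hs0 : (0 : S.Slot) ≠ s := fun h => h0T (h ▸ Finset.mem_insert_self _ _)
        have hs1 : (1 : S.Slot) ≠ s := fun h => h1T (h ▸ Finset.mem_insert_self _ _)
        have h3 : ∀ f : S.Cell, we I g f (j + I.off (S.win s)) *
            ∏ t ∈ univ \ insert s T, we I g (c t) (j + I.off (S.win t)) = 0 := by
          intro f
          have h4 := ih h0T' h1T' (Function.update c s f) (by rw [Function.update_of_ne hs0, h0])
            (by rw [Function.update_of_ne hs1, h1])
          have hsU : s ∈ univ \ T := by simp [hs]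
          rw [← Finset.mul_prod_erase _ _ hsU, Function.update_self] at h4
          have h5 : (univ \ T).erase s = univ \ insert s T := by
            ext t
            simp only [Finset.mem_erase, Finset.mem_sdiff, Finset.mem_univ, true_and,
              Finset.mem_insert, not_or]
          rw [h5] at h4
          rw [← h4]
          congr 1
          refine Finset.prod_congr rfl fun t ht => ?_
          have hts : t ≠ s := by
            intro h
            subst h
            simp at ht
          rw [Function.update_of_ne hts]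
        have h6 : (∑ f : S.Cell, we I g f (j + I.off (S.win s))) *
            ∏ t ∈ univ \ insert s T, we I g (c t) (j + I.off (S.win t)) = 0 := by
          rw [Finset.sum_mul]
          exact Finset.sum_eq_zero fun f _ => h3 f
        rwa [hsum, one_mul] at h6
    have h7 := key (univ \ {0, 1}) (by simp) (by simp)
      (fun t => if t = 0 then e else e') (by simp) (by simp)
    have h8 : (univ : Finset S.Slot) \ (univ \ {0, 1}) = {0, 1} := by
      ext t
      simp
    rw [h8, Finset.prod_pair (by simp), S.win0, S.win1, I.off_zero, add_zero] at h7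
    simpa using h7
  -- the configuration
  have hex : ∀ j, ∃ e, we I g e j = 1 := by
    intro j
    by_contra hc
    push Not at hc
    have : ∑ e : S.Cell, we I g e j = 0 := Finset.sum_eq_zero fun e _ =>
      (zmod2_cases _).resolve_right (hc e)
    rw [hsum] at this
    exact one_ne_zero this
  choose w hw1 using hex
  have hwe : ∀ j e, we I g e j = if w j = e then 1 else 0 := by
    intro j e
    by_cases h : w j = e
    · rw [if_pos h, ← h, hw1]
    · rw [if_neg h]
      have := horth j (w j) e h
      rwa [hw1, one_mul] at this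
  refine ⟨w, ⟨?_, ?_⟩, ?_⟩
  · intro j
    by_contra hne
    have h1 := hst (I.stat j) j
    rw [if_pos rfl] at h1
    simp only [hwe] at h1
    rw [Finset.sum_eq_single (w j)] at h1
    · rw [if_neg hne] at h1
      exact zero_ne_one h1
    · intro e _ he
      rw [if_neg (Ne.symm he)]
      simp
    · intro h
      exact absurd (Finset.mem_univ _) h
  · intro j
    by_contra hne
    have hc : S.allowed (fun t => w (j + I.off (S.win t))) = false := by
      simpa using hne
    have h1 := hw _ hc j
    simp only [hwe, if_true] at h1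
    simp at h1
  · intro c M
    rw [multiAdd_rep (B := fun i => I.X i) (hg c) M, enc_eq_ev]
    congr 1
    funext k
    show g c (fun i => Pi.single (k i) 1) = _
    rw [g_entry I hprod]
    simp only [hwe]
    by_cases h : ∀ t, w (fun i => k i t) = c t
    · rw [if_pos h]
      exact Finset.prod_eq_one fun t _ => if_pos (h t)
    · rw [if_neg h]
      push Not at h
      obtain ⟨t, ht⟩ := h
      exact Finset.prod_eq_zero (Finset.mem_univ t) (if_neg ht)

/-! ### Probabilistic part -/

theorem zmod2_self (I : Inst S r) : ∀ i (a : I.X i → ZMod 2), a + a = 0 := by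
  intro i a
  funext k
  exact zmod2_add_self _

/-- functions of the table argument only -/
theorem pr_arg (I : Inst S r) (Q : I.V → Prop) : pr (fun ω : I.Site => Q ω.1) = pr Q :=
  pr_fst Q

/-- the names of the special reads -/
def sphi (S : Spec) : Option (Option S.Slot) → Phi S
  | none => .prod
  | some none => .win
  | some (some t) => .lin t

/-- number of special cube sums -/
noncomputable def kk (S : Spec) : ℕ := Fintype.card (S.Comp × Option (Option S.Slot))

/-- all special cube sums are right -/
theorem all_cs (I : Inst S r) (f g : S.Comp → I.V → ZMod 2) (ρ : ℝ)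
    (hg : ∀ c M, pr (fun z : I.V => MLT.cs (f c) M z ≠ g c M) ≤ ρ) :
    pr (fun ω : I.Site => ∃ p ∈ (univ : Finset (S.Comp × Option (Option S.Slot))),
      MLT.cs (f p.1) (I.phi (sphi S p.2) ω.1) ω.2 ≠ g p.1 (I.phi (sphi S p.2) ω.1)) ≤
      kk S * ρ := by
  classical
  have := pr_union (Ω := I.Site) (univ : Finset (S.Comp × Option (Option S.Slot)))
    (fun p ω => MLT.cs (f p.1) (I.phi (sphi S p.2) ω.1) ω.2 ≠ g p.1 (I.phi (sphi S p.2) ω.1)) ρ
    (fun p _ => pr_prod_le _ _ fun M => hg p.1 (I.phi (sphi S p.2) M))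
  rw [Finset.card_univ] at this
  exact this

/-- `rdT` is `T_e` when all cube sums are right -/
theorem rdT_eq (I : Inst S r) (f g : S.Comp → I.V → ZMod 2) (ω : I.Site)
    (h : ∀ p : S.Comp × Option (Option S.Slot),
      MLT.cs (f p.1) (I.phi (sphi S p.2) ω.1) ω.2 = g p.1 (I.phi (sphi S p.2) ω.1))
    (e : S.Cell) (t : S.Slot) :
    rdT I f e t ω = Te I g e (getv I t (vecs I ω.1)) := by
  unfold rdT Te
  refine Finset.sum_congr rfl fun c _ => ?_
  by_cases hc : c 0 = e
  · rw [if_pos hc, if_pos hc]
    exact h (c, some (some t))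
  · rw [if_neg hc, if_neg hc]

/-- An identity between functions of the table argument that holds often holds with the
exact functions. -/
theorem transfer (I : Inst S r) (f g : S.Comp → I.V → ZMod 2) (ρ η : ℝ)
    (hg : ∀ c M, pr (fun z : I.V => MLT.cs (f c) M z ≠ g c M) ≤ ρ)
    (P : I.Site → Prop) (hP : pr P ≤ η) (Q : I.V → Prop)
    (h : ∀ ω : I.Site, (∀ p : S.Comp × Option (Option S.Slot),
      MLT.cs (f p.1) (I.phi (sphi S p.2) ω.1) ω.2 = g p.1 (I.phi (sphi S p.2) ω.1)) →
      Q ω.1 → P ω) : pr Q ≤ η + kk S * ρ := by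
  rw [← pr_arg I Q]
  have h1 := all_cs I f g ρ hg
  have h2 := pr_or P (fun ω : I.Site => ∃ p ∈ (univ : Finset (S.Comp × Option (Option S.Slot))),
      MLT.cs (f p.1) (I.phi (sphi S p.2) ω.1) ω.2 ≠ g p.1 (I.phi (sphi S p.2) ω.1))
  refine le_trans (le_trans (pr_mono ?_) h2) (add_le_add hP h1)
  intro ω hω
  by_cases hb : ∃ p ∈ (univ : Finset (S.Comp × Option (Option S.Slot))),
      MLT.cs (f p.1) (I.phi (sphi S p.2) ω.1) ω.2 ≠ g p.1 (I.phi (sphi S p.2) ω.1)
  · exact Or.inr hb
  · left
    apply h ω _ hω
    intro p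
    by_contra hne
    exact hb ⟨p, Finset.mem_univ p, hne⟩

/-- the threshold and the constant of the test soundness -/
noncomputable def tsC (S : Spec) (r : ℕ) : ℝ :=
  3 * (r * 2 ^ r) + 1 + kk S * (r * 2 ^ r) + 3 / 2 * 2 ^ r

theorem tsC_pos (S : Spec) (r : ℕ) : 0 < tsC S r := by
  unfold tsC
  positivity

noncomputable def tsEta (S : Spec) (r : ℕ) : ℝ :=
  (1 / 2) ^ ((S.d + 2) * r) / (2 * tsC S r)

theorem tsEta_pos (S : Spec) (r : ℕ) : 0 < tsEta S r := by
  unfold tsEta
  have := tsC_pos S r
  positivity

/-- **Finite test soundness.** -/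
theorem ts_finite (I : Inst S r) (f : S.Comp → I.V → ZMod 2) (η : ℝ) (h0 : 0 ≤ η)
    (hη : η ≤ tsEta S r) (hT : Tests I f η) :
    ∃ w, I.Valid w ∧ ∀ c, pr (fun M : I.V => f c M ≠ I.enc w c M) ≤ 3 / 2 * 2 ^ r * η := by
  classical
  have hC := tsC_pos S r
  -- smallness
  have hsm : tsC S r * η < (1 / 2) ^ ((S.d + 2) * r) := by
    have h1 : tsC S r * η ≤ tsC S r * tsEta S r := mul_le_mul_of_nonneg_left hη hC.le
    have h2 : tsC S r * tsEta S r = (1 / 2) ^ ((S.d + 2) * r) / 2 := by
      unfold tsEta
      field_simp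
    have h3 : (0 : ℝ) < (1 / 2) ^ ((S.d + 2) * r) := by positivity
    linarith
  have hle1 : ((1 : ℝ) / 2) ^ ((S.d + 2) * r) ≤ 1 := pow_le_one₀ (by norm_num) (by norm_num)
  have hler : ((1 : ℝ) / 2) ^ ((S.d + 2) * r) ≤ (1 / 2) ^ r := by
    apply pow_le_pow_of_le_one (by norm_num) (by norm_num)
    nlinarith
  have hrho : rho (Fin r) η = r * (2 ^ r * η) := by
    unfold rho
    rw [Fintype.card_fin]
  have hrr : (0 : ℝ) ≤ r * 2 ^ r * η := by positivity
  have hkk : (0 : ℝ) ≤ kk S * (r * 2 ^ r) * η := by positivity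
  have hpp : (0 : ℝ) ≤ 3 / 2 * 2 ^ r * η := by positivity
  have hexp : tsC S r * η = 3 * (r * 2 ^ r * η) + η + kk S * (r * 2 ^ r) * η +
      3 / 2 * 2 ^ r * η := by
    unfold tsC
    ring
  have hr3 : 3 * rho (Fin r) η < 1 := by
    rw [hrho]
    nlinarith
  -- the corrected tables
  have hm := fun c => mlt (A := fun i => I.X i → ZMod 2) (zmod2_self I) (f c) η h0 (hT.lin c) hr3
  choose g hg1 hg2 hg3 using hm
  have hMA : MA I g := hg1
  have hsmall : η + kk S * rho (Fin r) η < (1 / 2) ^ ((S.d + 2) * r) := by
    rw [hrho]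
    nlinarith
  -- product identity
  have hprod : ∀ c x, g c (tens I x) = ∏ t, Te I g (c t) (getv I t x) := by
    intro c
    by_contra hne
    have hne' : (fun x => g c (tens I x)) ≠ fun x => ∏ t, Te I g (c t) (getv I t x) :=
      fun h => hne fun x => congrFun h x
    have h1 := dist (A := fun p : S.Slot × Fin r => ZMod (I.L p.2) → ZMod 2)
      (tens_multiAdd I hMA c) (prodTe_multiAdd I hMA c) hne'
    have h2 := transfer I f g _ η hg2 _ (hT.prod c)
      (fun M => g c (tens I (vecs I M)) ≠ ∏ t, Te I g (c t) (getv I t (vecs I M))) (by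
        intro ω hω hQ
        have e0 : MLT.cs (f c) (I.phi .prod ω.1) ω.2 = g c (I.phi .prod ω.1) := hω (c, none)
        rw [e0]
        rw [Finset.prod_congr rfl fun t _ => rdT_eq I f g ω hω (c t) t]
        exact hQ)
    rw [pr_vecs I (fun x => g c (tens I x) ≠ ∏ t, Te I g (c t) (getv I t x))] at h2
    rw [Fintype.card_prod, Fintype.card_fin, Fintype.card_fin] at h1
    linarith
  -- static identity
  have hstat : ∀ q u, (∑ e : S.Cell, if S.statOf e = q then Te I g e u else 0) =
      ∑ j : I.J, if I.stat j = q then ∏ i, u i (j i) else 0 := by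
    intro q
    by_contra hne
    have hne' : (fun u : ∀ i, ZMod (I.L i) → ZMod 2 =>
        ∑ e : S.Cell, if S.statOf e = q then Te I g e u else 0) ≠
      fun u => ∑ j : I.J, if I.stat j = q then ∏ i, u i (j i) else 0 :=
      fun h => hne fun x => congrFun h x
    have hA1 : MultiAdd (A := fun i => ZMod (I.L i) → ZMod 2)
        (fun u => ∑ e : S.Cell, if S.statOf e = q then Te I g e u else 0) := by
      refine MultiAdd.sum univ _ fun e _ => ?_
      by_cases he : S.statOf e = q
      · simp only [he, if_true]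
        exact Te_multiAdd I hMA e
      · simp only [he, if_false]
        exact MultiAdd.zero
    have hA2 : MultiAdd (A := fun i => ZMod (I.L i) → ZMod 2)
        (fun u => ∑ j : I.J, if I.stat j = q then ∏ i, u i (j i) else 0) := by
      have : (fun u : ∀ i, ZMod (I.L i) → ZMod 2 =>
          ∑ j : I.J, if I.stat j = q then ∏ i, u i (j i) else 0) =
          ev (B := fun i => ZMod (I.L i)) (fun j => if I.stat j = q then 1 else 0) := by
        funext u
        unfold ev
        refine Finset.sum_congr rfl fun j _ => ?_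
        by_cases h : I.stat j = q
        · simp [h]
        · simp [h]
      rw [this]
      exact ev_multiAdd (B := fun i => ZMod (I.L i)) _
    have h1 := dist (A := fun i => ZMod (I.L i) → ZMod 2) hA1 hA2 hne'
    have h2 := transfer I f g _ η hg2 _ (hT.stat q)
      (fun M => (∑ e : S.Cell, if S.statOf e = q then Te I g e (getv I 0 (vecs I M)) else 0) ≠
        ∑ j : I.J, if I.stat j = q then ∏ i, getv I 0 (vecs I M) i (j i) else 0) (by
        intro ω hω hQ
        rw [Finset.sum_congr rfl fun e _ => by rw [rdT_eq I f g ω hω e 0]]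
        exact hQ)
    rw [pr_getv I 0 (fun u => (∑ e : S.Cell, if S.statOf e = q then Te I g e u else 0) ≠
      ∑ j : I.J, if I.stat j = q then ∏ i, u i (j i) else 0)] at h2
    rw [Fintype.card_fin] at h1
    linarith
  -- windows
  have hwin : ∀ c, S.allowed c = false → ∀ u, g c (wemb I u) = 0 := by
    intro c hc
    by_contra hne
    have hne' : (fun u => g c (wemb I u)) ≠ fun _ : ∀ i, ZMod (I.L i) → ZMod 2 => 0 :=
      fun h => hne fun x => congrFun h x
    have h1 := dist (A := fun i => ZMod (I.L i) → ZMod 2)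
      (wemb_multiAdd I hMA c) MultiAdd.zero hne'
    have h2 := transfer I f g _ η hg2 _ (hT.win c hc)
      (fun M => g c (wemb I (getv I 0 (vecs I M))) ≠ 0) (by
        intro ω hω hQ
        have e0 : MLT.cs (f c) (I.phi .win ω.1) ω.2 = g c (I.phi .win ω.1) := hω (c, some none)
        rw [e0]
        exact hQ)
    rw [pr_getv I 0 (fun u => g c (wemb I u) ≠ 0)] at h2
    rw [Fintype.card_fin] at h1
    linarith
  obtain ⟨w, hw, hgw⟩ := decode_alg I hMA hprod hstat hwin
  refine ⟨w, hw, fun c => ?_⟩
  have h4 := hg3 c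
  rw [Fintype.card_fin] at h4
  refine le_trans (le_of_eq ?_) (h4.trans (le_of_eq (by ring)))
  exact pr_congr fun M => by rw [hgw c M]

/-- different codes differ with probability at least `2 ^ (-r)` -/
theorem enc_dist (I : Inst S r) {w w' : I.J → S.Cell} {c : S.Comp}
    (h : I.enc w c ≠ I.enc w' c) :
    (1 / 2 : ℝ) ^ r ≤ pr (fun M : I.V => I.enc w c M ≠ I.enc w' c M) := by
  have := dist (A := fun i => I.X i → ZMod 2) (enc_multiAdd' I w c) (enc_multiAdd' I w' c) h
  rwa [Fintype.card_fin] at this

/-- the code determines the configuration -/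
theorem enc_inj (I : Inst S r) {w w' : I.J → S.Cell} (h : ∀ c, I.enc w c = I.enc w' c) :
    w = w' := by
  classical
  funext j
  have h1 := congrFun (h (fun _ => w j)) (fun i => Pi.single (fun _ => j i) 1)
  rw [enc_eq_ev, enc_eq_ev, ev_single (B := fun i => I.X i), ev_single (B := fun i => I.X i)] at h1
  by_contra hne
  have h2 : ¬ ∀ _ : S.Slot, w' (fun i => j i) = w j := fun h => hne (h 0).symm
  have h3 : ∀ _ : S.Slot, w (fun i => j i) = w j := fun _ => rfl
  have h4 : (if ∀ _ : S.Slot, w (fun i => j i) = w j then (1 : ZMod 2) else 0) =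
    if ∀ _ : S.Slot, w' (fun i => j i) = w j then 1 else 0 := h1
  rw [if_pos h3, if_neg h2] at h4
  exact one_ne_zero h4

end Vale.Agent.P330.S.TS
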