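import Vale.Agent.P330.S.TSC

/-!
# The register test in the network (one network, pointwise and with probabilities)
-/

set_option linter.unusedSectionVars false

namespace Vale.Agent.P330.S.TS

open Finset PCP.AR MLT

variable {S : Spec} {r : ℕ}

/-- the read of an input of the test -/
def tiRd : TI S r → Rd S r
  | .lo _ => .self
  | .hi _ => .self
  | .b0 _ => .self
  | .b1 i _ => .b1 i
  | .b2 i _ => .b2 i
  | .pr _ A => .cube A .prod
  | .ln t _ A => .cube A (.lin t)
  | .wn _ A => .cube A .win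
  | .st _ => .self

/-- the register `z` holds the values of the tables `f` at the site -/
def Good (I : Inst S r) (ε : ℝ) (x : Reg S → I.Site → ℝ) (z : Bool)
    (f : S.Comp → I.V → ZMod 2) (ω : I.Site) : Prop :=
  ∀ c, IsB ε (decide (f c ω.1 = 1)) (x (.x z c) ω)

theorem b2_decide (a : ZMod 2) : b2 (decide (a = 1)) = a := by
  rcases zmod2_cases a with h | h <;> subst h <;> rfl

/-- inputs compatible with the values -/
def Comp' (I : Inst S r) (X : Exp I) (ε : ℝ) (x : Reg S → I.Site → ℝ) (z : Bool) (ω : I.Site)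
    (y : TI S r → Bool) : Prop :=
  ∀ i, Sum.elim (fun p => ∀ b', IsB ε b' (x p.2 ((I.sem X).rd p.1 ω)) → y i = b')
        (fun κ => y i = (I.sem X).cb κ ω) ((tDef r z).inp i)

/-- the read values -/
structure Vals (I : Inst S r) (f : S.Comp → I.V → ZMod 2) (ω : I.Site) (y : TI S r → Bool) :
    Prop where
  v0 : ∀ c, b2 (y (.b0 c)) = f c ω.1
  v1 : ∀ i c, b2 (y (.b1 i c)) = f c (Function.update ω.1 i (ω.2 i))
  v2 : ∀ i c, b2 (y (.b2 i c)) = f c (Function.update ω.1 i (ω.1 i + ω.2 i))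
  vp : ∀ c, (∑ A : Finset (Fin r), b2 (y (.pr c A))) = MLT.cs (f c) (I.phi .prod ω.1) ω.2
  vl : ∀ t c, (∑ A : Finset (Fin r), b2 (y (.ln t c A))) = MLT.cs (f c) (I.phi (.lin t) ω.1) ω.2
  vw : ∀ c, (∑ A : Finset (Fin r), b2 (y (.wn c A))) = MLT.cs (f c) (I.phi .win ω.1) ω.2
  vs : ∀ q, b2 (y (.st q)) = ∑ j : I.J, if I.stat j = q then
      ∏ i, I.vec 0 i (ω.1 i) (j i) else 0

theorem vals_of (I : Inst S r) (X : Exp I) (ε : ℝ) (x : Reg S → I.Site → ℝ) (z : Bool)
    (f : S.Comp → I.V → ZMod 2) (ω : I.Site)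
    (hG : ∀ i : TI S r, Good I ε x z f (I.rd (tiRd i) ω)) (y : TI S r → Bool)
    (hy : Comp' I X ε x z ω y) : Vals I f ω y := by
  have key : ∀ (i : TI S r) (c : S.Comp) (R : Rd S r), tiRd i = R →
      (tDef r z).inp i = .inl (R, .x z c) → b2 (y i) = f c (I.rd R ω).1 := by
    intro i c R hR hi
    have h1 := hy i
    rw [hi] at h1
    have h2 : y i = decide (f c (I.rd R ω).1 = 1) := by
      apply h1
      have := hG i c
      rw [hR] at this
      exact this
    rw [h2, b2_decide]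
  refine ⟨?_, ?_, ?_, ?_, ?_, ?_, ?_⟩
  · exact fun c => key (.b0 c) c .self rfl rfl
  · exact fun i c => key (.b1 i c) c (.b1 i) rfl rfl
  · exact fun i c => key (.b2 i c) c (.b2 i) rfl rfl
  · exact fun c => Finset.sum_congr rfl fun A _ => key (.pr c A) c (.cube A .prod) rfl rfl
  · exact fun t c => Finset.sum_congr rfl fun A _ => key (.ln t c A) c (.cube A (.lin t)) rfl rfl
  · exact fun c => Finset.sum_congr rfl fun A _ => key (.wn c A) c (.cube A .win) rfl rfl
  · intro q
    have h1 : y (.st q) = I.cb (.stat q) ω := hy (.st q)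
    rw [h1]
    exact b2_decide _

theorem linF_eq (I : Inst S r) (f : S.Comp → I.V → ZMod 2) (ω : I.Site) (y : TI S r → Bool)
    (h : Vals I f ω y) (e : S.Cell) (t : S.Slot) : linF y e t = rdT I f e t ω := by
  unfold linF rdT
  refine Finset.sum_congr rfl fun c _ => ?_
  by_cases hc : c 0 = e
  · rw [if_pos hc, if_pos hc, h.vl]
  · rw [if_neg hc, if_neg hc]

/-- the subtests of the tables `f` at the site -/
def SubOK (I : Inst S r) (f : S.Comp → I.V → ZMod 2) (ω : I.Site) : Prop :=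
  (∀ c i, f c ω.1 + f c (Function.update ω.1 i (ω.2 i)) +
      f c (Function.update ω.1 i (ω.1 i + ω.2 i)) = 0) ∧
    (∀ c, MLT.cs (f c) (I.phi .prod ω.1) ω.2 = ∏ t, rdT I f (c t) t ω) ∧
    (∀ q, (∑ e : S.Cell, if S.statOf e = q then rdT I f e 0 ω else 0) =
      ∑ j : I.J, if I.stat j = q then ∏ i, I.vec 0 i (ω.1 i) (j i) else 0) ∧
    (∀ c, S.allowed c = false → MLT.cs (f c) (I.phi .win ω.1) ω.2 = 0)

theorem testFails_iff (I : Inst S r) (f : S.Comp → I.V → ZMod 2) (ω : I.Site)
    (y : TI S r → Bool) (h : Vals I f ω y) :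
    TestFails y ↔ (∃ c, y (.lo c) = true ∧ y (.hi c) = false) ∨ ¬ SubOK I f ω := by
  unfold TestFails SubOK
  simp only [h.v0, h.v1, h.v2, h.vp, h.vw, h.vs, linF_eq I f ω y h]
  constructor
  · rintro (h1 | h1 | h1 | h1 | h1)
    · exact Or.inl h1
    · right
      rintro ⟨g1, _, _, _⟩
      obtain ⟨c, i, hci⟩ := h1
      exact hci (g1 c i)
    · right
      rintro ⟨_, g1, _, _⟩
      obtain ⟨c, hc⟩ := h1
      exact hc (g1 c)
    · right
      rintro ⟨_, _, g1, _⟩
      obtain ⟨q, hq⟩ := h1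
      exact hq (g1 q)
    · right
      rintro ⟨_, _, _, g1⟩
      obtain ⟨c, hc, hc'⟩ := h1
      exact hc' (g1 c hc)
  · rintro (h1 | h1)
    · exact Or.inl h1
    · right
      by_contra hc
      push Not at hc
      obtain ⟨g1, g2, g3, g4⟩ := hc
      exact h1 ⟨g1, g2, g3, g4⟩

/-- a flag makes the test fail -/
theorem t_of_flag (I : Inst S r) (X : Exp I) (τ : ℚ) (ε lam : ℝ) (x : Reg S → I.Site → ℝ)
    (z : Bool) (ω : I.Site) (hrel : (net S r τ (.t (.T z))).Rel (I.sem X) ε lam x (.t (.T z)) ω)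
    (c : S.Comp) (hlo : IsB ε true (x (.lo z c) ω)) (hhi : IsB ε false (x (.hi z c) ω)) :
    IsB ε true (x (.t (.T z)) ω) := by
  apply hrel true
  intro y hy
  have h1 : y (.lo c) = true := hy (.lo c) true hlo
  have h2 : y (.hi c) = false := hy (.hi c) false hhi
  exact @decide_eq_true _ (Classical.propDecidable _) (Or.inl ⟨c, h1, h2⟩)

/-- a failing subtest makes the test fail -/
theorem t_of_fail (I : Inst S r) (X : Exp I) (τ : ℚ) (ε lam : ℝ) (x : Reg S → I.Site → ℝ)
    (z : Bool) (ω : I.Site) (hrel : (net S r τ (.t (.T z))).Rel (I.sem X) ε lam x (.t (.T z)) ω)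
    (f : S.Comp → I.V → ZMod 2) (hG : ∀ i : TI S r, Good I ε x z f (I.rd (tiRd i) ω))
    (hf : ¬ SubOK I f ω) : IsB ε true (x (.t (.T z)) ω) := by
  apply hrel true
  intro y hy
  have hv := vals_of I X ε x z f ω hG y hy
  exact @decide_eq_true _ (Classical.propDecidable _) ((testFails_iff I f ω y hv).2 (Or.inr hf))

/-- when everything is right the test passes -/
theorem t_of_ok (I : Inst S r) (X : Exp I) (τ : ℚ) (ε lam : ℝ) (x : Reg S → I.Site → ℝ)
    (z : Bool) (ω : I.Site) (hrel : (net S r τ (.t (.T z))).Rel (I.sem X) ε lam x (.t (.T z)) ω)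
    (f : S.Comp → I.V → ZMod 2) (hG : ∀ i : TI S r, Good I ε x z f (I.rd (tiRd i) ω))
    (hlo : ∀ c, IsB ε (decide (f c ω.1 = 1)) (x (.lo z c) ω))
    (hhi : ∀ c, IsB ε (decide (f c ω.1 = 1)) (x (.hi z c) ω))
    (hf : SubOK I f ω) : IsB ε false (x (.t (.T z)) ω) := by
  apply hrel false
  intro y hy
  have hv := vals_of I X ε x z f ω hG y hy
  refine @decide_eq_false _ (Classical.propDecidable _) fun h => ?_
  rcases (testFails_iff I f ω y hv).1 h with ⟨c, h1, h2⟩ | h1
  · have h3 : y (.lo c) = decide (f c ω.1 = 1) := hy (.lo c) _ (hlo c)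
    have h4 : y (.hi c) = decide (f c ω.1 = 1) := hy (.hi c) _ (hhi c)
    rw [h3] at h1
    rw [h4, h1] at h2
    exact Bool.noConfusion h2
  · exact h1 hf

/-! ### Probabilities -/

/-- every read is a bijection of the sites -/
def rdEquiv' (I : Inst S r) : Rd S r → (I.Site ≃ I.Site)
  | .self => Equiv.refl _
  | .cube A φ =>
    { toFun := fun ω => (MLT.cp A (I.phi φ ω.1) ω.2, ω.1)
      invFun := fun σ => (σ.2, MLT.cp A (I.phi φ σ.2) σ.1)
      left_inv := by
        intro ω
        refine Prod.ext rfl ?_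
        funext i
        by_cases hi : i ∈ A
        · simp only [MLT.cp, hi, if_true, ← add_assoc, zmod2_self I, zero_add]
        · simp only [MLT.cp, hi, if_false]
      right_inv := by
        intro ω
        refine Prod.ext ?_ rfl
        funext i
        by_cases hi : i ∈ A
        · simp only [MLT.cp, hi, if_true, ← add_assoc, zmod2_self I, zero_add]
        · simp only [MLT.cp, hi, if_false] }
  | .b1 i =>
    { toFun := fun ω => (Function.update ω.1 i (ω.2 i), Function.update ω.2 i (ω.1 i))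
      invFun := fun ω => (Function.update ω.1 i (ω.2 i), Function.update ω.2 i (ω.1 i))
      left_inv := by
        intro ω
        ext1 <;> simp
      right_inv := by
        intro ω
        ext1 <;> simp }
  | .b2 i =>
    { toFun := fun ω => (Function.update ω.1 i (ω.1 i + ω.2 i), ω.2)
      invFun := fun ω => (Function.update ω.1 i (ω.1 i + ω.2 i), ω.2)
      left_inv := by
        intro ω
        ext1
        · simp only [Function.update_self, Function.update_idem]
          rw [add_assoc, zmod2_self I, add_zero, Function.update_eq_self]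
        · rfl
      right_inv := by
        intro ω
        ext1
        · simp only [Function.update_self, Function.update_idem]
          rw [add_assoc, zmod2_self I, add_zero, Function.update_eq_self]
        · rfl }

theorem rdEquiv'_apply (I : Inst S r) (R : Rd S r) (ω : I.Site) :
    rdEquiv' I R ω = I.rd R ω := by
  cases R <;> rfl

theorem pr_rd' (I : Inst S r) (R : Rd S r) (P : I.Site → Prop) :
    pr (fun ω => P (I.rd R ω)) = pr P := by
  have := pr_equiv (rdEquiv' I R) P
  rw [← this]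
  apply pr_congr
  intro ω
  rw [rdEquiv'_apply]

/-- number of inputs of the test -/
noncomputable def nTI (S : Spec) (r : ℕ) : ℕ := Fintype.card (TI S r)

/-- **Soundness of the test in the network.** -/
theorem tests_of_net (I : Inst S r) (X : Exp I) (τ : ℚ) (ε lam : ℝ) (x : Reg S → I.Site → ℝ)
    (z : Bool) (f : S.Comp → I.V → ZMod 2) (κ σ : ℝ)
    (hrel : pr (fun ω => ¬ (net S r τ (.t (.T z))).Rel (I.sem X) ε lam x (.t (.T z)) ω) ≤ κ)
    (hG : pr (fun ω => ¬ Good I ε x z f ω) ≤ σ)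
    (ht : pr (fun ω => IsB ε true (x (.t (.T z)) ω)) ≤ σ) :
    pr (fun ω => ¬ SubOK I f ω) ≤ κ + (nTI S r + 1) * σ := by
  classical
  have h1 := pr_union (Ω := I.Site) (univ : Finset (TI S r))
    (fun i ω => ¬ Good I ε x z f (I.rd (tiRd i) ω)) σ
    (fun i _ => by rw [pr_rd' I (tiRd i) (fun ω => ¬ Good I ε x z f ω)]; exact hG)
  rw [Finset.card_univ] at h1
  have h2 : pr (fun ω => ¬ SubOK I f ω) ≤
      pr (fun ω => (¬ (net S r τ (.t (.T z))).Rel (I.sem X) ε lam x (.t (.T z)) ω) ∨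
        ((∃ i ∈ (univ : Finset (TI S r)), ¬ Good I ε x z f (I.rd (tiRd i) ω)) ∨
          IsB ε true (x (.t (.T z)) ω))) := by
    apply pr_mono
    intro ω hω
    by_contra hc
    push Not at hc
    obtain ⟨c1, c2, c3⟩ := hc
    exact c3 (t_of_fail I X τ ε lam x z ω c1 f (fun i => c2 i (Finset.mem_univ i)) hω)
  have h3 := pr_or (fun ω => ¬ (net S r τ (.t (.T z))).Rel (I.sem X) ε lam x (.t (.T z)) ω)
    (fun ω => (∃ i ∈ (univ : Finset (TI S r)), ¬ Good I ε x z f (I.rd (tiRd i) ω)) ∨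
          IsB ε true (x (.t (.T z)) ω))
  have h4 := pr_or (fun ω => ∃ i ∈ (univ : Finset (TI S r)), ¬ Good I ε x z f (I.rd (tiRd i) ω))
    (fun ω => IsB ε true (x (.t (.T z)) ω))
  have h5 : (Fintype.card (TI S r) : ℝ) = nTI S r := rfl
  rw [h5] at h1
  linarith

theorem tests_of_sub (I : Inst S r) (f : S.Comp → I.V → ZMod 2) (η : ℝ)
    (h : pr (fun ω => ¬ SubOK I f ω) ≤ η) : Tests I f η := by
  refine ⟨?_, ?_, ?_, ?_⟩
  · intro c i
    refine le_trans (pr_mono ?_) h
    rintro ω hω ⟨g1, _⟩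
    apply hω
    have := g1 c i
    have s1 := zmod2_add_self (f c ω.1)
    have s2 := zmod2_add_self (f c (Function.update ω.1 i (ω.2 i)))
    linear_combination this - s1 - s2
  · intro c
    refine le_trans (pr_mono ?_) h
    rintro ω hω ⟨_, g1, _, _⟩
    exact hω (g1 c)
  · intro q
    refine le_trans (pr_mono ?_) h
    rintro ω hω ⟨_, _, g1, _⟩
    exact hω (g1 q)
  · intro c hc
    refine le_trans (pr_mono ?_) h
    rintro ω hω ⟨_, _, _, g1⟩
    exact hω (g1 c hc)

/-- **Soundness of the test in the network**, conclusion. -/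
theorem near_of_net (I : Inst S r) (X : Exp I) (τ : ℚ) (ε lam : ℝ) (x : Reg S → I.Site → ℝ)
    (z : Bool) (f : S.Comp → I.V → ZMod 2) (κ σ : ℝ) (hκ : 0 ≤ κ) (hσ : 0 ≤ σ)
    (hrel : pr (fun ω => ¬ (net S r τ (.t (.T z))).Rel (I.sem X) ε lam x (.t (.T z)) ω) ≤ κ)
    (hG : pr (fun ω => ¬ Good I ε x z f ω) ≤ σ)
    (ht : pr (fun ω => IsB ε true (x (.t (.T z)) ω)) ≤ σ)
    (hsm : κ + (nTI S r + 1) * σ ≤ tsEta S r) :
    ∃ w, I.Valid w ∧ Near I ε (σ + Fintype.card S.Comp *
      (3 / 2 * 2 ^ r * (κ + (nTI S r + 1) * σ))) x z w := by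
  classical
  have hT := tests_of_sub I f _ (tests_of_net I X τ ε lam x z f κ σ hrel hG ht)
  obtain ⟨w, hw, hf⟩ := ts_finite I f _ (by positivity) hsm hT
  refine ⟨w, hw, ?_⟩
  unfold Near
  have h1 := pr_union (Ω := I.Site) (univ : Finset S.Comp)
    (fun c ω => f c ω.1 ≠ I.enc w c ω.1) _
    (fun c _ => by rw [pr_arg I (fun M => f c M ≠ I.enc w c M)]; exact hf c)
  rw [Finset.card_univ] at h1
  have h2 := pr_or (fun ω => ¬ Good I ε x z f ω)
    (fun ω => ∃ c ∈ (univ : Finset S.Comp), f c ω.1 ≠ I.enc w c ω.1)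
  refine le_trans (le_trans (pr_mono ?_) h2) (add_le_add hG h1)
  rintro ω ⟨c, hc⟩
  by_contra hcon
  push Not at hcon
  obtain ⟨c1, c2⟩ := hcon
  have h3 := c1 c
  rw [c2 c (Finset.mem_univ c)] at h3
  exact hc h3

end Vale.Agent.P330.S.TS
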